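/- Row 32 (Heilbronn triangle problem, n^(-2+η)); paper proof: ideas 408 (helper70).
   Common definitions. -/
import Mathlib

set_option autoImplicit false

namespace Crest.Agent.R32

open Finset

/-- cross product -/
def crs {A : Type} [CommRing A] (u v : A × A) : A := u.1 * v.2 - u.2 * v.1

/-- `(b - a) × (c - a)` -/
def det3 {A : Type} [CommRing A] (a b c : A × A) : A :=
  (b.1 - a.1) * (c.2 - a.2) - (b.2 - a.2) * (c.1 - a.1)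

theorem det3_eq_crs {A : Type} [CommRing A] (a b c : A × A) :
    det3 a b c = crs (b - a) (c - a) := rfl

/-- sup norm on `ℤ²` -/
def nrm (v : ℤ × ℤ) : ℕ := max v.1.natAbs v.2.natAbs

/-- gcd of the coordinates -/
def gc (v : ℤ × ℤ) : ℕ := Int.gcd v.1 v.2

/-- harmonic sum `1 + 1/2 + ... + 1/Y` -/
noncomputable def Hs (Y : ℕ) : ℝ := ∑ k ∈ range Y, (1 : ℝ) / ((k : ℝ) + 1)

/-- the box `[-Y, Y]²` -/
noncomputable def bx (Y : ℕ) : Finset (ℤ × ℤ) := Icc (-(Y : ℤ)) (Y : ℤ) ×ˢ Icc (-(Y : ℤ)) (Y : ℤ)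

/-- `{0, ..., p-1}` as integers -/
noncomputable def bI (p : ℕ) : Finset ℤ := Ico (0 : ℤ) (p : ℤ)

/-- `{0, ..., p-1}²` -/
noncomputable def wI (p : ℕ) : Finset (ℤ × ℤ) := bI p ×ˢ bI p

/-- `β d' - β' d` -/
def nv (β β' : ℤ) (d d' : ℤ × ℤ) : ℤ × ℤ := (β * d'.1 - β' * d.1, β * d'.2 - β' * d.2)

/-- the plane over `ZMod Q` -/
abbrev F2 (Q : ℕ) := ZMod Q × ZMod Q

/-- matrices, given by their two columns `T.1 = T e₁`, `T.2 = T e₂` -/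
abbrev M2 (Q : ℕ) := F2 Q × F2 Q

/-- `T v` -/
def act {Q : ℕ} (T : M2 Q) (v : F2 Q) : F2 Q :=
  (v.1 * T.1.1 + v.2 * T.2.1, v.1 * T.1.2 + v.2 * T.2.2)

theorem crs_act {Q : ℕ} (T : M2 Q) (u v : F2 Q) :
    crs (act T u) (act T v) = crs T.1 T.2 * crs u v := by
  simp only [crs, act]; ring

theorem act_sub {Q : ℕ} (T : M2 Q) (u v : F2 Q) : act T (u - v) = act T u - act T v := by
  simp only [act, Prod.fst_sub, Prod.snd_sub]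
  ext <;> simp <;> ring

/-- `SL₂(ZMod Q)` -/
def SL (Q : ℕ) [NeZero Q] : Finset (M2 Q) := univ.filter (fun T => crs T.1 T.2 = 1)

theorem mem_SL {Q : ℕ} [NeZero Q] {T : M2 Q} : T ∈ SL Q ↔ crs T.1 T.2 = 1 := by
  simp [SL]

/-- lift to `{0, ..., Q-1}` -/
def lf {Q : ℕ} (x : ZMod Q) : ℤ := (x.val : ℤ)

/-- the point `lift (T r) + b * lift (T e₂) + Q * w` -/
def pt {Q : ℕ} (T : M2 Q) (r : F2 Q) (b : ℤ) (w : ℤ × ℤ) : ℤ × ℤ :=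
  (lf (act T r).1 + b * lf T.2.1 + (Q : ℤ) * w.1, lf (act T r).2 + b * lf T.2.2 + (Q : ℤ) * w.2)

/-- the configurations `(T, (b₁, b₂, b₃), (w₁, w₂, w₃))` -/
abbrev Cfg (Q : ℕ) := M2 Q × (ℤ × ℤ × ℤ) × ((ℤ × ℤ) × (ℤ × ℤ) × (ℤ × ℤ))

/-- all configurations with `T ∈ SL₂`, `bᵢ ∈ [0,p)`, `wᵢ ∈ [0,p)²` -/
noncomputable def cfg (Q p : ℕ) [NeZero Q] : Finset (Cfg Q) :=
  SL Q ×ˢ ((bI p ×ˢ bI p ×ˢ bI p) ×ˢ (wI p ×ˢ wI p ×ˢ wI p))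

/-- the cap function `θ (w₁² - ε w₂²) + l₁ w₁ + l₂ w₂ + c` mod `p` -/
def capf {p : ℕ} (ε : ZMod p) (ω : ZMod p × ZMod p × ZMod p × ZMod p) (w : ℤ × ℤ) : ZMod p :=
  ω.1 * ((w.1 : ZMod p) ^ 2 - ε * (w.2 : ZMod p) ^ 2) + ω.2.1 * (w.1 : ZMod p)
    + ω.2.2.1 * (w.2 : ZMod p) + ω.2.2.2

/-- its lift to `{0, ..., p-1}` -/
def bv {p : ℕ} (ε : ZMod p) (ω : ZMod p × ZMod p × ZMod p × ZMod p) (w : ℤ × ℤ) : ℤ :=
  ((capf ε ω w).val : ℤ)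

/-- the parameters of cap functions, `θ ≠ 0` -/
def Om (p : ℕ) [NeZero p] : Finset (ZMod p × ZMod p × ZMod p × ZMod p) :=
  univ.filter (fun ω => ω.1 ≠ 0)

theorem one_le_Hs {Y : ℕ} (hY : 1 ≤ Y) : 1 ≤ Hs Y := by
  unfold Hs
  obtain ⟨k, rfl⟩ : ∃ k, Y = k + 1 := ⟨Y - 1, by omega⟩
  rw [Finset.sum_range_succ']
  have : 0 ≤ ∑ k ∈ range k, (1 : ℝ) / (((k + 1 : ℕ) : ℝ) + 1) :=
    Finset.sum_nonneg fun _ _ => by positivity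
  simp only [Nat.cast_zero, zero_add, div_one]
  linarith

theorem Hs_nonneg (Y : ℕ) : 0 ≤ Hs Y := by
  unfold Hs
  exact Finset.sum_nonneg fun _ _ => by positivity

theorem Hs_mono {Y Y' : ℕ} (h : Y ≤ Y') : Hs Y ≤ Hs Y' := by
  unfold Hs
  exact Finset.sum_le_sum_of_subset_of_nonneg (Finset.range_mono h) fun _ _ _ => by positivity

end Crest.Agent.R32
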