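/- Row 32, pieces CAP, UNIF, CARDOM: the random cap functions
   `b_ω(w) = θ (w₁² - ε w₂²) + l₁ w₁ + l₂ w₂ + c` mod `p`, `ω = (θ, l₁, l₂, c)`, `θ ≠ 0`, `ε` a nonsquare.

   Notation mod `p`: `q(d) = d₁² - ε d₂²`, anisotropic: `q(d) = 0 → d = 0` (`ε` nonsquare: if `d₂ ≠ 0` then
   `ε = (d₁/d₂)²`).  The points `w ∈ wI p` have distinct residues mod `p` (coordinates in `[0,p)`), so the
   differences `d = w₂-w₁`, `d' = w₃-w₁` are nonzero mod `p` and `d ≠ d'` mod `p`.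

   `cap`: suppose `nv β β' d d' = 0` and `crs d d' = 0` (`β = b(w₂)-b(w₁)`, `β' = b(w₃)-b(w₁)`).  Mod `p`:
   `crs d d' = 0`, `d ≠ 0` give `d' = λ d`, `λ ≠ 0, 1`.  `β d' = β' d` gives `β' = λ β`.  But
   `β = θ (q(d) + 2 B(w₁,d)) + l(d)`, `β' = θ (λ² q(d) + 2 λ B(w₁,d)) + λ l(d)`, so
   `0 = β' - λ β = θ (λ² - λ) q(d) ≠ 0`.  Contradiction.

   `unif` (number of `ω ∈ Om p` with prescribed values at three distinct points is at most `p`): injection of
   the solution set into `ZMod p`.  If `crs d d' ≠ 0` mod `p`: `ω ↦ θ` is injective (for given `θ` the linear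
   system `l(d) = .., l(d') = ..` has a unique solution, then `c` is determined).  If `crs d d' = 0`:
   `d' = λ d` and `θ (λ² - λ) q(d) = β' - λ β` determines `θ`; `l(d)` is determined, and
   `ω ↦ l₂` is injective if `d₁ ≠ 0`, `ω ↦ l₁` if `d₁ = 0` (`d₂ ≠ 0`); `c` is determined by `θ, l`.

   `card_Om`: `|Om p| = (p-1) p³`. -/
import Crest.Agent.R32.Defs

set_option autoImplicit false

namespace Crest.Agent.R32

open Finset

private theorem bI_inj {p : ℕ} {a b : ℤ} (ha : a ∈ bI p) (hb : b ∈ bI p)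
    (h : (a : ZMod p) = (b : ZMod p)) : a = b := by
  rw [bI, mem_Ico] at ha hb
  have h' := (ZMod.intCast_eq_intCast_iff a b p).1 h
  unfold Int.ModEq at h'
  rwa [Int.emod_eq_of_lt ha.1 ha.2, Int.emod_eq_of_lt hb.1 hb.2] at h'

private theorem wI_inj {p : ℕ} {a b : ℤ × ℤ} (ha : a ∈ wI p) (hb : b ∈ wI p)
    (h1 : (a.1 : ZMod p) = (b.1 : ZMod p)) (h2 : (a.2 : ZMod p) = (b.2 : ZMod p)) : a = b := by
  rw [wI, mem_product] at ha hb
  exact Prod.ext (bI_inj ha.1 hb.1 h1) (bI_inj ha.2 hb.2 h2)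

private theorem bv_cast {p : ℕ} [Fact p.Prime] (ε : ZMod p)
    (ω : ZMod p × ZMod p × ZMod p × ZMod p) (w : ℤ × ℤ) :
    ((bv ε ω w : ℤ) : ZMod p) = capf ε ω w := by
  unfold bv
  push_cast
  exact ZMod.natCast_zmod_val _

private theorem q_ne {p : ℕ} [Fact p.Prime] {ε : ZMod p} (hε : ¬ IsSquare ε) {x y : ZMod p}
    (h : ¬ (x = 0 ∧ y = 0)) : x ^ 2 - ε * y ^ 2 ≠ 0 := by
  intro h0
  by_cases hy : y = 0
  · subst hy
    apply h
    refine ⟨?_, rfl⟩
    have : x ^ 2 = 0 := by linear_combination h0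
    exact pow_eq_zero_iff (two_ne_zero) |>.1 this
  · apply hε
    refine ⟨x / y, ?_⟩
    field_simp
    linear_combination -h0

theorem cap {p : ℕ} [Fact p.Prime] (ε : ZMod p) (hε : ¬ IsSquare ε)
    (ω : ZMod p × ZMod p × ZMod p × ZMod p) (hω : ω ∈ Om p) (w1 w2 w3 : ℤ × ℤ)
    (h1 : w1 ∈ wI p) (h2 : w2 ∈ wI p) (h3 : w3 ∈ wI p) (h12 : w1 ≠ w2) (h13 : w1 ≠ w3) (h23 : w2 ≠ w3) :
    ¬ (nv (bv ε ω w2 - bv ε ω w1) (bv ε ω w3 - bv ε ω w1) (w2 - w1) (w3 - w1) = 0 ∧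
        crs (w2 - w1) (w3 - w1) = 0) := by
  rintro ⟨hnv, hcr⟩
  have hθ : ω.1 ≠ 0 := by
    rw [Om, mem_filter] at hω
    exact hω.2
  -- reduce modulo `p`
  have e1 := congrArg (fun v : ℤ × ℤ => ((v.1 : ℤ) : ZMod p)) hnv
  have e2 := congrArg (fun v : ℤ × ℤ => ((v.2 : ℤ) : ZMod p)) hnv
  have e3 := congrArg (fun v : ℤ => ((v : ℤ) : ZMod p)) hcr
  simp only [nv, crs, Prod.fst_sub, Prod.snd_sub, Prod.fst_zero, Prod.snd_zero, Int.cast_sub,
    Int.cast_mul, Int.cast_zero, bv_cast] at e1 e2 e3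
  simp only [capf] at e1 e2
  obtain ⟨θ, l1, l2, c⟩ := ω
  simp only at e1 e2 hθ
  have hD : ¬ ((w2.1 : ZMod p) - (w1.1 : ZMod p) = 0 ∧ (w2.2 : ZMod p) - (w1.2 : ZMod p) = 0) := by
    rintro ⟨ha, hb⟩
    exact h12 (wI_inj h1 h2 (sub_eq_zero.1 ha).symm (sub_eq_zero.1 hb).symm)
  have hD' : ¬ ((w3.1 : ZMod p) - (w1.1 : ZMod p) = 0 ∧ (w3.2 : ZMod p) - (w1.2 : ZMod p) = 0) := by
    rintro ⟨ha, hb⟩
    exact h13 (wI_inj h1 h3 (sub_eq_zero.1 ha).symm (sub_eq_zero.1 hb).symm)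
  have hDD : ¬ ((w2.1 : ZMod p) - (w1.1 : ZMod p) = (w3.1 : ZMod p) - (w1.1 : ZMod p) ∧
      (w2.2 : ZMod p) - (w1.2 : ZMod p) = (w3.2 : ZMod p) - (w1.2 : ZMod p)) := by
    rintro ⟨ha, hb⟩
    exact h23 (wI_inj h2 h3 (sub_left_inj.1 ha) (sub_left_inj.1 hb))
  obtain ⟨x, hx⟩ : ∃ x : ZMod p, x = (w2.1 : ZMod p) - (w1.1 : ZMod p) := ⟨_, rfl⟩
  obtain ⟨y, hy⟩ : ∃ y : ZMod p, y = (w2.2 : ZMod p) - (w1.2 : ZMod p) := ⟨_, rfl⟩
  obtain ⟨x', hx'⟩ : ∃ x : ZMod p, x = (w3.1 : ZMod p) - (w1.1 : ZMod p) := ⟨_, rfl⟩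
  obtain ⟨y', hy'⟩ : ∃ y : ZMod p, y = (w3.2 : ZMod p) - (w1.2 : ZMod p) := ⟨_, rfl⟩
  have a2 : (w2.1 : ZMod p) = w1.1 + x := by rw [hx]; ring
  have b2 : (w2.2 : ZMod p) = w1.2 + y := by rw [hy]; ring
  have a3 : (w3.1 : ZMod p) = w1.1 + x' := by rw [hx']; ring
  have b3 : (w3.2 : ZMod p) = w1.2 + y' := by rw [hy']; ring
  rw [← hx, ← hy] at hD
  rw [← hx', ← hy'] at hD'
  rw [← hx, ← hy, ← hx', ← hy'] at hDD
  rw [a2, b2, a3, b3] at e1 e2 e3
  have hq := q_ne hε hD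
  have c1 : θ * ((x ^ 2 - ε * y ^ 2) * x' - (x' ^ 2 - ε * y' ^ 2) * x) = 0 := by
    linear_combination e1 + (l2 - 2 * θ * ε * (w1.2 : ZMod p)) * e3
  have c2 : θ * ((x ^ 2 - ε * y ^ 2) * y' - (x' ^ 2 - ε * y' ^ 2) * y) = 0 := by
    linear_combination e2 - (l1 + 2 * θ * (w1.1 : ZMod p)) * e3
  have c1' := (mul_eq_zero.1 c1).resolve_left hθ
  have c2' := (mul_eq_zero.1 c2).resolve_left hθ
  have e3' : x * y' = y * x' := by linear_combination e3
  have d1 : (x ^ 2 - ε * y ^ 2) * (x' * (x - x')) = 0 := by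
    linear_combination x * c1' + ε * (-(x * y') - y * x') * e3'
  have d2 : (x ^ 2 - ε * y ^ 2) * (y' * (y - y')) = 0 := by
    linear_combination y * c2' - ((x * y') + y * x') * e3'
  have d1' := (mul_eq_zero.1 d1).resolve_left hq
  have d2' := (mul_eq_zero.1 d2).resolve_left hq
  by_cases hx0 : x = 0
  · have hy0 : y ≠ 0 := fun h => hD ⟨hx0, h⟩
    have hx'0 : x' = 0 := by
      rw [hx0, zero_mul] at e3'
      exact (mul_eq_zero.1 e3'.symm).resolve_left hy0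
    rcases mul_eq_zero.1 d2' with h | h
    · exact hD' ⟨hx'0, h⟩
    · exact hDD ⟨by rw [hx0, hx'0], sub_eq_zero.1 h⟩
  · rcases mul_eq_zero.1 d1' with h | h
    · have : y' = 0 := by
        rw [h, mul_zero] at e3'
        exact (mul_eq_zero.1 e3').resolve_left hx0
      exact hD' ⟨h, this⟩
    · have hxx : x = x' := sub_eq_zero.1 h
      have : x * (y - y') = 0 := by
        linear_combination -e3' + y * hxx
      have hyy := (mul_eq_zero.1 this).resolve_left hx0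
      exact hDD ⟨hxx, sub_eq_zero.1 hyy⟩

theorem unif_cast_inj_bI {p : ℕ} {a b : ℤ} (ha : a ∈ bI p) (hb : b ∈ bI p)
    (h : (a : ZMod p) = (b : ZMod p)) : a = b := by
  unfold bI at ha hb
  rw [Finset.mem_Ico] at ha hb
  have h1 := (ZMod.intCast_eq_intCast_iff a b p).1 h
  unfold Int.ModEq at h1
  rwa [Int.emod_eq_of_lt ha.1 ha.2, Int.emod_eq_of_lt hb.1 hb.2] at h1

theorem unif_wI_diff {p : ℕ} {w w' : ℤ × ℤ} (h : w ∈ wI p) (h' : w' ∈ wI p) (hne : w ≠ w') :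
    (w'.1 : ZMod p) - w.1 ≠ 0 ∨ (w'.2 : ZMod p) - w.2 ≠ 0 := by
  unfold wI at h h'
  rw [Finset.mem_product] at h h'
  by_contra hc
  push Not at hc
  apply hne
  exact Prod.ext (unif_cast_inj_bI h.1 h'.1 (sub_eq_zero.1 hc.1).symm)
    (unif_cast_inj_bI h.2 h'.2 (sub_eq_zero.1 hc.2).symm)

theorem unif_aniso {p : ℕ} [Fact p.Prime] {ε : ZMod p} (hε : ¬ IsSquare ε) {a b : ZMod p}
    (h : a ≠ 0 ∨ b ≠ 0) : a ^ 2 - ε * b ^ 2 ≠ 0 := by
  intro h0
  by_cases hb : b = 0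
  · subst hb
    have : a = 0 := by
      have : a ^ 2 = 0 := by linear_combination h0
      exact pow_eq_zero_iff (two_ne_zero) |>.1 this
    rcases h with h | h
    · exact h this
    · exact h rfl
  · apply hε
    refine ⟨a / b, ?_⟩
    field_simp
    linear_combination -h0

theorem unif_key {p : ℕ} [Fact p.Prime] {ε : ZMod p} (hε : ¬ IsSquare ε)
    {x1 y1 x2 y2 x3 y3 : ZMod p}
    (h12 : x2 - x1 ≠ 0 ∨ y2 - y1 ≠ 0) (h13 : x3 - x1 ≠ 0 ∨ y3 - y1 ≠ 0)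
    (h23 : x3 - x2 ≠ 0 ∨ y3 - y2 ≠ 0)
    (hD : (x2 - x1) * (y3 - y1) - (y2 - y1) * (x3 - x1) = 0) {t l1 l2 c : ZMod p}
    (e1 : t * (x1 ^ 2 - ε * y1 ^ 2) + l1 * x1 + l2 * y1 + c = 0)
    (e2 : t * (x2 ^ 2 - ε * y2 ^ 2) + l1 * x2 + l2 * y2 + c = 0)
    (e3 : t * (x3 ^ 2 - ε * y3 ^ 2) + l1 * x3 + l2 * y3 + c = 0) : t = 0 := by
  have hq := unif_aniso hε h12
  -- λ
  obtain ⟨lam, hx, hy⟩ : ∃ lam : ZMod p, x3 - x1 = lam * (x2 - x1) ∧ y3 - y1 = lam * (y2 - y1) := by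
    by_cases hd : x2 - x1 = 0
    · have hd2 : y2 - y1 ≠ 0 := by
        rcases h12 with h | h
        · exact absurd hd h
        · exact h
      refine ⟨(y3 - y1) / (y2 - y1), ?_, by field_simp⟩
      rw [hd] at hD ⊢
      have h1 : (y2 - y1) * (x3 - x1) = 0 := by linear_combination -hD
      rcases mul_eq_zero.1 h1 with h | h
      · exact absurd h hd2
      · rw [h]; ring
    · refine ⟨(x3 - x1) / (x2 - x1), by field_simp, ?_⟩
      field_simp
      linear_combination hD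
  have hl0 : lam ≠ 0 := by
    rintro rfl
    rw [zero_mul] at hx hy
    rcases h13 with h | h
    · exact h hx
    · exact h hy
  have hl1 : 1 - lam ≠ 0 := by
    intro h
    have : lam = 1 := by linear_combination -h
    subst this
    rcases h23 with h | h
    · apply h; linear_combination hx
    · apply h; linear_combination hy
  have hx' : x3 = x1 + lam * (x2 - x1) := by linear_combination hx
  have hy' : y3 = y1 + lam * (y2 - y1) := by linear_combination hy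
  have k : t * (lam * (1 - lam) * ((x2 - x1) ^ 2 - ε * (y2 - y1) ^ 2)) = 0 := by
    subst hx' hy'
    linear_combination lam * (e2 - e1) - (e3 - e1)
  rcases mul_eq_zero.1 k with h | h
  · exact h
  · exact absurd h (mul_ne_zero (mul_ne_zero hl0 hl1) hq)

theorem unif {p : ℕ} [Fact p.Prime] (ε : ZMod p) (hε : ¬ IsSquare ε) (w1 w2 w3 : ℤ × ℤ)
    (h1 : w1 ∈ wI p) (h2 : w2 ∈ wI p) (h3 : w3 ∈ wI p) (h12 : w1 ≠ w2) (h13 : w1 ≠ w3) (h23 : w2 ≠ w3)
    (β1 β2 β3 : ℤ) :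
    ((Om p).filter (fun ω => bv ε ω w1 = β1 ∧ bv ε ω w2 = β2 ∧ bv ε ω w3 = β3)).card ≤ p := by
  classical
  have d12 := unif_wI_diff h1 h2 h12
  have d13 := unif_wI_diff h1 h3 h13
  have d23 := unif_wI_diff h2 h3 h23
  have hbv : ∀ ω w (β : ℤ), bv ε ω w = β → capf ε ω w = (β : ZMod p) := by
    intro ω w β h
    rw [← h, bv]
    simp
  -- the injection
  have main : ∀ f : ZMod p × ZMod p × ZMod p × ZMod p → ZMod p,
      (∀ ω ω' : ZMod p × ZMod p × ZMod p × ZMod p,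
        capf ε ω w1 = capf ε ω' w1 → capf ε ω w2 = capf ε ω' w2 → capf ε ω w3 = capf ε ω' w3 →
        f ω = f ω' → ω = ω') →
      ((Om p).filter (fun ω => bv ε ω w1 = β1 ∧ bv ε ω w2 = β2 ∧ bv ε ω w3 = β3)).card ≤ p := by
    intro f hf
    have h4 := Finset.card_le_card_of_injOn
      (s := (Om p).filter (fun ω => bv ε ω w1 = β1 ∧ bv ε ω w2 = β2 ∧ bv ε ω w3 = β3))
      (t := (Finset.univ : Finset (ZMod p))) f (fun _ _ => Finset.mem_univ _) (by
        intro ω hω ω' hω' hff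
        rw [Finset.mem_coe, Finset.mem_filter] at hω hω'
        refine hf ω ω' ?_ ?_ ?_ hff
        · rw [hbv _ _ _ hω.2.1, hbv _ _ _ hω'.2.1]
        · rw [hbv _ _ _ hω.2.2.1, hbv _ _ _ hω'.2.2.1]
        · rw [hbv _ _ _ hω.2.2.2, hbv _ _ _ hω'.2.2.2])
    rwa [Finset.card_univ, ZMod.card] at h4
  by_cases hD : ((w2.1 : ZMod p) - w1.1) * ((w3.2 : ZMod p) - w1.2) -
      ((w2.2 : ZMod p) - w1.2) * ((w3.1 : ZMod p) - w1.1) = 0
  · -- collinear
    have ht : ∀ ω ω' : ZMod p × ZMod p × ZMod p × ZMod p,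
        capf ε ω w1 = capf ε ω' w1 → capf ε ω w2 = capf ε ω' w2 → capf ε ω w3 = capf ε ω' w3 →
        ω.1 = ω'.1 := by
      intro ω ω' g1 g2 g3
      unfold capf at g1 g2 g3
      have := unif_key hε d12 d13 d23 hD (t := ω.1 - ω'.1) (l1 := ω.2.1 - ω'.2.1)
        (l2 := ω.2.2.1 - ω'.2.2.1) (c := ω.2.2.2 - ω'.2.2.2)
        (by linear_combination g1) (by linear_combination g2) (by linear_combination g3)
      exact sub_eq_zero.1 this
    by_cases hd : (w2.1 : ZMod p) - w1.1 = 0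
    · have hd2 : (w2.2 : ZMod p) - w1.2 ≠ 0 := by
        rcases d12 with h | h
        · exact absurd hd h
        · exact h
      refine main (fun ω => ω.2.1) fun ω ω' g1 g2 g3 hf => ?_
      have h0 := ht ω ω' g1 g2 g3
      unfold capf at g1 g2
      have h5 : (ω.2.2.1 - ω'.2.2.1) * ((w2.2 : ZMod p) - w1.2) = 0 := by
        rw [h0, hf] at g1 g2
        linear_combination g2 - g1
      have h6 : ω.2.2.1 = ω'.2.2.1 := by
        rcases mul_eq_zero.1 h5 with h | h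
        · exact sub_eq_zero.1 h
        · exact absurd h hd2
      have h7 : ω.2.2.2 = ω'.2.2.2 := by
        rw [h0, hf, h6] at g1
        linear_combination g1
      exact Prod.ext h0 (Prod.ext hf (Prod.ext h6 h7))
    · refine main (fun ω => ω.2.2.1) fun ω ω' g1 g2 g3 hf => ?_
      have h0 := ht ω ω' g1 g2 g3
      unfold capf at g1 g2
      have h5 : (ω.2.1 - ω'.2.1) * ((w2.1 : ZMod p) - w1.1) = 0 := by
        rw [h0, hf] at g1 g2
        linear_combination g2 - g1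
      have h6 : ω.2.1 = ω'.2.1 := by
        rcases mul_eq_zero.1 h5 with h | h
        · exact sub_eq_zero.1 h
        · exact absurd h hd
      have h7 : ω.2.2.2 = ω'.2.2.2 := by
        rw [h0, hf, h6] at g1
        linear_combination g1
      exact Prod.ext h0 (Prod.ext h6 (Prod.ext hf h7))
  · refine main (fun ω => ω.1) fun ω ω' g1 g2 g3 h0 => ?_
    unfold capf at g1 g2 g3
    rw [h0] at g1 g2 g3
    set D := ((w2.1 : ZMod p) - w1.1) * ((w3.2 : ZMod p) - w1.2) -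
      ((w2.2 : ZMod p) - w1.2) * ((w3.1 : ZMod p) - w1.1) with hDdef
    have h5 : (ω.2.1 - ω'.2.1) * D = 0 := by
      rw [hDdef]
      linear_combination ((w3.2 : ZMod p) - w1.2) * (g2 - g1) - ((w2.2 : ZMod p) - w1.2) * (g3 - g1)
    have h6 : (ω.2.2.1 - ω'.2.2.1) * D = 0 := by
      rw [hDdef]
      linear_combination ((w2.1 : ZMod p) - w1.1) * (g3 - g1) - ((w3.1 : ZMod p) - w1.1) * (g2 - g1)
    have h5' : ω.2.1 = ω'.2.1 := by
      rcases mul_eq_zero.1 h5 with h | h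
      · exact sub_eq_zero.1 h
      · exact absurd h hD
    have h6' : ω.2.2.1 = ω'.2.2.1 := by
      rcases mul_eq_zero.1 h6 with h | h
      · exact sub_eq_zero.1 h
      · exact absurd h hD
    have h7 : ω.2.2.2 = ω'.2.2.2 := by
      rw [h5', h6'] at g1
      linear_combination g1
    exact Prod.ext h0 (Prod.ext h5' (Prod.ext h6' h7))

theorem card_Om (p : ℕ) [Fact p.Prime] : p ^ 4 ≤ 2 * (Om p).card := by
  have hp : 2 ≤ p := (Fact.out : p.Prime).two_le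
  have e : Om p = ((univ : Finset (ZMod p)).erase 0) ×ˢ
      (univ : Finset (ZMod p × ZMod p × ZMod p)) := by
    ext ω
    simp [Om]
  have h1 : (Om p).card = (p - 1) * (p * (p * p)) := by
    rw [e, Finset.card_product, Finset.card_erase_of_mem (Finset.mem_univ _), Finset.card_univ,
      Finset.card_univ, Fintype.card_prod, Fintype.card_prod, ZMod.card]
  rw [h1]
  obtain ⟨k, rfl⟩ : ∃ k, p = k + 1 := ⟨p - 1, by omega⟩
  have hk : 1 ≤ k := by omega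
  have h2 : (k + 1) * (k + 1) ^ 3 ≤ (2 * k) * (k + 1) ^ 3 :=
    Nat.mul_le_mul_right _ (by omega)
  calc (k + 1) ^ 4 = (k + 1) * (k + 1) ^ 3 := by ring
    _ ≤ (2 * k) * (k + 1) ^ 3 := h2
    _ = 2 * ((k + 1 - 1) * ((k + 1) * ((k + 1) * (k + 1)))) := by
      rw [Nat.add_sub_cancel]; ring

end Crest.Agent.R32
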