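/- Row 32, piece LINE: number of integer points of a line in a box.
   PROOF.  Let `g = gc n ≥ 1`.  If `t, t'` are two solutions then `crs (t - t') n = 0`, i.e.
   `(t-t').1 * n.2 = (t-t').2 * n.1`, so `t - t' = k • (n / g)` with `k : ℤ` (divide by `g`, use coprimality of
   `n.1/g`, `n.2/g`).  Suppose the sup norm of `n` is attained at coordinate `i` (`nrm n = |n.i|`).  The map
   `t ↦ t.i` is injective on the solutions (if `n.i ≠ 0`, `t.i = t'.i` gives `k = 0`), and all values `t.i` are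
   congruent mod `|n.i| / g = nrm n / g =: s ≥ 1` and lie in an interval with `Y + 1` integers:
   at most `1 + Y / s` values (`Int.Ico_filter_modEq_card`-like lemmas, or: inject into
   `range (Y / s + 1)` by `t ↦ (t.i - a_min)/s` where `a_min` is the least value).
   `1 + Y / s ≤ 1 + Y * g / nrm n` (real numbers). -/
import Crest.Agent.R32.Defs

set_option autoImplicit false

namespace Crest.Agent.R32

open Finset

/-- pairwise congruent integers in an interval -/
private theorem card_congr_le (T : Finset ℤ) (a : ℤ) (Y : ℕ) (s : ℤ) (hs : 0 < s)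
    (h1 : ∀ x ∈ T, a ≤ x ∧ x ≤ a + Y) (h2 : ∀ x ∈ T, ∀ y ∈ T, s ∣ x - y) :
    (T.card : ℝ) ≤ 1 + (Y : ℝ) / (s : ℝ) := by
  have hsR : (0 : ℝ) < s := by exact_mod_cast hs
  rcases T.eq_empty_or_nonempty with rfl | hne
  · simp only [Finset.card_empty, Nat.cast_zero]
    positivity
  set m := T.min' hne with hm
  have hmT : m ∈ T := T.min'_mem hne
  have hmle : ∀ x ∈ T, m ≤ x := fun x hx => T.min'_le x hx
  have key : ∀ x ∈ T, (x - m) / s * s = x - m := fun x hx => Int.ediv_mul_cancel (h2 x hx m hmT)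
  have hnn : ∀ x ∈ T, 0 ≤ (x - m) / s := fun x hx =>
    Int.ediv_nonneg (by have := hmle x hx; omega) hs.le
  have hcard : T.card ≤ (Finset.Icc (0 : ℤ) ((Y : ℤ) / s)).card := by
    refine Finset.card_le_card_of_injOn (fun x => (x - m) / s) ?_ ?_
    · intro x hx
      have hx' : x ∈ T := hx
      simp only [Finset.coe_Icc, Set.mem_Icc]
      refine ⟨hnn x hx', Int.ediv_le_ediv hs ?_⟩
      have := h1 x hx'
      have := h1 m hmT
      omega
    · intro x hx y hy hxy
      have hx' : x ∈ T := hx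
      have hy' : y ∈ T := hy
      have e1 := key x hx'
      have e2 := key y hy'
      simp only at hxy
      rw [hxy] at e1
      omega
  have hY0 : (0 : ℤ) ≤ (Y : ℤ) / s := Int.ediv_nonneg (by positivity) hs.le
  rw [Int.card_Icc] at hcard
  have hc2 : (T.card : ℤ) ≤ (Y : ℤ) / s + 1 := by
    have : ((((Y : ℤ) / s + 1 - 0).toNat : ℕ) : ℤ) = (Y : ℤ) / s + 1 := by
      rw [Int.toNat_of_nonneg (by omega)]; ring
    calc (T.card : ℤ) ≤ ((((Y : ℤ) / s + 1 - 0).toNat : ℕ) : ℤ) := by exact_mod_cast hcard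
      _ = _ := this
  have hc3 : (T.card : ℝ) ≤ (((Y : ℤ) / s : ℤ) : ℝ) + 1 := by exact_mod_cast hc2
  have hdiv : ((((Y : ℤ) / s : ℤ)) : ℝ) ≤ (Y : ℝ) / (s : ℝ) := by
    rw [le_div_iff₀ hsR]
    have : (Y : ℤ) / s * s ≤ (Y : ℤ) := Int.ediv_mul_le _ hs.ne'
    exact_mod_cast this
  linarith

theorem line_count (n : ℤ × ℤ) (hn : n ≠ 0) (c a1 a2 : ℤ) (Y : ℕ) :
    ((((Icc a1 (a1 + Y)) ×ˢ (Icc a2 (a2 + Y))).filter (fun t => crs t n = c)).card : ℝ)
      ≤ 1 + (Y : ℝ) * (gc n : ℝ) / (nrm n : ℝ) := by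
  classical
  set S := ((Icc a1 (a1 + Y)) ×ˢ (Icc a2 (a2 + Y))).filter (fun t => crs t n = c) with hS
  have hg : 0 < gc n := by
    unfold gc
    rw [Int.gcd_pos_iff]
    by_contra hcon
    push Not at hcon
    exact hn (Prod.ext hcon.1 hcon.2)
  have hgR : (0 : ℝ) < gc n := by exact_mod_cast hg
  obtain ⟨m1, hm1⟩ : ∃ m1, n.1 = gc n * m1 := Int.gcd_dvd_left ..
  obtain ⟨m2, hm2⟩ : ∃ m2, n.2 = gc n * m2 := Int.gcd_dvd_right ..
  have hgZ : (gc n : ℤ) ≠ 0 := by exact_mod_cast hg.ne'
  have hcop : IsCoprime m1 m2 := by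
    rw [Int.isCoprime_iff_gcd_eq_one]
    have h := Int.gcd_div_gcd_div_gcd (i := n.1) (j := n.2) hg
    have e1 : n.1 / (Int.gcd n.1 n.2 : ℤ) = m1 :=
      Int.ediv_eq_of_eq_mul_right hgZ hm1
    have e2 : n.2 / (Int.gcd n.1 n.2 : ℤ) = m2 :=
      Int.ediv_eq_of_eq_mul_right hgZ hm2
    rw [← h]
    rw [e1, e2]
  have hdiff : ∀ t ∈ S, ∀ t' ∈ S, (t.1 - t'.1) * m2 = (t.2 - t'.2) * m1 := by
    intro t ht t' ht'
    have e1 : crs t n = c := (Finset.mem_filter.mp ht).2
    have e2 : crs t' n = c := (Finset.mem_filter.mp ht').2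
    unfold crs at e1 e2
    apply mul_left_cancel₀ hgZ
    have : (t.1 - t'.1) * n.2 = (t.2 - t'.2) * n.1 := by linarith
    rw [hm1, hm2] at this
    linarith
  have hbox : ∀ t ∈ S, (a1 ≤ t.1 ∧ t.1 ≤ a1 + Y) ∧ (a2 ≤ t.2 ∧ t.2 ≤ a2 + Y) := by
    intro t ht
    have := (Finset.mem_filter.mp ht).1
    rw [Finset.mem_product, Finset.mem_Icc, Finset.mem_Icc] at this
    exact this
  have habs1 : n.1.natAbs = gc n * m1.natAbs := by
    conv_lhs => rw [hm1]
    rw [Int.natAbs_mul, Int.natAbs_natCast]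
  have habs2 : n.2.natAbs = gc n * m2.natAbs := by
    conv_lhs => rw [hm2]
    rw [Int.natAbs_mul, Int.natAbs_natCast]
  have hn0 : n.1 ≠ 0 ∨ n.2 ≠ 0 := by
    by_contra hcon
    push Not at hcon
    exact hn (Prod.ext hcon.1 hcon.2)
  rcases le_total n.2.natAbs n.1.natAbs with hle | hle
  · -- first coordinate
    have hnrm : nrm n = gc n * m1.natAbs := by
      unfold nrm; rw [max_eq_left hle, habs1]
    have hm10 : m1 ≠ 0 := by
      intro h0
      have h1 : n.1 = 0 := by rw [hm1, h0, mul_zero]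
      have h2 : n.2 = 0 := by
        rw [h1] at hle; simpa using hle
      rcases hn0 with h | h
      · exact h h1
      · exact h h2
    have hinj : Set.InjOn Prod.fst (S : Set (ℤ × ℤ)) := by
      intro t ht t' ht' h
      have e := hdiff t ht t' ht'
      rw [h, sub_self, zero_mul] at e
      have : t.2 - t'.2 = 0 := by
        rcases mul_eq_zero.mp e.symm with h' | h'
        · exact h'
        · exact absurd h' hm10
      exact Prod.ext h (by omega)
    have hc := card_congr_le (S.image Prod.fst) a1 Y |m1| (abs_pos.mpr hm10)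
      (by
        intro x hx
        obtain ⟨t, ht, rfl⟩ := Finset.mem_image.mp hx
        exact (hbox t ht).1)
      (by
        intro x hx y hy
        obtain ⟨t, ht, rfl⟩ := Finset.mem_image.mp hx
        obtain ⟨t', ht', rfl⟩ := Finset.mem_image.mp hy
        rw [abs_dvd]
        have e := hdiff t ht t' ht'
        exact hcop.dvd_of_dvd_mul_right (Dvd.intro_left _ e.symm))
    rw [Finset.card_image_of_injOn hinj] at hc
    refine le_trans hc (le_of_eq ?_)
    rw [hnrm]
    have hm : ((|m1| : ℤ) : ℝ) = ((m1.natAbs : ℕ) : ℝ) := by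
      rw [Nat.cast_natAbs]
    rw [hm]
    have hmR : ((m1.natAbs : ℕ) : ℝ) ≠ 0 := by
      exact_mod_cast (Int.natAbs_ne_zero.mpr hm10)
    push_cast
    field_simp
  · have hnrm : nrm n = gc n * m2.natAbs := by
      unfold nrm; rw [max_eq_right hle, habs2]
    have hm20 : m2 ≠ 0 := by
      intro h0
      have h1 : n.2 = 0 := by rw [hm2, h0, mul_zero]
      have h2 : n.1 = 0 := by
        rw [h1] at hle; simpa using hle
      rcases hn0 with h | h
      · exact h h2
      · exact h h1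
    have hinj : Set.InjOn Prod.snd (S : Set (ℤ × ℤ)) := by
      intro t ht t' ht' h
      have e := hdiff t ht t' ht'
      rw [h, sub_self, zero_mul] at e
      have : t.1 - t'.1 = 0 := by
        rcases mul_eq_zero.mp e with h' | h'
        · exact h'
        · exact absurd h' hm20
      exact Prod.ext (by omega) h
    have hc := card_congr_le (S.image Prod.snd) a2 Y |m2| (abs_pos.mpr hm20)
      (by
        intro x hx
        obtain ⟨t, ht, rfl⟩ := Finset.mem_image.mp hx
        exact (hbox t ht).2)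
      (by
        intro x hx y hy
        obtain ⟨t, ht, rfl⟩ := Finset.mem_image.mp hx
        obtain ⟨t', ht', rfl⟩ := Finset.mem_image.mp hy
        rw [abs_dvd]
        have e := hdiff t ht t' ht'
        exact hcop.symm.dvd_of_dvd_mul_right (Dvd.intro_left _ e))
    rw [Finset.card_image_of_injOn hinj] at hc
    refine le_trans hc (le_of_eq ?_)
    rw [hnrm]
    have hm : ((|m2| : ℤ) : ℝ) = ((m2.natAbs : ℕ) : ℝ) := by
      rw [Nat.cast_natAbs]
    rw [hm]
    have hmR : ((m2.natAbs : ℕ) : ℝ) ≠ 0 := by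
      exact_mod_cast (Int.natAbs_ne_zero.mpr hm20)
    push_cast
    field_simp

end Crest.Agent.R32
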