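/- Row 32, piece MCOUNT: number of pairs `(U, V)`, `U ≠ 0`, in the box with `U × V = δ`.
   PROOF.  For fixed `U ≠ 0` the `V ∈ bx Z` with `crs U V = δ`, i.e. `crs V U = -δ`, number at most
   `1 + 2 Z gc U / nrm U` (`line_count` with `n = U`, `a1 = a2 = -Z`, side `2 Z`).  Sum over `U ∈ (bx Z).erase 0`
   (at most `(2Z+1)² ≤ 9 Z²` elements) and use `gsum`: total `≤ 9 Z² + 2 Z · 8 Z Hs Z ≤ 25 Z² Hs Z`
   (`one_le_Hs`). -/
import Crest.Agent.R32.Line
import Crest.Agent.R32.Gsum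

set_option autoImplicit false

namespace Crest.Agent.R32

open Finset

theorem mcount (Z : ℕ) (hZ : 1 ≤ Z) (δ : ℤ) :
    (((((bx Z).erase 0) ×ˢ (bx Z)).filter (fun x => crs x.1 x.2 = δ)).card : ℝ)
      ≤ 25 * (Z : ℝ) ^ 2 * Hs Z := by
  have hZ' : (1 : ℝ) ≤ Z := by exact_mod_cast hZ
  have h1 : ((((bx Z).erase 0) ×ˢ (bx Z)).filter (fun x => crs x.1 x.2 = δ)).card =
      ∑ U ∈ (bx Z).erase 0, ((bx Z).filter (fun V => crs U V = δ)).card := by
    rw [Finset.card_filter, Finset.sum_product]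
    refine Finset.sum_congr rfl fun U _ => ?_
    rw [Finset.card_filter]
  have h2 : ∀ U ∈ (bx Z).erase 0, (((bx Z).filter (fun V => crs U V = δ)).card : ℝ) ≤
      1 + 2 * (Z : ℝ) * ((gc U : ℝ) / (nrm U : ℝ)) := by
    intro U hU
    have h3 := line_count U (Finset.ne_of_mem_erase hU) (-δ) (-(Z : ℤ)) (-(Z : ℤ)) (2 * Z)
    have h4 : -(Z : ℤ) + ((2 * Z : ℕ) : ℤ) = Z := by push_cast; ring
    rw [h4] at h3
    have h5 : (bx Z).filter (fun V => crs U V = δ) =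
        ((Icc (-(Z : ℤ)) (Z : ℤ)) ×ˢ (Icc (-(Z : ℤ)) (Z : ℤ))).filter (fun t => crs t U = -δ) := by
      unfold bx
      refine Finset.filter_congr fun V _ => ?_
      unfold crs
      constructor <;> intro h <;> linarith
    rw [h5]
    refine h3.trans (le_of_eq ?_)
    push_cast
    ring
  have h6 : (((bx Z).erase 0).card : ℝ) ≤ 9 * (Z : ℝ) ^ 2 := by
    have h7 : ((bx Z).erase 0).card ≤ (2 * Z + 1) * (2 * Z + 1) := by
      refine (Finset.card_le_card (Finset.erase_subset _ _)).trans (le_of_eq ?_)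
      unfold bx
      rw [Finset.card_product, Int.card_Icc]
      have : ((Z : ℤ) + 1 - -(Z : ℤ)).toNat = 2 * Z + 1 := by omega
      rw [this]
    have h8 : (((bx Z).erase 0).card : ℝ) ≤ (2 * (Z : ℝ) + 1) * (2 * (Z : ℝ) + 1) := by
      exact_mod_cast h7
    nlinarith
  have h9 := gsum Z
  have h10 := one_le_Hs hZ
  rw [h1]
  push_cast
  calc ∑ U ∈ (bx Z).erase 0, (((bx Z).filter (fun V => crs U V = δ)).card : ℝ)
      ≤ ∑ U ∈ (bx Z).erase 0, (1 + 2 * (Z : ℝ) * ((gc U : ℝ) / (nrm U : ℝ))) :=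
        Finset.sum_le_sum h2
    _ = (((bx Z).erase 0).card : ℝ) + 2 * (Z : ℝ) * ∑ U ∈ (bx Z).erase 0, (gc U : ℝ) / (nrm U : ℝ) := by
        rw [Finset.sum_add_distrib, ← Finset.mul_sum]
        simp
    _ ≤ 9 * (Z : ℝ) ^ 2 + 2 * (Z : ℝ) * (8 * (Z : ℝ) * Hs Z) := by
        refine add_le_add h6 (mul_le_mul_of_nonneg_left h9 (by positivity))
    _ ≤ 25 * (Z : ℝ) ^ 2 * Hs Z := by
        have h11 : (Z : ℝ) ^ 2 * 1 ≤ (Z : ℝ) ^ 2 * Hs Z :=
          mul_le_mul_of_nonneg_left h10 (by positivity)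
        nlinarith

end Crest.Agent.R32
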