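/- Row 32, piece PT: basic facts about the points `pt T r b w`.
   `pt_cast1/2`: reduce mod `Q`: `lf x` casts to `x` (`ZMod.natCast_zmod_val`), `Q` casts to `0`;
   `act T (r.1, r.2 + b) = act T r + b • T.2`.
   `det3_pt_cast`: `det3` commutes with the cast, and `det3 (act T a) (act T b) (act T c) = crs T.1 T.2 * det3 a b c`
   (`crs_act`, `act_sub`, or plain `ring`).
   `pt_range`: `0 ≤ lf x < Q` (`ZMod.val_lt`), so the coordinates are `≤ Q + p Q + Q p = 3 Q p`-ish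
   (`(Q-1) + (p-1)(Q-1) + Q(p-1) ≤ 3 Q p`).
   `pt_sub`: for the same `r`: `pt T r b' w' - pt T r b w = (b'-b) * lift(T.2) + Q * (w'-w)`. -/
import Crest.Agent.R32.Defs

set_option autoImplicit false

namespace Crest.Agent.R32

open Finset

theorem lf_nonneg {Q : ℕ} (x : ZMod Q) : 0 ≤ lf x := by
  exact Int.natCast_nonneg _

theorem lf_lt {Q : ℕ} [NeZero Q] (x : ZMod Q) : lf x < (Q : ℤ) := by
  unfold lf
  exact_mod_cast ZMod.val_lt x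

theorem lf_cast {Q : ℕ} [NeZero Q] (x : ZMod Q) : ((lf x : ℤ) : ZMod Q) = x := by
  unfold lf
  push_cast
  exact ZMod.natCast_zmod_val x

theorem pt_cast1 {Q : ℕ} [NeZero Q] (T : M2 Q) (r : F2 Q) (b : ℤ) (w : ℤ × ℤ) :
    (((pt T r b w).1 : ℤ) : ZMod Q) = (act T (r.1, r.2 + (b : ZMod Q))).1 := by
  unfold pt
  push_cast
  rw [lf_cast, lf_cast]
  simp only [act, ZMod.natCast_self, zero_mul, add_zero]
  ring

theorem pt_cast2 {Q : ℕ} [NeZero Q] (T : M2 Q) (r : F2 Q) (b : ℤ) (w : ℤ × ℤ) :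
    (((pt T r b w).2 : ℤ) : ZMod Q) = (act T (r.1, r.2 + (b : ZMod Q))).2 := by
  unfold pt
  push_cast
  rw [lf_cast, lf_cast]
  simp only [act, ZMod.natCast_self, zero_mul, add_zero]
  ring

theorem det3_pt_cast {Q : ℕ} [NeZero Q] (T : M2 Q) (hT : T ∈ SL Q) (r1 r2 r3 : F2 Q)
    (b1 b2 b3 : ℤ) (w1 w2 w3 : ℤ × ℤ) :
    ((det3 (pt T r1 b1 w1) (pt T r2 b2 w2) (pt T r3 b3 w3) : ℤ) : ZMod Q)
      = det3 (r1.1, r1.2 + (b1 : ZMod Q)) (r2.1, r2.2 + (b2 : ZMod Q)) (r3.1, r3.2 + (b3 : ZMod Q)) := by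
  have h := mem_SL.1 hT
  unfold det3
  push_cast
  simp only [pt_cast1, pt_cast2]
  unfold crs at h
  simp only [act]
  linear_combination (((r2.1 - r1.1) * (r3.2 + (b3 : ZMod Q) - (r1.2 + (b1 : ZMod Q)))
    - (r2.2 + (b2 : ZMod Q) - (r1.2 + (b1 : ZMod Q))) * (r3.1 - r1.1))) * h

theorem pt_range {Q p : ℕ} [NeZero Q] (T : M2 Q) (r : F2 Q) (b : ℤ) (w : ℤ × ℤ)
    (hb : b ∈ bI p) (hw : w ∈ wI p) :
    0 ≤ (pt T r b w).1 ∧ (pt T r b w).1 ≤ 3 * Q * p ∧ 0 ≤ (pt T r b w).2 ∧ (pt T r b w).2 ≤ 3 * Q * p := by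
  have key : ∀ (x y : ZMod Q) (c v : ℤ), 0 ≤ c → c < p → 0 ≤ v → v < p →
      0 ≤ lf x + c * lf y + (Q : ℤ) * v ∧ lf x + c * lf y + (Q : ℤ) * v ≤ 3 * Q * p := by
    intro x y c v hc0 hc1 hv0 hv1
    have hx0 := lf_nonneg x
    have hx1 := lf_lt x
    have hy0 := lf_nonneg y
    have hy1 := lf_lt y
    have hQ : (0 : ℤ) < Q := lt_of_le_of_lt hx0 hx1
    have hp : (0 : ℤ) < p := lt_of_le_of_lt hc0 hc1
    have h1 : 0 ≤ c * lf y := mul_nonneg hc0 hy0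
    have h2 : 0 ≤ (Q : ℤ) * v := mul_nonneg hQ.le hv0
    refine ⟨by linarith, ?_⟩
    have h3 : c * lf y ≤ p * Q := mul_le_mul hc1.le hy1.le hy0 hp.le
    have h4 : (Q : ℤ) * v ≤ Q * p := mul_le_mul_of_nonneg_left hv1.le hQ.le
    have h5 : (Q : ℤ) ≤ Q * p := by nlinarith
    nlinarith
  simp only [bI, wI, mem_Ico, mem_product] at hb hw
  obtain ⟨h1, h2⟩ := key (act T r).1 T.2.1 b w.1 hb.1 hb.2 hw.1.1 hw.1.2
  obtain ⟨h3, h4⟩ := key (act T r).2 T.2.2 b w.2 hb.1 hb.2 hw.2.1 hw.2.2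
  exact ⟨h1, h2, h3, h4⟩

theorem pt_sub_mem {Q p : ℕ} [NeZero Q] (T : M2 Q) (r r' : F2 Q) (b b' : ℤ) (w w' : ℤ × ℤ)
    (hb : b ∈ bI p) (hw : w ∈ wI p) (hb' : b' ∈ bI p) (hw' : w' ∈ wI p) :
    pt T r' b' w' - pt T r b w ∈ bx (3 * Q * p) := by
  obtain ⟨h1, h2, h3, h4⟩ := pt_range T r b w hb hw
  obtain ⟨h5, h6, h7, h8⟩ := pt_range T r' b' w' hb' hw'
  rw [bx, mem_product, mem_Icc, mem_Icc, Prod.fst_sub, Prod.snd_sub]
  push_cast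
  refine ⟨⟨?_, ?_⟩, ⟨?_, ?_⟩⟩ <;> linarith

theorem pt_sub_same {Q : ℕ} (T : M2 Q) (r : F2 Q) (b b' : ℤ) (w w' : ℤ × ℤ) :
    pt T r b' w' - pt T r b w =
      ((b' - b) * lf T.2.1 + (Q : ℤ) * (w'.1 - w.1), (b' - b) * lf T.2.2 + (Q : ℤ) * (w'.2 - w.2)) := by
  unfold pt
  ext
  · simp only [Prod.fst_sub]
    ring
  · simp only [Prod.snd_sub]
    ring

/-- the lift of `T e₂` is nonzero mod `Q` -/
theorem SL_col_ne {Q : ℕ} [Fact Q.Prime] (T : M2 Q) (hT : T ∈ SL Q) : T.2 ≠ 0 := by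
  intro h
  have h1 := mem_SL.1 hT
  rw [h] at h1
  simp [crs] at h1

end Crest.Agent.R32
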