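/- Row 32, pieces SLCARD, SLACT (`SL₂(F_Q)`, matrices given by columns `T = (T.1, T.2)`, `crs T.1 T.2 = 1`).

   `card_SL`: injection `(a ≠ 0, c, b) ↦ T = ((a, c), (b, (1 + b c)/a))`
   (`crs (a,c) (b,d) = a d - c b = 1`), so `|SL| ≥ (Q-1) Q² ≥ Q³/2`.

   `card_act_le` (`v ≠ 0`, `V` arbitrary): if `v.1 ≠ 0` then `T.1 = (V - v.2 • T.2)/v.1`, so `T` is determined by
   `T.2 = (b, d)`, and `1 = crs T.1 T.2 = crs V T.2 / v.1`, i.e. `V.1 d - V.2 b = v.1 ≠ 0`: so `V ≠ 0`; if
   `V.1 ≠ 0` then `T` is determined by `b`, otherwise by `d`: at most `Q`.  If `v.1 = 0`, `v.2 ≠ 0`, then `T.2 = V/v.2`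
   is fixed, and `T.1 = (a, c)` satisfies `a T.2.2 - c T.2.1 = 1`: determined by `c` if `T.2.2 ≠ 0`, otherwise by `a`.

   `SL_unique`: `T - T'` kills `u` and `v`, which span (`crs u v ≠ 0`): with
   `e₁ = (v.2 u - u.2 v)/crs u v`, `e₂ = (u.1 v - v.1 u)/crs u v` and `act T (x • u + y • v) = x • act T u + y • act T v`
   (componentwise `ring` / `linear_combination` and cancel `crs u v`). -/
import Crest.Agent.R32.Defs

set_option autoImplicit false

namespace Crest.Agent.R32

open Finset

theorem card_SL (Q : ℕ) [Fact Q.Prime] : Q ^ 3 ≤ 2 * (SL Q).card := by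
  classical
  have hQ : 2 ≤ Q := (Fact.out : Q.Prime).two_le
  have h1 : (((univ : Finset (ZMod Q)).erase 0) ×ˢ ((univ : Finset (ZMod Q)) ×ˢ
      (univ : Finset (ZMod Q)))).card ≤ (SL Q).card := by
    apply card_le_card_of_injOn
      (fun x : ZMod Q × ZMod Q × ZMod Q => ((x.1, x.2.1), (x.2.2, (1 + x.2.2 * x.2.1) / x.1)))
    · intro x hx
      rw [mem_coe, mem_product, mem_erase] at hx
      rw [mem_coe, mem_SL]
      show x.1 * ((1 + x.2.2 * x.2.1) / x.1) - x.2.1 * x.2.2 = 1
      rw [mul_div_cancel₀ _ hx.1.1]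
      ring
    · rintro ⟨a, c, b⟩ _ ⟨a', c', b'⟩ _ h
      simp only [Prod.mk.injEq] at h ⊢
      exact ⟨h.1.1, h.1.2, h.2.1⟩
  rw [card_product, card_product, card_erase_of_mem (mem_univ _), card_univ, ZMod.card] at h1
  calc Q ^ 3 = Q * (Q * Q) := by ring
    _ ≤ (2 * (Q - 1)) * (Q * Q) := Nat.mul_le_mul_right _ (by omega)
    _ = 2 * ((Q - 1) * (Q * Q)) := by ring
    _ ≤ 2 * (SL Q).card := Nat.mul_le_mul_left _ h1

theorem card_le_of_injOn {Q : ℕ} [Fact Q.Prime] (s : Finset (M2 Q)) (f : M2 Q → ZMod Q)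
    (hf : Set.InjOn f (s : Set (M2 Q))) : s.card ≤ Q := by
  have h := Finset.card_le_card_of_injOn (t := (univ : Finset (ZMod Q))) f
    (fun _ _ => Finset.mem_coe.2 (Finset.mem_univ _)) hf
  rwa [Finset.card_univ, ZMod.card] at h

theorem card_act_le (Q : ℕ) [Fact Q.Prime] (v V : F2 Q) (hv : v ≠ 0) :
    ((SL Q).filter (fun T => act T v = V)).card ≤ Q := by
  have key : ∀ T ∈ (SL Q).filter (fun T => act T v = V),
      T.1.1 * T.2.2 - T.1.2 * T.2.1 = 1 ∧ v.1 * T.1.1 + v.2 * T.2.1 = V.1 ∧
        v.1 * T.1.2 + v.2 * T.2.2 = V.2 := by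
    intro T hT
    rw [Finset.mem_filter, mem_SL] at hT
    obtain ⟨h1, h2⟩ := hT
    refine ⟨h1, ?_, ?_⟩
    · rw [← h2]; rfl
    · rw [← h2]; rfl
  by_cases hv1 : v.1 = 0
  · have hv2 : v.2 ≠ 0 := by
      intro h
      exact hv (Prod.ext hv1 h)
    by_cases hV2 : V.2 = 0
    · refine card_le_of_injOn _ (fun T => T.1.1) fun T hT T' hT' h => ?_
      obtain ⟨a1, a2, a3⟩ := key T hT
      obtain ⟨b1, b2, b3⟩ := key T' hT'
      simp only at h
      have e1 : T.2.1 = T'.2.1 := by
        apply mul_left_cancel₀ hv2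
        rw [hv1] at a2 b2
        linear_combination a2 - b2
      have e2 : T.2.2 = T'.2.2 := by
        apply mul_left_cancel₀ hv2
        rw [hv1] at a3 b3
        linear_combination a3 - b3
      have e0 : T.2.2 = 0 := by
        apply mul_left_cancel₀ hv2
        rw [hv1, hV2] at a3
        linear_combination a3
      have hne : T.2.1 ≠ 0 := by
        intro h0
        rw [h0, e0] at a1
        simp at a1
      have e3 : T.1.2 = T'.1.2 := by
        apply mul_right_cancel₀ hne
        rw [← e1, ← e2] at b1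
        rw [← h] at b1
        linear_combination b1 - a1
      exact Prod.ext (Prod.ext h e3) (Prod.ext e1 e2)
    · refine card_le_of_injOn _ (fun T => T.1.2) fun T hT T' hT' h => ?_
      obtain ⟨a1, a2, a3⟩ := key T hT
      obtain ⟨b1, b2, b3⟩ := key T' hT'
      simp only at h
      have e1 : T.2.1 = T'.2.1 := by
        apply mul_left_cancel₀ hv2
        rw [hv1] at a2 b2
        linear_combination a2 - b2
      have e2 : T.2.2 = T'.2.2 := by
        apply mul_left_cancel₀ hv2
        rw [hv1] at a3 b3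
        linear_combination a3 - b3
      have hne : T.2.2 ≠ 0 := by
        intro h0
        apply hV2
        rw [← a3, hv1, h0]
        ring
      have e3 : T.1.1 = T'.1.1 := by
        apply mul_right_cancel₀ hne
        rw [← e1, ← e2] at b1
        rw [← h] at b1
        linear_combination a1 - b1
      exact Prod.ext (Prod.ext e3 h) (Prod.ext e1 e2)
  · by_cases hV1 : V.1 = 0
    · refine card_le_of_injOn _ (fun T => T.2.2) fun T hT T' hT' h => ?_
      obtain ⟨a1, a2, a3⟩ := key T hT
      obtain ⟨b1, b2, b3⟩ := key T' hT'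
      simp only at h
      have c1 : V.1 * T.2.2 - V.2 * T.2.1 = v.1 := by
        rw [← a2, ← a3]
        linear_combination v.1 * a1
      have c2 : V.1 * T'.2.2 - V.2 * T'.2.1 = v.1 := by
        rw [← b2, ← b3]
        linear_combination v.1 * b1
      rw [hV1] at c1 c2
      have hV2 : V.2 ≠ 0 := by
        intro h0
        rw [h0] at c1
        apply hv1
        rw [← c1]
        ring
      have e1 : T.2.1 = T'.2.1 := by
        apply mul_left_cancel₀ hV2
        linear_combination c2 - c1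
      have e3 : T.1.1 = T'.1.1 := by
        apply mul_left_cancel₀ hv1
        rw [← e1] at b2
        linear_combination a2 - b2
      have e4 : T.1.2 = T'.1.2 := by
        apply mul_left_cancel₀ hv1
        rw [← h] at b3
        linear_combination a3 - b3
      exact Prod.ext (Prod.ext e3 e4) (Prod.ext e1 h)
    · refine card_le_of_injOn _ (fun T => T.2.1) fun T hT T' hT' h => ?_
      obtain ⟨a1, a2, a3⟩ := key T hT
      obtain ⟨b1, b2, b3⟩ := key T' hT'
      simp only at h
      have c1 : V.1 * T.2.2 - V.2 * T.2.1 = v.1 := by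
        rw [← a2, ← a3]
        linear_combination v.1 * a1
      have c2 : V.1 * T'.2.2 - V.2 * T'.2.1 = v.1 := by
        rw [← b2, ← b3]
        linear_combination v.1 * b1
      have e1 : T.2.2 = T'.2.2 := by
        apply mul_left_cancel₀ hV1
        rw [← h] at c2
        linear_combination c1 - c2
      have e3 : T.1.1 = T'.1.1 := by
        apply mul_left_cancel₀ hv1
        rw [← h] at b2
        linear_combination a2 - b2
      have e4 : T.1.2 = T'.1.2 := by
        apply mul_left_cancel₀ hv1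
        rw [← e1] at b3
        linear_combination a3 - b3
      exact Prod.ext (Prod.ext e3 e4) (Prod.ext h e1)

theorem SL_unique {Q : ℕ} [Fact Q.Prime] (T T' : M2 Q) (u v : F2 Q) (h : crs u v ≠ 0)
    (h1 : act T u = act T' u) (h2 : act T v = act T' v) : T = T' := by
  obtain ⟨⟨a, c⟩, ⟨b, d⟩⟩ := T
  obtain ⟨⟨a', c'⟩, ⟨b', d'⟩⟩ := T'
  simp only [act, Prod.mk.injEq] at h1 h2
  obtain ⟨h11, h12⟩ := h1
  obtain ⟨h21, h22⟩ := h2
  simp only [crs] at h
  have e1 : a = a' := by
    apply mul_left_cancel₀ h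
    linear_combination v.2 * h11 - u.2 * h21
  have e2 : b = b' := by
    apply mul_left_cancel₀ h
    linear_combination u.1 * h21 - v.1 * h11
  have e3 : c = c' := by
    apply mul_left_cancel₀ h
    linear_combination v.2 * h12 - u.2 * h22
  have e4 : d = d' := by
    apply mul_left_cancel₀ h
    linear_combination u.1 * h22 - v.1 * h12
  rw [e1, e2, e3, e4]

end Crest.Agent.R32
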