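/- Row 32, pieces NB1, NB0, NB: triples with two points in the class of `(x, y)` and one point in the class of
   `(x', y')`, `x ≠ x'`.

   Common part.  `D = dcfg c r r r'`, `r = (x, y)`, `r' = (x', y')`.  By `det3_pt_cast`
   `D ≡ -(b₂ - b₁)(x' - x)` mod `Q`.  `κ |b₂ - b₁| |x' - x| < Q` (`|b₂ - b₁| < p`, `|x' - x| ≤ max x x'`,
   `κ p max x x' < Q`), and `κ |D| < Q`, `κ ≥ 2`: so `|D + (b₂-b₁)(x'-x)| < Q` and it is divisible by `Q`
   (`ZMod.intCast_zmod_eq_zero_iff_dvd` / `ZMod.intCast_cast`...; `Int.eq_zero_of_abs_lt_dvd`-like), hence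
   `D = -(b₂ - b₁)(x' - x)`.  Also `1 ≤ max x x'`, so `κ p < Q`, `p < Q`.

   `NB1` (`b₁ ≠ b₂`): write `Z = 3 Q p`.  For fixed `(b₁, b₂, b₃, w₁)` (at most `p^5` choices) map `c` to
   `(U, V) = (P₂ - P₁, P₃ - P₁) ∈ bx Z × bx Z` (`pt_sub_mem`); `crs U V = D = -(b₂-b₁)(x'-x) =: δ ≠ 0`, so `U ≠ 0`.
   The map is injective: mod `Q`, `U = act T (0, b₂-b₁)` and `V = act T (x'-x, y'+b₃-y-b₁)` (`pt_cast1/2`,
   `act_sub`), whose `crs` is `-(b₂-b₁)(x'-x) ≠ 0` mod `Q` (`Q` prime, `0 < |b₂-b₁| < p < Q`, `0 < |x'-x| < Q`), so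
   `T` is determined (`SL_unique`); then `w₂`, `w₃` are determined by `U`, `V` (cancel `Q`).
   So the number is `≤ p^5 · 25 Z² Hs Z = 225 Q² p^7 Hs Z` (`mcount`).

   `NB0` (`b₁ = b₂`, `w₁ ≠ w₂`): now `D = 0` and `U = Q • d`, `d = w₂ - w₁ ≠ 0` (`pt_sub_same`), so `crs d V = 0`.
   For fixed `(b₁, b₃, w₁, w₂)` (`≤ p^6`): the `V ∈ bx Z` with `crs d V = 0` are at most `2Z+1 ≤ 7 Q p` (one
   coordinate determines the other, or is zero); for each `V` at most `Q` matrices `T` satisfy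
   `act T v₀ = V` mod `Q`, `v₀ = (x'-x, y'+b₃-y-b₁) ≠ 0` (`card_act_le`), and `(T, V)` determines `w₃`.
   Total `≤ p^6 · 7 Q p · Q`.

   `NB` is the sum of the two. -/
import Crest.Agent.R32.Mcount
import Crest.Agent.R32.SLcard
import Crest.Agent.R32.Pt

set_option autoImplicit false

namespace Crest.Agent.R32

open Finset

/-- the determinant of the three points of a configuration, residues `r₁, r₂, r₃` -/
def dcfg {Q : ℕ} (c : Cfg Q) (r1 r2 r3 : F2 Q) : ℤ :=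
  det3 (pt c.1 r1 c.2.1.1 c.2.2.1) (pt c.1 r2 c.2.1.2.1 c.2.2.2.1) (pt c.1 r3 c.2.1.2.2 c.2.2.2.2)

theorem NB_det (Q p κ : ℕ) [Fact Q.Prime] [Fact p.Prime] (hκ : 2 ≤ κ) (x x' : ℤ) (hx : 0 ≤ x)
    (hx' : 0 ≤ x') (hxQ : (κ : ℤ) * p * x < Q) (hxQ' : (κ : ℤ) * p * x' < Q)
    (y y' : ZMod Q) (c : Cfg Q) (hc : c ∈ cfg Q p)
    (h : (κ : ℤ) * |dcfg c ((x : ZMod Q), y) ((x : ZMod Q), y) ((x' : ZMod Q), y')| < Q) :
    dcfg c ((x : ZMod Q), y) ((x : ZMod Q), y) ((x' : ZMod Q), y')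
      = -((c.2.1.2.1 - c.2.1.1) * (x' - x)) := by
  have hc' := hc
  simp only [cfg, mem_product, bI, mem_Ico] at hc'
  obtain ⟨hT, ⟨⟨hb10, hb11⟩, ⟨hb20, hb21⟩, -⟩, -⟩ := hc'
  set D : ℤ := dcfg c ((x : ZMod Q), y) ((x : ZMod Q), y) ((x' : ZMod Q), y') with hD
  set b1 : ℤ := c.2.1.1 with hb1
  set b2 : ℤ := c.2.1.2.1 with hb2
  have hcast : ((D + (b2 - b1) * (x' - x) : ℤ) : ZMod Q) = 0 := by
    have e := det3_pt_cast c.1 hT ((x : ZMod Q), y) ((x : ZMod Q), y) ((x' : ZMod Q), y')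
      c.2.1.1 c.2.1.2.1 c.2.1.2.2 c.2.2.1 c.2.2.2.1 c.2.2.2.2
    have e' : ((D : ℤ) : ZMod Q) = _ := e
    push_cast
    rw [e']
    unfold det3
    simp only [← hb1, ← hb2]
    ring
  have hdvd : (Q : ℤ) ∣ D + (b2 - b1) * (x' - x) := (ZMod.intCast_zmod_eq_zero_iff_dvd _ _).1 hcast
  have hQ : (0 : ℤ) < Q := by exact_mod_cast (Fact.out : Q.Prime).pos
  have hκ' : (2 : ℤ) ≤ κ := by exact_mod_cast hκ
  have hp : (0 : ℤ) < p := by exact_mod_cast (Fact.out : p.Prime).pos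
  have hb : |b2 - b1| ≤ p := by
    rw [abs_le]; constructor <;> linarith
  have hxx : |x' - x| ≤ max x x' := by
    rw [abs_le]
    constructor
    · linarith [le_max_left x x']
    · linarith [le_max_right x x']
  have hmax : (κ : ℤ) * p * max x x' < Q := by
    rcases max_cases x x' with ⟨h1, -⟩ | ⟨h1, -⟩ <;> rw [h1] <;> assumption
  have hprod : (κ : ℤ) * |(b2 - b1) * (x' - x)| < Q := by
    rw [abs_mul]
    have h1 : |b2 - b1| * |x' - x| ≤ p * max x x' :=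
      mul_le_mul hb hxx (abs_nonneg _) hp.le
    have h2 : (κ : ℤ) * (|b2 - b1| * |x' - x|) ≤ κ * (p * max x x') :=
      mul_le_mul_of_nonneg_left h1 (by linarith)
    linarith
  have hsum : |D + (b2 - b1) * (x' - x)| < Q := by
    have h1 := abs_add_le D ((b2 - b1) * (x' - x))
    have h2 : (κ : ℤ) * |D + (b2 - b1) * (x' - x)| ≤ κ * (|D| + |(b2 - b1) * (x' - x)|) :=
      mul_le_mul_of_nonneg_left h1 (by linarith)
    have h3 : 2 * |D + (b2 - b1) * (x' - x)| ≤ κ * |D + (b2 - b1) * (x' - x)| :=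
      mul_le_mul_of_nonneg_right hκ' (abs_nonneg _)
    nlinarith
  have h0 : D + (b2 - b1) * (x' - x) = 0 := Int.eq_zero_of_abs_lt_dvd hdvd hsum
  linarith

theorem NB_pt_sub_cast {Q : ℕ} [NeZero Q] (T : M2 Q) (r r' : F2 Q) (b b' : ℤ) (w w' : ℤ × ℤ) :
    act T ((r'.1, r'.2 + (b' : ZMod Q)) - (r.1, r.2 + (b : ZMod Q))) =
      ((((pt T r' b' w' - pt T r b w).1 : ℤ) : ZMod Q),
        (((pt T r' b' w' - pt T r b w).2 : ℤ) : ZMod Q)) := by
  rw [act_sub]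
  refine Prod.ext ?_ ?_
  · show (act T (r'.1, r'.2 + (b' : ZMod Q))).1 - (act T (r.1, r.2 + (b : ZMod Q))).1 = _
    rw [← pt_cast1 T r' b' w', ← pt_cast1 T r b w, Prod.fst_sub]
    push_cast
    rfl
  · show (act T (r'.1, r'.2 + (b' : ZMod Q))).2 - (act T (r.1, r.2 + (b : ZMod Q))).2 = _
    rw [← pt_cast2 T r' b' w', ← pt_cast2 T r b w, Prod.snd_sub]
    push_cast
    rfl

theorem NB_pt_inj {Q : ℕ} [NeZero Q] (T : M2 Q) (r : F2 Q) (b : ℤ) (w w' : ℤ × ℤ)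
    (h : pt T r b w = pt T r b w') : w = w' := by
  have hQ : (Q : ℤ) ≠ 0 := by exact_mod_cast NeZero.ne Q
  unfold pt at h
  simp only [Prod.mk.injEq] at h
  refine Prod.ext ?_ ?_
  · exact mul_left_cancel₀ hQ (by linarith [h.1])
  · exact mul_left_cancel₀ hQ (by linarith [h.2])

theorem NB_ne_zero {Q : ℕ} (a : ℤ) (h0 : a ≠ 0) (h1 : |a| < Q) : ((a : ℤ) : ZMod Q) ≠ 0 := by
  intro h
  rw [ZMod.intCast_zmod_eq_zero_iff_dvd] at h
  exact h0 (Int.eq_zero_of_abs_lt_dvd h h1)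

theorem NB_small {Q p κ : ℕ} (hp : 2 ≤ p) (hκ : 2 ≤ κ) {x x' : ℤ} (hx : 0 ≤ x)
    (hx' : 0 ≤ x') (hne : x ≠ x') (hxQ : (κ : ℤ) * p * x < Q) (hxQ' : (κ : ℤ) * p * x' < Q) :
    (p : ℤ) < Q ∧ |x' - x| < Q := by
  have hp' : (2 : ℤ) ≤ p := by exact_mod_cast hp
  have hκ' : (2 : ℤ) ≤ κ := by exact_mod_cast hκ
  have hkp : (p : ℤ) ≤ κ * p := by nlinarith
  have key : ∀ z : ℤ, 1 ≤ z → (κ : ℤ) * p * z < Q → (p : ℤ) < Q ∧ z < Q := by
    intro z hz hzQ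
    constructor
    · nlinarith
    · nlinarith
  rcases lt_or_gt_of_ne hne with h | h
  · obtain ⟨h1, h2⟩ := key x' (by omega) hxQ'
    exact ⟨h1, by rw [abs_of_pos (by omega)]; omega⟩
  · obtain ⟨h1, h2⟩ := key x (by omega) hxQ
    exact ⟨h1, by rw [abs_of_neg (by omega)]; omega⟩

theorem NB1 (Q p κ : ℕ) [Fact Q.Prime] [Fact p.Prime] (hκ : 2 ≤ κ) (x x' : ℤ) (hx : 0 ≤ x)
    (hx' : 0 ≤ x') (hne : x ≠ x') (hxQ : (κ : ℤ) * p * x < Q) (hxQ' : (κ : ℤ) * p * x' < Q)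
    (y y' : ZMod Q) :
    (((cfg Q p).filter (fun c => c.2.1.1 ≠ c.2.1.2.1 ∧
        (κ : ℤ) * |dcfg c ((x : ZMod Q), y) ((x : ZMod Q), y) ((x' : ZMod Q), y')| < Q)).card : ℝ)
      ≤ 225 * (Q : ℝ) ^ 2 * (p : ℝ) ^ 7 * Hs (3 * Q * p) := by
  classical
  have hp2 : 2 ≤ p := (Fact.out : p.Prime).two_le
  have hQ2 : 2 ≤ Q := (Fact.out : Q.Prime).two_le
  obtain ⟨hpQ, hxx⟩ := NB_small hp2 hκ hx hx' hne hxQ hxQ'
  set S := (cfg Q p).filter (fun c => c.2.1.1 ≠ c.2.1.2.1 ∧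
        (κ : ℤ) * |dcfg c ((x : ZMod Q), y) ((x : ZMod Q), y) ((x' : ZMod Q), y')| < Q) with hS
  set K : Finset ((ℤ × ℤ × ℤ) × (ℤ × ℤ)) := (bI p ×ˢ bI p ×ˢ bI p) ×ˢ wI p with hK
  have hcfg : ∀ c ∈ cfg Q p, c.1 ∈ SL Q ∧ (c.2.1.1 ∈ bI p ∧ c.2.1.2.1 ∈ bI p ∧ c.2.1.2.2 ∈ bI p) ∧
      (c.2.2.1 ∈ wI p ∧ c.2.2.2.1 ∈ wI p ∧ c.2.2.2.2 ∈ wI p) := by
    intro c hc
    unfold cfg at hc
    simp only [mem_product] at hc
    exact hc
  have hmaps : ∀ c ∈ S, ((c.2.1, c.2.2.1) : (ℤ × ℤ × ℤ) × (ℤ × ℤ)) ∈ K := by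
    intro c hc
    rw [hS, mem_filter] at hc
    obtain ⟨_, hb, hw⟩ := hcfg c hc.1
    rw [hK]
    simp only [mem_product]
    exact ⟨hb, hw.1⟩
  have hcard := Finset.card_eq_sum_card_fiberwise (f := fun c : Cfg Q =>
    ((c.2.1, c.2.2.1) : (ℤ × ℤ × ℤ) × (ℤ × ℤ))) (s := S) (t := K) (fun c hc => hmaps c hc)
  have hZ1 : 1 ≤ 3 * Q * p := by
    have : 0 < 3 * Q * p := by positivity
    omega
  have hfib : ∀ k ∈ K, ((S.filter (fun c => ((c.2.1, c.2.2.1) : (ℤ × ℤ × ℤ) × (ℤ × ℤ)) = k)).card : ℝ)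
      ≤ 25 * ((3 * Q * p : ℕ) : ℝ) ^ 2 * Hs (3 * Q * p) := by
    rintro ⟨⟨b1, b2, b3⟩, w1⟩ _
    refine le_trans ?_ (mcount (3 * Q * p) hZ1 (-((b2 - b1) * (x' - x))))
    rw [Nat.cast_le]
    apply Finset.card_le_card_of_injOn (fun c : Cfg Q =>
      ((pt c.1 ((x : ZMod Q), y) c.2.1.2.1 c.2.2.2.1 - pt c.1 ((x : ZMod Q), y) c.2.1.1 c.2.2.1,
        pt c.1 ((x' : ZMod Q), y') c.2.1.2.2 c.2.2.2.2 - pt c.1 ((x : ZMod Q), y) c.2.1.1 c.2.2.1) :
          (ℤ × ℤ) × (ℤ × ℤ)))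
    · rintro c hc
      rw [mem_coe, mem_filter, hS, mem_filter] at hc
      obtain ⟨⟨hc1, hc2, hc3⟩, hc4⟩ := hc
      obtain ⟨hT, ⟨hb1, hb2, hb3⟩, hw1, hw2, hw3⟩ := hcfg c hc1
      have hdet := NB_det Q p κ hκ x x' hx hx' hxQ hxQ' y y' c hc1 hc3
      have e1 : c.2.1 = (b1, b2, b3) := congrArg Prod.fst hc4
      have hcrs : crs (pt c.1 ((x : ZMod Q), y) c.2.1.2.1 c.2.2.2.1 -
          pt c.1 ((x : ZMod Q), y) c.2.1.1 c.2.2.1)
          (pt c.1 ((x' : ZMod Q), y') c.2.1.2.2 c.2.2.2.2 -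
          pt c.1 ((x : ZMod Q), y) c.2.1.1 c.2.2.1) = -((b2 - b1) * (x' - x)) := by
        have : dcfg c ((x : ZMod Q), y) ((x : ZMod Q), y) ((x' : ZMod Q), y') =
            -((b2 - b1) * (x' - x)) := by rw [hdet, e1]
        rw [← this]
        rfl
      rw [mem_coe, mem_filter, mem_product, mem_erase]
      refine ⟨⟨⟨?_, pt_sub_mem c.1 _ _ _ _ _ _ hb1 hw1 hb2 hw2⟩,
        pt_sub_mem c.1 _ _ _ _ _ _ hb1 hw1 hb3 hw3⟩, hcrs⟩
      intro h0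
      simp only at h0
      rw [h0] at hcrs
      have hb12 : b1 ≠ b2 := by
        rw [e1] at hc2
        exact hc2
      have h1 : (0 : ℤ) = -((b2 - b1) * (x' - x)) := by
        rw [← hcrs]
        simp [crs]
      have h2 : (b2 - b1) * (x' - x) = 0 := by linarith
      rcases mul_eq_zero.1 h2 with h3 | h3
      · exact hb12 (by linarith)
      · exact hne (by linarith)
    · intro c hc c' hc' heq
      rw [mem_coe, mem_filter, hS, mem_filter] at hc hc'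
      obtain ⟨⟨hc1, hc2, hc3⟩, hc4⟩ := hc
      obtain ⟨⟨hc1', hc2', hc3'⟩, hc4'⟩ := hc'
      obtain ⟨hT, ⟨hb1, hb2, hb3⟩, hw1, hw2, hw3⟩ := hcfg c hc1
      obtain ⟨T, ⟨a1, a2, a3⟩, ⟨v1, v2, v3⟩⟩ := c
      obtain ⟨T', ⟨a1', a2', a3'⟩, ⟨v1', v2', v3'⟩⟩ := c'
      simp only [Prod.mk.injEq] at hc4 hc4'
      obtain ⟨⟨rfl, rfl, rfl⟩, rfl⟩ := hc4
      obtain ⟨⟨rfl, rfl, rfl⟩, rfl⟩ := hc4'
      simp only [Prod.mk.injEq] at heq
      obtain ⟨hU, hV⟩ := heq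
      simp only at hc2 hb1 hb2
      have hbne : (((a2' - a1' : ℤ)) : ZMod Q) ≠ 0 := by
        apply NB_ne_zero
        · intro h
          exact hc2 (by linarith)
        · simp only [bI, mem_Ico] at hb1 hb2
          rw [abs_lt]
          constructor <;> linarith [hb1.1, hb1.2, hb2.1, hb2.2]
      have hxne : (((x' - x : ℤ)) : ZMod Q) ≠ 0 := NB_ne_zero _ (fun h => hne (by linarith)) hxx
      have hTT : T = T' := by
        apply SL_unique T T' (((x : ZMod Q), y + (a2' : ZMod Q)) - ((x : ZMod Q), y + (a1' : ZMod Q)))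
          (((x' : ZMod Q), y' + (a3' : ZMod Q)) - ((x : ZMod Q), y + (a1' : ZMod Q)))
        · have : crs (((x : ZMod Q), y + (a2' : ZMod Q)) - ((x : ZMod Q), y + (a1' : ZMod Q)))
              (((x' : ZMod Q), y' + (a3' : ZMod Q)) - ((x : ZMod Q), y + (a1' : ZMod Q))) =
              -((((a2' - a1' : ℤ)) : ZMod Q) * (((x' - x : ℤ)) : ZMod Q)) := by
            unfold crs
            simp only [Prod.fst_sub, Prod.snd_sub]
            push_cast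
            ring
          rw [this]
          exact neg_ne_zero.2 (mul_ne_zero hbne hxne)
        · rw [NB_pt_sub_cast T ((x : ZMod Q), y) ((x : ZMod Q), y) a1' a2' v1' v2,
            NB_pt_sub_cast T' ((x : ZMod Q), y) ((x : ZMod Q), y) a1' a2' v1' v2', hU]
        · rw [NB_pt_sub_cast T ((x : ZMod Q), y) ((x' : ZMod Q), y') a1' a3' v1' v3,
            NB_pt_sub_cast T' ((x : ZMod Q), y) ((x' : ZMod Q), y') a1' a3' v1' v3', hV]
      subst hTT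
      have e2 : v2 = v2' := NB_pt_inj T _ _ _ _ (sub_left_injective hU)
      have e3 : v3 = v3' := NB_pt_inj T _ _ _ _ (sub_left_injective hV)
      rw [e2, e3]
  have hKc : (K.card : ℝ) = (p : ℝ) ^ 5 := by
    have h1 : (bI p).card = p := by
      unfold bI
      rw [Int.card_Ico]
      simp
    have h2 : K.card = p ^ 5 := by
      rw [hK, card_product, card_product, card_product]
      unfold wI
      rw [card_product, h1]
      ring
    rw [h2]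
    push_cast
    rfl
  calc (S.card : ℝ) = ∑ k ∈ K,
        ((S.filter (fun c => ((c.2.1, c.2.2.1) : (ℤ × ℤ × ℤ) × (ℤ × ℤ)) = k)).card : ℝ) := by
        rw [hcard]
        push_cast
        rfl
    _ ≤ ∑ k ∈ K, (25 * ((3 * Q * p : ℕ) : ℝ) ^ 2 * Hs (3 * Q * p)) := Finset.sum_le_sum hfib
    _ = 225 * (Q : ℝ) ^ 2 * (p : ℝ) ^ 7 * Hs (3 * Q * p) := by
        rw [Finset.sum_const, nsmul_eq_mul, hKc]
        push_cast
        ring

/-- the vectors of the box on a line through 0 -/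
theorem NB0_line (Z : ℕ) (d : ℤ × ℤ) (hd : d ≠ 0) :
    ((bx Z).filter (fun V => crs d V = 0)).card ≤ 2 * Z + 1 := by
  have hI : (Icc (-(Z : ℤ)) (Z : ℤ)).card = 2 * Z + 1 := by
    rw [Int.card_Icc]
    omega
  rw [← hI]
  by_cases h1 : d.1 = 0
  · have h2 : d.2 ≠ 0 := fun h => hd (Prod.ext h1 h)
    apply card_le_card_of_injOn (fun V => V.2)
    · intro V hV
      rw [mem_coe, mem_filter, bx, mem_product] at hV
      exact hV.1.2
    · intro V hV V' hV' h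
      rw [mem_coe, mem_filter] at hV hV'
      have e1 := hV.2
      have e2 := hV'.2
      unfold crs at e1 e2
      rw [h1] at e1 e2
      refine Prod.ext ?_ h
      apply mul_left_cancel₀ h2
      linarith
  · apply card_le_card_of_injOn (fun V => V.1)
    · intro V hV
      rw [mem_coe, mem_filter, bx, mem_product] at hV
      exact hV.1.1
    · intro V hV V' hV' h
      rw [mem_coe, mem_filter] at hV hV'
      have e1 := hV.2
      have e2 := hV'.2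
      unfold crs at e1 e2
      simp only at h
      rw [← h] at e2
      refine Prod.ext h ?_
      apply mul_left_cancel₀ h1
      linarith

theorem NB0_card_bI (p : ℕ) : (bI p).card = p := by
  unfold bI
  rw [Int.card_Ico]
  omega

theorem NB0_card_wI (p : ℕ) : (wI p).card = p * p := by
  unfold wI
  rw [card_product, NB0_card_bI]

theorem NB0 (Q p κ : ℕ) [Fact Q.Prime] [Fact p.Prime] (hκ : 2 ≤ κ) (x x' : ℤ) (hx : 0 ≤ x)
    (hx' : 0 ≤ x') (hne : x ≠ x') (hxQ : (κ : ℤ) * p * x < Q) (hxQ' : (κ : ℤ) * p * x' < Q)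
    (y y' : ZMod Q) :
    ((cfg Q p).filter (fun c => (c.2.1.1 = c.2.1.2.1 ∧ c.2.2.1 ≠ c.2.2.2.1) ∧
        (κ : ℤ) * |dcfg c ((x : ZMod Q), y) ((x : ZMod Q), y) ((x' : ZMod Q), y')| < Q)).card
      ≤ 7 * Q ^ 2 * p ^ 7 := by
  classical
  have hQ0 : 0 < Q := (Fact.out : Q.Prime).pos
  have hp0 : 0 < p := (Fact.out : p.Prime).pos
  have hQz : (Q : ℤ) ≠ 0 := by exact_mod_cast hQ0.ne'
  -- `x' - x` is nonzero mod `Q`
  have hxx : ((x' : ZMod Q) - (x : ZMod Q)) ≠ 0 := by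
    intro h
    have h1 : ((x' - x : ℤ) : ZMod Q) = 0 := by push_cast; exact h
    rw [ZMod.intCast_zmod_eq_zero_iff_dvd] at h1
    have hκp : (1 : ℤ) ≤ (κ : ℤ) * p := by
      have : 0 < κ * p := Nat.mul_pos (by omega) hp0
      exact_mod_cast this
    have h2 : x < Q := by nlinarith
    have h3 : x' < Q := by nlinarith
    have h4 : |x' - x| < Q := by
      rw [abs_lt]
      constructor <;> linarith
    have h5 := Int.eq_zero_of_abs_lt_dvd h1 h4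
    apply hne
    linarith
  set S := (cfg Q p).filter (fun c => (c.2.1.1 = c.2.1.2.1 ∧ c.2.2.1 ≠ c.2.2.2.1) ∧
        (κ : ℤ) * |dcfg c ((x : ZMod Q), y) ((x : ZMod Q), y) ((x' : ZMod Q), y')| < Q) with hS
  have hmem : ∀ c ∈ S, c.1 ∈ SL Q ∧ c.2.1.1 ∈ bI p ∧ c.2.1.2.2 ∈ bI p ∧ c.2.2.1 ∈ wI p ∧
      c.2.2.2.1 ∈ wI p ∧ c.2.2.2.2 ∈ wI p ∧ c.2.1.1 = c.2.1.2.1 ∧ c.2.2.1 ≠ c.2.2.2.1 ∧
      crs (c.2.2.2.1 - c.2.2.1) (pt c.1 ((x' : ZMod Q), y') c.2.1.2.2 c.2.2.2.2 -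
        pt c.1 ((x : ZMod Q), y) c.2.1.1 c.2.2.1) = 0 := by
    intro c hc
    rw [hS, mem_filter] at hc
    obtain ⟨hc, ⟨hb, hw⟩, hd⟩ := hc
    have hdet := NB_det Q p κ hκ x x' hx hx' hxQ hxQ' y y' c hc hd
    rw [← hb] at hdet
    simp only [sub_self, zero_mul, neg_zero] at hdet
    have hc' := hc
    unfold cfg at hc'
    simp only [mem_product] at hc'
    obtain ⟨hT, ⟨hb1, hb2, hb3⟩, hw1, hw2, hw3⟩ := hc'
    refine ⟨hT, hb1, hb3, hw1, hw2, hw3, hb, hw, ?_⟩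
    unfold dcfg at hdet
    rw [det3_eq_crs, ← hb, pt_sub_same] at hdet
    unfold crs at hdet ⊢
    simp only [sub_self, zero_mul, zero_add] at hdet
    apply mul_left_cancel₀ hQz
    simp only [Prod.fst_sub, Prod.snd_sub] at hdet ⊢
    linarith
  -- step 1
  have h1 := card_le_mul_card_image_of_maps_to (s := S)
    (t := bI p ×ˢ (bI p ×ˢ (wI p ×ˢ wI p)))
    (f := fun c => (c.2.1.1, c.2.1.2.2, c.2.2.1, c.2.2.2.1))
    (fun c hc => by
      obtain ⟨-, a1, a2, a3, a4, -⟩ := hmem c hc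
      simp only [mem_product]
      exact ⟨a1, a2, a3, a4⟩) (7 * Q ^ 2 * p) ?_
  · rw [card_product, card_product, card_product, NB0_card_bI, NB0_card_wI] at h1
    calc S.card ≤ 7 * Q ^ 2 * p * (p * (p * (p * p * (p * p)))) := h1
      _ = 7 * Q ^ 2 * p ^ 7 := by ring
  rintro ⟨b1, b3, w1, w2⟩ -
  by_cases hw : w1 = w2
  · have : {a ∈ S | (a.2.1.1, a.2.1.2.2, a.2.2.1, a.2.2.2.1) = (b1, b3, w1, w2)} = ∅ := by
      rw [filter_eq_empty_iff]
      intro c hc h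
      obtain ⟨-, -, -, -, -, -, -, hne', -⟩ := hmem c hc
      simp only [Prod.mk.injEq] at h
      apply hne'
      rw [h.2.2.1, h.2.2.2, hw]
    rw [this, card_empty]
    exact Nat.zero_le _
  -- step 2
  have hd : w2 - w1 ≠ 0 := fun h => hw (sub_eq_zero.1 h).symm
  have h2 := card_le_mul_card_image_of_maps_to
    (s := {a ∈ S | (a.2.1.1, a.2.1.2.2, a.2.2.1, a.2.2.2.1) = (b1, b3, w1, w2)})
    (t := (bx (3 * Q * p)).filter (fun V => crs (w2 - w1) V = 0))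
    (f := fun c => pt c.1 ((x' : ZMod Q), y') c.2.1.2.2 c.2.2.2.2 -
        pt c.1 ((x : ZMod Q), y) c.2.1.1 c.2.2.1)
    (fun c hc => by
      rw [mem_filter] at hc
      obtain ⟨hc, h⟩ := hc
      obtain ⟨-, a1, a2, a3, a4, a5, a6, a7, a8⟩ := hmem c hc
      simp only [Prod.mk.injEq] at h
      rw [mem_filter]
      refine ⟨pt_sub_mem _ _ _ _ _ _ _ a1 a3 a2 a5, ?_⟩
      rw [h.2.2.2, h.2.2.1] at a8
      rw [h.2.2.1]
      exact a8) Q ?_
  · refine h2.trans ?_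
    refine (Nat.mul_le_mul_left Q (NB0_line (3 * Q * p) _ hd)).trans ?_
    have : 1 ≤ Q * p := Nat.mul_pos hQ0 hp0
    nlinarith
  -- step 3
  intro V _
  refine le_trans ?_ (card_act_le Q ((x' : ZMod Q) - x, y' + b3 - (y + b1))
    ((V.1 : ZMod Q), (V.2 : ZMod Q)) ?_)
  · apply card_le_card_of_injOn (fun c => c.1)
    · intro c hc
      rw [mem_coe, mem_filter, mem_filter] at hc
      obtain ⟨⟨hc, h⟩, hV⟩ := hc
      obtain ⟨a0, -⟩ := hmem c hc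
      simp only [Prod.mk.injEq] at h
      rw [mem_coe, mem_filter]
      refine ⟨a0, ?_⟩
      have e : (((x' : ZMod Q) - x, y' + b3 - (y + b1)) : F2 Q) =
          ((x' : ZMod Q), y' + (b3 : ZMod Q)) - ((x : ZMod Q), y + (b1 : ZMod Q)) := rfl
      rw [e, act_sub]
      have p1 := pt_cast1 c.1 ((x' : ZMod Q), y') c.2.1.2.2 c.2.2.2.2
      have p2 := pt_cast2 c.1 ((x' : ZMod Q), y') c.2.1.2.2 c.2.2.2.2
      have p3 := pt_cast1 c.1 ((x : ZMod Q), y) c.2.1.1 c.2.2.1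
      have p4 := pt_cast2 c.1 ((x : ZMod Q), y) c.2.1.1 c.2.2.1
      have v1 := congrArg Prod.fst hV
      have v2 := congrArg Prod.snd hV
      simp only [Prod.fst_sub, Prod.snd_sub] at v1 v2
      rw [h.2.1] at p1 p2
      rw [h.1] at p3 p4
      rw [h.1, h.2.1] at v1 v2
      refine Prod.ext ?_ ?_
      · rw [Prod.fst_sub, ← p1, ← p3]
        rw [← v1]
        push_cast
        rfl
      · rw [Prod.snd_sub, ← p2, ← p4]
        rw [← v2]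
        push_cast
        rfl
    · intro c hc c' hc' hT
      rw [mem_coe, mem_filter, mem_filter] at hc hc'
      obtain ⟨⟨hc, h⟩, hV⟩ := hc
      obtain ⟨⟨hc', h'⟩, hV'⟩ := hc'
      obtain ⟨-, -, -, -, -, -, a6, -, -⟩ := hmem c hc
      obtain ⟨-, -, -, -, -, -, a6', -, -⟩ := hmem c' hc'
      obtain ⟨T, ⟨c1, c2, c3⟩, v1, v2, v3⟩ := c
      obtain ⟨T', ⟨c1', c2', c3'⟩, v1', v2', v3'⟩ := c'
      simp only [Prod.mk.injEq] at h h' a6 a6' hT hV hV'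
      obtain ⟨rfl, rfl, rfl, rfl⟩ := h
      obtain ⟨rfl, rfl, rfl, rfl⟩ := h'
      subst hT
      subst a6
      subst a6'
      have e := hV.trans hV'.symm
      have e1 := congrArg Prod.fst e
      have e2 := congrArg Prod.snd e
      simp only [Prod.fst_sub, Prod.snd_sub, pt] at e1 e2
      have f1 : v3.1 = v3'.1 := by
        apply mul_left_cancel₀ hQz
        linarith
      have f2 : v3.2 = v3'.2 := by
        apply mul_left_cancel₀ hQz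
        linarith
      have f3 : v3 = v3' := Prod.ext f1 f2
      rw [f3]
  · intro h
    exact hxx (congrArg Prod.fst h)

theorem NB (Q p κ : ℕ) [Fact Q.Prime] [Fact p.Prime] (hκ : 2 ≤ κ) (x x' : ℤ) (hx : 0 ≤ x)
    (hx' : 0 ≤ x') (hne : x ≠ x') (hxQ : (κ : ℤ) * p * x < Q) (hxQ' : (κ : ℤ) * p * x' < Q)
    (y y' : ZMod Q) :
    (((cfg Q p).filter (fun c => c.2.2.1 ≠ c.2.2.2.1 ∧
        (κ : ℤ) * |dcfg c ((x : ZMod Q), y) ((x : ZMod Q), y) ((x' : ZMod Q), y')| < Q)).card : ℝ)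
      ≤ 232 * (Q : ℝ) ^ 2 * (p : ℝ) ^ 7 * Hs (3 * Q * p) := by
  classical
  have h1 := NB1 Q p κ hκ x x' hx hx' hne hxQ hxQ' y y'
  have h0 := NB0 Q p κ hκ x x' hx hx' hne hxQ hxQ' y y'
  have hsub : ((cfg Q p).filter (fun c => c.2.2.1 ≠ c.2.2.2.1 ∧
        (κ : ℤ) * |dcfg c ((x : ZMod Q), y) ((x : ZMod Q), y) ((x' : ZMod Q), y')| < Q)) ⊆
      ((cfg Q p).filter (fun c => c.2.1.1 ≠ c.2.1.2.1 ∧
        (κ : ℤ) * |dcfg c ((x : ZMod Q), y) ((x : ZMod Q), y) ((x' : ZMod Q), y')| < Q)) ∪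
      ((cfg Q p).filter (fun c => (c.2.1.1 = c.2.1.2.1 ∧ c.2.2.1 ≠ c.2.2.2.1) ∧
        (κ : ℤ) * |dcfg c ((x : ZMod Q), y) ((x : ZMod Q), y) ((x' : ZMod Q), y')| < Q)) := by
    intro c hc
    simp only [mem_filter, mem_union] at hc ⊢
    tauto
  have h2 := (card_le_card hsub).trans (card_union_le _ _)
  have h2' : ((((cfg Q p).filter (fun c => c.2.2.1 ≠ c.2.2.2.1 ∧
        (κ : ℤ) * |dcfg c ((x : ZMod Q), y) ((x : ZMod Q), y) ((x' : ZMod Q), y')| < Q)).card : ℕ) : ℝ) ≤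
      ((((cfg Q p).filter (fun c => c.2.1.1 ≠ c.2.1.2.1 ∧
        (κ : ℤ) * |dcfg c ((x : ZMod Q), y) ((x : ZMod Q), y) ((x' : ZMod Q), y')| < Q)).card : ℕ) : ℝ) +
      ((((cfg Q p).filter (fun c => (c.2.1.1 = c.2.1.2.1 ∧ c.2.2.1 ≠ c.2.2.2.1) ∧
        (κ : ℤ) * |dcfg c ((x : ZMod Q), y) ((x : ZMod Q), y) ((x' : ZMod Q), y')| < Q)).card : ℕ) : ℝ) := by
    exact_mod_cast h2
  have h0' : ((((cfg Q p).filter (fun c => (c.2.1.1 = c.2.1.2.1 ∧ c.2.2.1 ≠ c.2.2.2.1) ∧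
        (κ : ℤ) * |dcfg c ((x : ZMod Q), y) ((x : ZMod Q), y) ((x' : ZMod Q), y')| < Q)).card : ℕ) : ℝ)
      ≤ 7 * (Q : ℝ) ^ 2 * (p : ℝ) ^ 7 := by exact_mod_cast h0
  have hH : 1 ≤ Hs (3 * Q * p) := one_le_Hs (by
    have := (Fact.out : Q.Prime).pos
    have := (Fact.out : p.Prime).pos
    have : 0 < 3 * Q * p := by positivity
    omega)
  have hpos : (0 : ℝ) ≤ 7 * (Q : ℝ) ^ 2 * (p : ℝ) ^ 7 := by positivity
  nlinarith [mul_le_mul_of_nonneg_left hH hpos]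

end Crest.Agent.R32
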