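/- Row 32, piece GSUM: `∑_{v ≠ 0, |v| ≤ Y} gcd(v)/|v| ≤ 8 Y H(Y)`.
   PROOF.  Group the nonzero `v` of the box by `g = gc v` (`1 ≤ g ≤ Y`): `v = g v'` with `v'` primitive,
   `1 ≤ nrm v' ≤ Y / g` and `gc v / nrm v = 1 / nrm v'`.  So the sum is at most
   `∑_{g=1}^{Y} ∑_{v' ≠ 0, nrm v' ≤ Y/g} 1/nrm v'`, and `#{v' : nrm v' = r} = 8 r` (`≤` is enough), so the inner
   sum is at most `8 (Y / g) ≤ 8 Y / g`.  Total `8 Y ∑_{g ≤ Y} 1/g = 8 Y Hs Y`.
   ALTERNATIVE (no grouping in the plane): by symmetry the sum is at most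
   `8 ∑_{a=1}^{Y} (1/a) ∑_{b=1}^{a} gcd(a,b)` (each `v` belongs to one of 8 closed octants: `nrm v = a`,
   other coordinate `0 ≤ b ≤ a`; careful count: for `nrm v = a` there are at most `8` vectors for each
   `b ∈ {1,...,a}`, where `b = 0` is replaced by `b = a`, gcd(a,0) = gcd(a,a) = a), and
   `∑_{b=1}^a gcd(a,b) = ∑_{g ∣ a} g φ(a/g) ≤ ∑_{g ∣ a} g (a/g) = a τ(a)`, `∑_{a ≤ Y} τ(a) = ∑_g ⌊Y/g⌋ ≤ Y Hs Y`. -/
import Crest.Agent.R32.Defs

set_option autoImplicit false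

namespace Crest.Agent.R32

open Finset

theorem gsum_mem_bx {Y : ℕ} {v : ℤ × ℤ} : v ∈ bx Y ↔ nrm v ≤ Y := by
  simp only [bx, nrm, Finset.mem_product, Finset.mem_Icc, max_le_iff]
  omega

theorem gsum_card_bx (Y : ℕ) : (bx Y).card = (2 * Y + 1) * (2 * Y + 1) := by
  unfold bx
  rw [Finset.card_product, Int.card_Icc]
  have : ((Y : ℤ) + 1 - -(Y : ℤ)).toNat = 2 * Y + 1 := by omega
  rw [this]

theorem gsum_inner (m : ℕ) : ∑ v ∈ bx m, (1 : ℝ) / (nrm v : ℝ) = 8 * (m : ℝ) := by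
  induction m with
  | zero =>
    rw [Nat.cast_zero, mul_zero]
    apply Finset.sum_eq_zero
    intro v hv
    have : nrm v = 0 := by
      have := gsum_mem_bx.1 hv
      omega
    rw [this]; simp
  | succ m ih =>
    have hsub : bx m ⊆ bx (m + 1) := by
      intro v hv
      rw [gsum_mem_bx] at hv ⊢
      omega
    rw [← Finset.sum_sdiff hsub, ih]
    have h1 : ∑ v ∈ bx (m + 1) \ bx m, (1 : ℝ) / (nrm v : ℝ) =
        ∑ v ∈ bx (m + 1) \ bx m, (1 : ℝ) / ((m : ℝ) + 1) := by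
      apply Finset.sum_congr rfl
      intro v hv
      rw [Finset.mem_sdiff, gsum_mem_bx, gsum_mem_bx] at hv
      have : nrm v = m + 1 := by omega
      rw [this]; push_cast; rfl
    have h2 : (bx (m + 1) \ bx m).card = 8 * (m + 1) := by
      rw [Finset.card_sdiff_of_subset hsub, gsum_card_bx, gsum_card_bx]
      have : (2 * (m + 1) + 1) * (2 * (m + 1) + 1) =
          8 * (m + 1) + (2 * m + 1) * (2 * m + 1) := by ring
      rw [this]; omega
    rw [h1, Finset.sum_const, h2, nsmul_eq_mul]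
    have : ((m : ℝ) + 1) ≠ 0 := by positivity
    push_cast
    field_simp
    ring

theorem gsum (Y : ℕ) :
    ∑ v ∈ (bx Y).erase 0, (gc v : ℝ) / (nrm v : ℝ) ≤ 8 * (Y : ℝ) * Hs Y := by
  classical
  set S := (bx Y).erase 0 with hS
  set T : Finset (Σ _ : ℕ, ℤ × ℤ) := (range Y).sigma (fun g => bx (Y / (g + 1))) with hT
  set i : ℤ × ℤ → (Σ _ : ℕ, ℤ × ℤ) :=
    fun v => ⟨gc v - 1, (v.1 / (gc v : ℤ), v.2 / (gc v : ℤ))⟩ with hi
  set F : (Σ _ : ℕ, ℤ × ℤ) → ℝ := fun x => (1 : ℝ) / (nrm x.2 : ℝ) with hF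
  have hgpos : ∀ v ∈ S, 1 ≤ gc v := by
    intro v hv
    have hv0 : v ≠ 0 := Finset.ne_of_mem_erase hv
    by_contra hc
    have h0 : gc v = 0 := by omega
    unfold gc at h0
    rw [Int.gcd_eq_zero_iff] at h0
    exact hv0 (Prod.ext h0.1 h0.2)
  have hd1 : ∀ v : ℤ × ℤ, (gc v : ℤ) * (v.1 / (gc v : ℤ)) = v.1 := fun v =>
    Int.mul_ediv_cancel' (Int.gcd_dvd_left _ _)
  have hd2 : ∀ v : ℤ × ℤ, (gc v : ℤ) * (v.2 / (gc v : ℤ)) = v.2 := fun v =>
    Int.mul_ediv_cancel' (Int.gcd_dvd_right _ _)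
  have hnrm : ∀ v : ℤ × ℤ, nrm v = gc v * nrm (i v).2 := by
    intro v
    have e1 : v.1.natAbs = gc v * (v.1 / (gc v : ℤ)).natAbs := by
      conv_lhs => rw [← hd1 v]
      rw [Int.natAbs_mul, Int.natAbs_natCast]
    have e2 : v.2.natAbs = gc v * (v.2 / (gc v : ℤ)).natAbs := by
      conv_lhs => rw [← hd2 v]
      rw [Int.natAbs_mul, Int.natAbs_natCast]
    show max v.1.natAbs v.2.natAbs =
      gc v * max (v.1 / (gc v : ℤ)).natAbs (v.2 / (gc v : ℤ)).natAbs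
    rw [e1, e2, Nat.mul_max_mul_left]
  have hval : ∀ v ∈ S, (gc v : ℝ) / (nrm v : ℝ) = F (i v) := by
    intro v hv
    have h1 : (gc v : ℝ) ≠ 0 := by
      have := hgpos v hv
      positivity
    show (gc v : ℝ) / (nrm v : ℝ) = 1 / (nrm (i v).2 : ℝ)
    rw [hnrm v, Nat.cast_mul, ← div_div, div_self h1]
  have hinj : Set.InjOn i (S : Set (ℤ × ℤ)) := by
    intro v hv u hu h
    have hv' := hgpos v hv
    have hu' := hgpos u hu
    simp only [hi, Sigma.mk.injEq, heq_eq_eq, Prod.mk.injEq] at h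
    have hg : gc v = gc u := by omega
    apply Prod.ext
    · rw [← hd1 v, ← hd1 u, h.2.1, hg]
    · rw [← hd2 v, ← hd2 u, h.2.2, hg]
  have himg : S.image i ⊆ T := by
    intro x hx
    obtain ⟨v, hv, rfl⟩ := Finset.mem_image.1 hx
    have hg := hgpos v hv
    have hvY : nrm v ≤ Y := gsum_mem_bx.1 (Finset.mem_of_mem_erase hv)
    have hn := hnrm v
    have hpos : 1 ≤ nrm (i v).2 := by
      by_contra hc
      have h0 : nrm (i v).2 = 0 := by omega
      rw [h0, mul_zero] at hn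
      have hv0 : v ≠ 0 := Finset.ne_of_mem_erase hv
      apply hv0
      unfold nrm at hn
      have h1 : v.1.natAbs = 0 := by omega
      have h2 : v.2.natAbs = 0 := by omega
      exact Prod.ext (Int.natAbs_eq_zero.1 h1) (Int.natAbs_eq_zero.1 h2)
    rw [hT, Finset.mem_sigma]
    constructor
    · show gc v - 1 ∈ range Y
      rw [Finset.mem_range]
      have : gc v ≤ nrm v := by
        rw [hn]; exact Nat.le_mul_of_pos_right _ hpos
      omega
    · show (i v).2 ∈ bx (Y / (gc v - 1 + 1))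
      rw [gsum_mem_bx, Nat.sub_add_cancel hg, Nat.le_div_iff_mul_le hg, mul_comm, ← hn]
      exact hvY
  calc ∑ v ∈ S, (gc v : ℝ) / (nrm v : ℝ) = ∑ v ∈ S, F (i v) := Finset.sum_congr rfl hval
    _ = ∑ x ∈ S.image i, F x := (Finset.sum_image hinj).symm
    _ ≤ ∑ x ∈ T, F x := Finset.sum_le_sum_of_subset_of_nonneg himg
        (fun x _ _ => by simp only [hF]; positivity)
    _ = ∑ g ∈ range Y, ∑ w ∈ bx (Y / (g + 1)), (1 : ℝ) / (nrm w : ℝ) := by
        rw [hT, Finset.sum_sigma]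
    _ = ∑ g ∈ range Y, 8 * ((Y / (g + 1) : ℕ) : ℝ) :=
        Finset.sum_congr rfl (fun g _ => gsum_inner _)
    _ ≤ ∑ g ∈ range Y, 8 * (Y : ℝ) * (1 / ((g : ℝ) + 1)) := by
        apply Finset.sum_le_sum
        intro g _
        have h1 : ((Y / (g + 1) : ℕ) : ℝ) ≤ (Y : ℝ) / ((g + 1 : ℕ) : ℝ) := Nat.cast_div_le
        push_cast at h1
        have : 8 * (Y : ℝ) * (1 / ((g : ℝ) + 1)) = 8 * ((Y : ℝ) / ((g : ℝ) + 1)) := by ring
        rw [this]
        linarith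
    _ = 8 * (Y : ℝ) * Hs Y := by
        unfold Hs
        rw [Finset.mul_sum]

end Crest.Agent.R32
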