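/- Row 32, pieces SSUMA and SSUM: `∑_{β,β',d,d'} gcd(n)/|n|`, `n = β d' - β' d ≠ 0`.

   PROOF of `ssumA` (fixed `(β, β') ≠ 0`; put `h = gcd β β'`, `μ = max |β| |β'|`, `1 ≤ h ≤ μ ≤ P`).
   Group the pairs `(d, d')` by the value `n = nv β β' d d'` (`Finset.sum_fiberwise`, or
   `Finset.card_eq_sum_card_fiberwise`).  Every value satisfies `h ∣ n.1`, `h ∣ n.2` and `nrm n ≤ 2 μ P`.
   For each `n` the number of `(d, d') ∈ bx P × bx P` with `nv β β' d d' = n` is at most `(3 P h / μ)²`: the two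
   coordinates are independent, and `β d'_i - β' d_i = n_i` is `crs (d_i', d_i) (β', β) = n_i`, so by
   `line_count` (vector `(β', β)`, box side `2P`) there are at most `1 + 2 P h / μ ≤ 3 P h / μ` pairs
   `(d_i', d_i)` (as `P h / μ ≥ 1`).
   The values `n ≠ 0` are `n = h n'` with `n' ∈ (bx M).erase 0`, `M = 2 μ P / h` (exact division: `h ∣ μ`), and
   `gc n / nrm n = gc n' / nrm n'`; by `gsum` the sum over all of them is `≤ 8 M Hs M ≤ 16 (μ P / h) Hs (2 P^2)`.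
   Total `≤ (9 P² h²/μ²) · 16 (μ P/h) Hs(2P²) = 144 P³ (h/μ) Hs (2 P^2)`.

   PROOF of `ssum`: sum `ssumA` over `(β, β') ∈ (bx P).erase 0` with `gsum P`
   (`144 P³ · 8 P Hs P = 1152 P⁴ Hs P`); for `(β, β') = 0` we have `n = 0`, contribution `0`. -/
import Crest.Agent.R32.Line
import Crest.Agent.R32.Gsum

set_option autoImplicit false

namespace Crest.Agent.R32

open Finset

theorem gc_smul (h : ℕ) (a b : ℤ) : gc ((h : ℤ) * a, (h : ℤ) * b) = h * gc (a, b) := by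
  unfold gc
  simp only
  rw [Int.gcd_mul_left, Int.natAbs_natCast]

theorem nrm_smul (h : ℕ) (a b : ℤ) : nrm ((h : ℤ) * a, (h : ℤ) * b) = h * nrm (a, b) := by
  unfold nrm
  simp only
  rw [Int.natAbs_mul, Int.natAbs_mul, Int.natAbs_natCast, Nat.mul_max_mul_left]

theorem gc_pos {v : ℤ × ℤ} (h : v ≠ 0) : 0 < gc v := by
  unfold gc
  rw [Nat.pos_iff_ne_zero]
  intro e
  rw [Int.gcd_eq_zero_iff] at e
  exact h (Prod.ext e.1 e.2)

theorem nrm_pos {v : ℤ × ℤ} (h : v ≠ 0) : 0 < nrm v := by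
  unfold nrm
  rw [Nat.pos_iff_ne_zero]
  intro e
  have h1 : v.1.natAbs ≤ 0 := by rw [← e]; exact le_max_left _ _
  have h2 : v.2.natAbs ≤ 0 := by rw [← e]; exact le_max_right _ _
  exact h (Prod.ext (by simpa using h1) (by simpa using h2))

theorem ssumA (P : ℕ) (hP : 1 ≤ P) (β β' : ℤ) (h0 : (β, β') ≠ 0)
    (hβ : (β, β') ∈ bx P) :
    ∑ d ∈ bx P, ∑ d' ∈ bx P,
      (if nv β β' d d' = 0 then (0 : ℝ) else (gc (nv β β' d d') : ℝ) / (nrm (nv β β' d d') : ℝ))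
      ≤ 144 * (P : ℝ) ^ 3 * ((gc (β, β') : ℝ) / (nrm (β, β') : ℝ)) * Hs (2 * P ^ 2) := by
  classical
  obtain ⟨h, hh⟩ : ∃ h, h = gc (β, β') := ⟨_, rfl⟩
  obtain ⟨μ, hμ⟩ : ∃ μ, μ = nrm (β, β') := ⟨_, rfl⟩
  have hh0 : 0 < h := by rw [hh]; exact gc_pos h0
  have hμ0 : 0 < μ := by rw [hμ]; exact nrm_pos h0
  have hd1 : (h : ℤ) ∣ β := by rw [hh]; exact Int.gcd_dvd_left ..
  have hd2 : (h : ℤ) ∣ β' := by rw [hh]; exact Int.gcd_dvd_right ..
  obtain ⟨m, hm⟩ : h ∣ μ := by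
    rw [hμ]
    have e1 : h ∣ β.natAbs := Int.natCast_dvd.1 hd1
    have e2 : h ∣ β'.natAbs := Int.natCast_dvd.1 hd2
    unfold nrm
    rcases max_choice β.natAbs β'.natAbs with h' | h' <;> simp only [h'] <;> assumption
  have hm0 : 0 < m := by
    rcases Nat.eq_zero_or_pos m with h' | h'
    · rw [h', mul_zero] at hm; omega
    · exact h'
  have hβb : β.natAbs ≤ μ ∧ β'.natAbs ≤ μ := by
    rw [hμ]; exact ⟨le_max_left _ _, le_max_right _ _⟩
  have hμP : μ ≤ P := by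
    rw [hμ]
    unfold bx at hβ
    rw [mem_product, mem_Icc, mem_Icc] at hβ
    unfold nrm
    refine max_le ?_ ?_ <;> simp only at hβ ⊢ <;> omega
  have hmμ : m ≤ μ := by rw [hm]; exact Nat.le_mul_of_pos_left _ hh0
  have hf0 : ∀ v : ℤ × ℤ, (0 : ℝ) ≤ (gc v : ℝ) / (nrm v : ℝ) := fun v => by positivity
  -- the reduced value
  obtain ⟨g, hg⟩ : ∃ g : (ℤ × ℤ) × (ℤ × ℤ) → ℤ × ℤ, g = fun x =>
      ((nv β β' x.1 x.2).1 / (h : ℤ), (nv β β' x.1 x.2).2 / (h : ℤ)) := ⟨_, rfl⟩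
  have hdn : ∀ x : (ℤ × ℤ) × (ℤ × ℤ), nv β β' x.1 x.2 = ((h : ℤ) * (g x).1, (h : ℤ) * (g x).2) := by
    intro x
    rw [hg]
    have e1 : (h : ℤ) ∣ (nv β β' x.1 x.2).1 :=
      dvd_sub (Dvd.dvd.mul_right hd1 _) (Dvd.dvd.mul_right hd2 _)
    have e2 : (h : ℤ) ∣ (nv β β' x.1 x.2).2 :=
      dvd_sub (Dvd.dvd.mul_right hd1 _) (Dvd.dvd.mul_right hd2 _)
    ext
    · exact (Int.mul_ediv_cancel' e1).symm
    · exact (Int.mul_ediv_cancel' e2).symm
  obtain ⟨S, hS⟩ : ∃ S : Finset ((ℤ × ℤ) × (ℤ × ℤ)), S =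
      (bx P ×ˢ bx P).filter (fun x => nv β β' x.1 x.2 ≠ 0) := ⟨_, rfl⟩
  have hmaps : ∀ x ∈ S, g x ∈ (bx (2 * m * P)).erase 0 := by
    intro x hx
    rw [hS, mem_filter, mem_product] at hx
    obtain ⟨⟨hx1, hx2⟩, hx0⟩ := hx
    unfold bx at hx1 hx2
    rw [mem_product, mem_Icc, mem_Icc] at hx1 hx2
    rw [mem_erase]
    refine ⟨?_, ?_⟩
    · intro e
      apply hx0
      rw [hdn x, e]
      simp
    · have hbd : ∀ d d' : ℤ, -(P : ℤ) ≤ d ∧ d ≤ P → -(P : ℤ) ≤ d' ∧ d' ≤ P → ∀ n : ℤ,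
          β * d' - β' * d = (h : ℤ) * n → -((2 * m * P : ℕ) : ℤ) ≤ n ∧ n ≤ ((2 * m * P : ℕ) : ℤ) := by
        intro d d' hd hd' n hn
        have hh' : (0 : ℤ) < h := by exact_mod_cast hh0
        have b1 : |β| ≤ (μ : ℤ) := by rw [Int.abs_eq_natAbs]; exact_mod_cast hβb.1
        have b2 : |β'| ≤ (μ : ℤ) := by rw [Int.abs_eq_natAbs]; exact_mod_cast hβb.2
        have b3 : |d| ≤ (P : ℤ) := abs_le.2 hd
        have b4 : |d'| ≤ (P : ℤ) := abs_le.2 hd'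
        have b5 : |(h : ℤ) * n| ≤ h * (2 * m * P) := by
          rw [← hn]
          calc |β * d' - β' * d| ≤ |β * d'| + |β' * d| := abs_sub _ _
            _ = |β| * |d'| + |β'| * |d| := by rw [abs_mul, abs_mul]
            _ ≤ μ * P + μ * P := add_le_add (mul_le_mul b1 b4 (abs_nonneg _) (by positivity))
                (mul_le_mul b2 b3 (abs_nonneg _) (by positivity))
            _ = h * (2 * m * P) := by rw [hm]; push_cast; ring
        rw [abs_mul, abs_of_pos hh'] at b5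
        have b6 := le_of_mul_le_mul_left b5 hh'
        have b7 := abs_le.1 b6
        push_cast
        exact b7
      unfold bx
      rw [mem_product, mem_Icc, mem_Icc]
      exact ⟨hbd _ _ hx1.1 hx2.1 _ (congrArg Prod.fst (hdn x)),
        hbd _ _ hx1.2 hx2.2 _ (congrArg Prod.snd (hdn x))⟩
  -- the sum over `S`
  have e0 : ∑ d ∈ bx P, ∑ d' ∈ bx P, (if nv β β' d d' = 0 then (0 : ℝ) else
      (gc (nv β β' d d') : ℝ) / (nrm (nv β β' d d') : ℝ)) =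
      ∑ x ∈ S, (gc (g x) : ℝ) / (nrm (g x) : ℝ) := by
    rw [← Finset.sum_product' (f := fun d d' => (if nv β β' d d' = 0 then (0 : ℝ) else
      (gc (nv β β' d d') : ℝ) / (nrm (nv β β' d d') : ℝ))), hS, Finset.sum_filter]
    refine Finset.sum_congr rfl fun x _ => ?_
    by_cases hx : nv β β' x.1 x.2 = 0
    · rw [if_pos hx, if_neg (not_not.2 hx)]
    · rw [if_neg hx, if_pos hx, hdn x, gc_smul, nrm_smul]
      have hh' : (h : ℝ) ≠ 0 := by exact_mod_cast hh0.ne'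
      push_cast
      rw [mul_div_mul_left _ _ hh']
  rw [e0, ← Finset.sum_fiberwise_of_maps_to hmaps]
  -- size of the fibers
  have hfib : ∀ n ∈ (bx (2 * m * P)).erase 0,
      ((S.filter (fun x => g x = n)).card : ℝ) ≤ (3 * (P : ℝ) * h / μ) ^ 2 := by
    intro n _
    have hline : ∀ c : ℤ, (((((Icc (-(P : ℤ)) (-(P : ℤ) + (2 * P : ℕ))) ×ˢ
        (Icc (-(P : ℤ)) (-(P : ℤ) + (2 * P : ℕ)))).filter
          (fun t => crs t (β', β) = c)).card : ℕ) : ℝ) ≤ 3 * (P : ℝ) * h / μ := by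
      intro c
      have h1 := line_count (β', β) (by
        intro e
        apply h0
        rw [Prod.mk_eq_zero] at e ⊢
        exact ⟨e.2, e.1⟩) c (-(P : ℤ)) (-(P : ℤ)) (2 * P)
      refine h1.trans ?_
      have e1 : gc (β', β) = h := by rw [hh]; exact Int.gcd_comm _ _
      have e2 : nrm (β', β) = μ := by rw [hμ]; exact max_comm _ _
      rw [e1, e2]
      have hμ' : (0 : ℝ) < μ := by exact_mod_cast hμ0
      have h2 : (μ : ℝ) ≤ P * h := by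
        have : μ ≤ P * h := hμP.trans (Nat.le_mul_of_pos_right _ hh0)
        exact_mod_cast this
      rw [le_div_iff₀ hμ', add_mul, one_mul, div_mul_cancel₀ _ hμ'.ne']
      push_cast
      linarith
    obtain ⟨A, hA⟩ : ∃ A : ℤ → Finset (ℤ × ℤ), A = fun c =>
      ((Icc (-(P : ℤ)) (-(P : ℤ) + (2 * P : ℕ))) ×ˢ
        (Icc (-(P : ℤ)) (-(P : ℤ) + (2 * P : ℕ)))).filter (fun t => crs t (β', β) = c) := ⟨_, rfl⟩
    have hA' : ∀ c, ((A c).card : ℝ) ≤ 3 * (P : ℝ) * h / μ := by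
      intro c; rw [hA]; exact hline c
    have hcard : (S.filter (fun x => g x = n)).card ≤
        (A ((h : ℤ) * n.1) ×ˢ A ((h : ℤ) * n.2)).card := by
      refine Finset.card_le_card_of_injOn
        (fun x => ((x.2.1, x.1.1), (x.2.2, x.1.2))) ?_ ?_
      · intro x hx
        rw [Finset.mem_coe, mem_filter, hS, mem_filter, mem_product] at hx
        obtain ⟨⟨⟨hx1, hx2⟩, hx0⟩, hxn⟩ := hx
        unfold bx at hx1 hx2
        rw [mem_product, mem_Icc, mem_Icc] at hx1 hx2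
        have h3 := hdn x
        rw [hxn] at h3
        rw [Finset.mem_coe, mem_product, hA]
        simp only [mem_filter, mem_product, mem_Icc]
        have h4 : β * x.2.1 - β' * x.1.1 = h * n.1 := congrArg Prod.fst h3
        have h5 : β * x.2.2 - β' * x.1.2 = h * n.2 := congrArg Prod.snd h3
        refine ⟨⟨⟨⟨hx2.1.1, ?_⟩, ⟨hx1.1.1, ?_⟩⟩, ?_⟩, ⟨⟨hx2.2.1, ?_⟩, ⟨hx1.2.1, ?_⟩⟩, ?_⟩
        · push_cast; linarith [hx2.1.2]
        · push_cast; linarith [hx1.1.2]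
        · unfold crs; simp only; rw [← h4]; ring
        · push_cast; linarith [hx2.2.2]
        · push_cast; linarith [hx1.2.2]
        · unfold crs; simp only; rw [← h5]; ring
      · intro x _ y _ hxy
        simp only [Prod.mk.injEq] at hxy
        obtain ⟨⟨h1, h2⟩, h3, h4⟩ := hxy
        exact Prod.ext (Prod.ext h2 h4) (Prod.ext h1 h3)
    have hcard' : ((S.filter (fun x => g x = n)).card : ℝ) ≤
        ((A ((h : ℤ) * n.1)).card : ℝ) * ((A ((h : ℤ) * n.2)).card : ℝ) := by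
      rw [Finset.card_product] at hcard
      exact_mod_cast hcard
    refine hcard'.trans ?_
    rw [sq]
    exact mul_le_mul (hA' _) (hA' _) (Nat.cast_nonneg _) (by positivity)
  have hstep : ∑ n ∈ (bx (2 * m * P)).erase 0, ∑ x ∈ S.filter (fun x => g x = n),
      (gc (g x) : ℝ) / (nrm (g x) : ℝ) ≤
      ∑ n ∈ (bx (2 * m * P)).erase 0, (3 * (P : ℝ) * h / μ) ^ 2 * ((gc n : ℝ) / (nrm n : ℝ)) := by
    refine Finset.sum_le_sum fun n hn => ?_
    have h1 : ∑ x ∈ S.filter (fun x => g x = n), (gc (g x) : ℝ) / (nrm (g x) : ℝ) =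
        ((S.filter (fun x => g x = n)).card : ℝ) * ((gc n : ℝ) / (nrm n : ℝ)) := by
      rw [← nsmul_eq_mul, ← Finset.sum_const]
      refine Finset.sum_congr rfl fun x hx => ?_
      rw [(mem_filter.1 hx).2]
    rw [h1]
    exact mul_le_mul_of_nonneg_right (hfib n hn) (hf0 n)
  refine hstep.trans ?_
  rw [← Finset.mul_sum, ← hh, ← hμ]
  have hG := gsum (2 * m * P)
  have hM : Hs (2 * m * P) ≤ Hs (2 * P ^ 2) := by
    apply Hs_mono
    calc 2 * m * P ≤ 2 * P * P := by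
          refine Nat.mul_le_mul_right _ (Nat.mul_le_mul_left _ (hmμ.trans hμP))
      _ = 2 * P ^ 2 := by ring
  have hh' : (0 : ℝ) < h := by exact_mod_cast hh0
  have hm' : (0 : ℝ) < m := by exact_mod_cast hm0
  have hμm : (μ : ℝ) = h * m := by rw [hm]; push_cast; ring
  calc (3 * (P : ℝ) * h / μ) ^ 2 * ∑ n ∈ (bx (2 * m * P)).erase 0, (gc n : ℝ) / (nrm n : ℝ)
      ≤ (3 * (P : ℝ) * h / μ) ^ 2 * (8 * ((2 * m * P : ℕ) : ℝ) * Hs (2 * P ^ 2)) := by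
        refine mul_le_mul_of_nonneg_left (hG.trans ?_) (by positivity)
        exact mul_le_mul_of_nonneg_left hM (by positivity)
    _ = 144 * (P : ℝ) ^ 3 * ((h : ℝ) / (μ : ℝ)) * Hs (2 * P ^ 2) := by
        rw [hμm]
        push_cast
        field_simp
        ring

theorem ssum (P : ℕ) (hP : 1 ≤ P) :
    ∑ β ∈ Icc (-(P : ℤ)) (P : ℤ), ∑ β' ∈ Icc (-(P : ℤ)) (P : ℤ), ∑ d ∈ bx P, ∑ d' ∈ bx P,
      (if nv β β' d d' = 0 then (0 : ℝ) else (gc (nv β β' d d') : ℝ) / (nrm (nv β β' d d') : ℝ))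
      ≤ 1152 * (P : ℝ) ^ 4 * Hs P * Hs (2 * P ^ 2) := by
  have h0mem : (0 : ℤ × ℤ) ∈ bx P := by
    simp [bx]
  have hprod : ∑ β ∈ Icc (-(P : ℤ)) (P : ℤ), ∑ β' ∈ Icc (-(P : ℤ)) (P : ℤ), ∑ d ∈ bx P, ∑ d' ∈ bx P,
      (if nv β β' d d' = 0 then (0 : ℝ) else (gc (nv β β' d d') : ℝ) / (nrm (nv β β' d d') : ℝ)) =
      ∑ v ∈ bx P, ∑ d ∈ bx P, ∑ d' ∈ bx P,
      (if nv v.1 v.2 d d' = 0 then (0 : ℝ) else (gc (nv v.1 v.2 d d') : ℝ) / (nrm (nv v.1 v.2 d d') : ℝ)) := by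
    rw [bx, Finset.sum_product]
  rw [hprod, ← Finset.add_sum_erase _ _ h0mem]
  have hz : ∑ d ∈ bx P, ∑ d' ∈ bx P,
      (if nv (0 : ℤ × ℤ).1 (0 : ℤ × ℤ).2 d d' = 0 then (0 : ℝ)
        else (gc (nv (0 : ℤ × ℤ).1 (0 : ℤ × ℤ).2 d d') : ℝ) / (nrm (nv (0 : ℤ × ℤ).1 (0 : ℤ × ℤ).2 d d') : ℝ)) = 0 := by
    refine Finset.sum_eq_zero fun d _ => Finset.sum_eq_zero fun d' _ => ?_
    rw [if_pos]
    simp [nv]
  rw [hz, zero_add]
  have hle : ∀ v ∈ (bx P).erase 0, ∑ d ∈ bx P, ∑ d' ∈ bx P,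
      (if nv v.1 v.2 d d' = 0 then (0 : ℝ) else (gc (nv v.1 v.2 d d') : ℝ) / (nrm (nv v.1 v.2 d d') : ℝ)) ≤
      144 * (P : ℝ) ^ 3 * Hs (2 * P ^ 2) * ((gc v : ℝ) / (nrm v : ℝ)) := by
    intro v hv
    rw [Finset.mem_erase] at hv
    have := ssumA P hP v.1 v.2 hv.1 hv.2
    calc _ ≤ _ := this
      _ = _ := by ring
  refine (Finset.sum_le_sum hle).trans ?_
  rw [← Finset.mul_sum]
  have hg := gsum P
  have hc : 0 ≤ 144 * (P : ℝ) ^ 3 * Hs (2 * P ^ 2) := by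
    have := Hs_nonneg (2 * P ^ 2)
    positivity
  calc _ ≤ 144 * (P : ℝ) ^ 3 * Hs (2 * P ^ 2) * (8 * (P : ℝ) * Hs P) := mul_le_mul_of_nonneg_left hg hc
    _ = _ := by ring

end Crest.Agent.R32
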