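/- Row 32, piece NC: three points in the same class `r`.
   PROOF.  `β = b₂-b₁`, `β' = b₃-b₁`, `d = w₂-w₁`, `d' = w₃-w₁`, `n = nv β β' d d'`, `τ = (lf T.2.1, lf T.2.2)`.
   `NC_det`: by `pt_sub_same`, `det3 P₁ P₂ P₃ = crs (β τ + Q d) (β' τ + Q d') = Q (crs τ n + Q crs d d')` (`ring`).
   By `det3_pt_cast` the determinant is `0` mod `Q` (all first coordinates equal); as `|.| < Q` it is `0`
   (directly: `Q * k`, `|Q * k| < Q` gives `k = 0`), so `crs τ n = -Q crs d d'`.  If `n = 0` then `crs d d' = 0`,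
   excluded.  So `n ≠ 0`.
   For fixed `(b, w)` (`n ≠ 0`): `τ ∈ [0, Q-1]²` and `crs τ n = -Q crs d d'`: at most `1 + Q gc n / nrm n`
   values (`line_count`, `a1 = a2 = 0`, `Y = Q - 1`); `τ` determines `T.2` (`lf_cast`), and at most `Q`
   matrices have given `T.2 = act T (0,1)` (`card_act_le`).  So at most `Q (1 + Q gc n / nrm n)` matrices.
   Sum over `(b, w)`: at most `p^9` configurations, and
   `∑_{b,w; n ≠ 0} gc n/nrm n ≤ p³ · ∑_{β,β' ∈ Icc (-p) p, d, d' ∈ bx p} (…)` (for fixed `(b₁, w₁)`, `p³` choices,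
   `(b₂,b₃,w₂,w₃) ↦ (β,β',d,d')` is injective), `≤ p³ · 1152 p⁴ Hs p Hs (2p²)` (`ssum`). -/
import Crest.Agent.R32.NB
import Crest.Agent.R32.Ssum

set_option autoImplicit false

namespace Crest.Agent.R32

open Finset

theorem NC_det {Q : ℕ} (c : Cfg Q) (r : F2 Q) :
    dcfg c r r r = (Q : ℤ) *
      (crs (lf c.1.2.1, lf c.1.2.2)
          (nv (c.2.1.2.1 - c.2.1.1) (c.2.1.2.2 - c.2.1.1) (c.2.2.2.1 - c.2.2.1) (c.2.2.2.2 - c.2.2.1))
        + Q * crs (c.2.2.2.1 - c.2.2.1) (c.2.2.2.2 - c.2.2.1)) := by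
  unfold dcfg det3
  simp only [pt, crs, nv, Prod.fst_sub, Prod.snd_sub]
  ring

/-- number of matrices for fixed `(b, w)` -/
theorem NC_fiber (Q κ : ℕ) [Fact Q.Prime] (hκ : 1 ≤ κ) (r : F2 Q)
    (b : ℤ × ℤ × ℤ) (w : (ℤ × ℤ) × (ℤ × ℤ) × (ℤ × ℤ))
    (h : ¬ (nv (b.2.1 - b.1) (b.2.2 - b.1) (w.2.1 - w.1) (w.2.2 - w.1) = 0 ∧
        crs (w.2.1 - w.1) (w.2.2 - w.1) = 0)) :
    (((SL Q).filter (fun T => (κ : ℤ) * |dcfg (T, b, w) r r r| < Q)).card : ℝ) ≤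
      if nv (b.2.1 - b.1) (b.2.2 - b.1) (w.2.1 - w.1) (w.2.2 - w.1) = 0 then 0 else
        (Q : ℝ) * (1 + Q *
          ((gc (nv (b.2.1 - b.1) (b.2.2 - b.1) (w.2.1 - w.1) (w.2.2 - w.1)) : ℝ) /
            (nrm (nv (b.2.1 - b.1) (b.2.2 - b.1) (w.2.1 - w.1) (w.2.2 - w.1)) : ℝ))) := by
  classical
  set n := nv (b.2.1 - b.1) (b.2.2 - b.1) (w.2.1 - w.1) (w.2.2 - w.1) with hn
  set cd := crs (w.2.1 - w.1) (w.2.2 - w.1) with hcd
  have hQ : 0 < Q := (Fact.out : Q.Prime).pos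
  have hQZ : (0 : ℤ) < Q := by exact_mod_cast hQ
  have hκZ : (1 : ℤ) ≤ κ := by exact_mod_cast hκ
  have hQR : (0 : ℝ) < Q := by exact_mod_cast hQ
  -- the small determinants are zero
  have key : ∀ T : M2 Q, (κ : ℤ) * |dcfg (T, b, w) r r r| < Q →
      crs (lf T.2.1, lf T.2.2) n = -(Q * cd) := by
    intro T hT
    have h1 : dcfg (T, b, w) r r r = (Q : ℤ) * (crs (lf T.2.1, lf T.2.2) n + Q * cd) :=
      NC_det (T, b, w) r
    rw [h1, abs_mul, abs_of_pos hQZ] at hT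
    have h2 : |crs (lf T.2.1, lf T.2.2) n + Q * cd| < 1 := by
      by_contra hcon
      push Not at hcon
      have h3 : (Q : ℤ) ≤ Q * |crs (lf T.2.1, lf T.2.2) n + Q * cd| :=
        le_mul_of_one_le_right hQZ.le hcon
      have h4 : (Q : ℤ) * |crs (lf T.2.1, lf T.2.2) n + Q * cd| ≤
          κ * ((Q : ℤ) * |crs (lf T.2.1, lf T.2.2) n + Q * cd|) :=
        le_mul_of_one_le_left (by positivity) hκZ
      omega
    have h5 := Int.abs_lt_one_iff.1 h2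
    linarith
  by_cases hn0 : n = 0
  · rw [if_pos hn0]
    have hcd0 : cd ≠ 0 := fun h0 => h ⟨hn0, h0⟩
    have : ((SL Q).filter (fun T => (κ : ℤ) * |dcfg (T, b, w) r r r| < Q)) = ∅ := by
      refine Finset.filter_eq_empty_iff.2 fun T _ hT => ?_
      have h1 := key T hT
      rw [hn0] at h1
      have h2 : crs (lf T.2.1, lf T.2.2) (0 : ℤ × ℤ) = 0 := by simp [crs]
      rw [h2] at h1
      have h3 : (Q : ℤ) * cd = 0 := by linarith
      rcases mul_eq_zero.1 h3 with h4 | h4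
      · omega
      · exact hcd0 h4
    rw [this]; simp
  · rw [if_neg hn0]
    set S := ((Icc (0 : ℤ) (0 + (Q : ℕ))) ×ˢ (Icc (0 : ℤ) (0 + (Q : ℕ)))).filter
      (fun t => crs t n = -(Q * cd)) with hS
    have hSc : (S.card : ℝ) ≤ 1 + (Q : ℝ) * (gc n : ℝ) / (nrm n : ℝ) :=
      line_count n hn0 (-(Q * cd)) 0 0 Q
    have hcard : ((SL Q).filter (fun T => (κ : ℤ) * |dcfg (T, b, w) r r r| < Q)).card ≤
        Q * S.card := by
      refine Finset.card_le_mul_card_image_of_maps_to (f := fun T : M2 Q => (lf T.2.1, lf T.2.2))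
        (fun T hT => ?_) Q fun t _ => ?_
      · rw [Finset.mem_filter] at hT
        have h1 := lf_nonneg T.2.1
        have h2 := lf_lt T.2.1
        have h3 := lf_nonneg T.2.2
        have h4 := lf_lt T.2.2
        rw [hS, Finset.mem_filter, Finset.mem_product, Finset.mem_Icc, Finset.mem_Icc]
        exact ⟨⟨⟨h1, by simp only; omega⟩, ⟨h3, by simp only; omega⟩⟩, key T hT.2⟩
      · refine le_trans (Finset.card_le_card ?_)
          (card_act_le Q ((0 : ZMod Q), (1 : ZMod Q)) (((t.1 : ℤ) : ZMod Q), ((t.2 : ℤ) : ZMod Q))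
            (fun h0 => one_ne_zero (congrArg Prod.snd h0)))
        intro T hT
        rw [Finset.mem_filter, Finset.mem_filter] at hT
        rw [Finset.mem_filter]
        refine ⟨hT.1.1, ?_⟩
        have h1 : T.2.1 = ((t.1 : ℤ) : ZMod Q) := by
          rw [← hT.2]; exact (lf_cast _).symm
        have h2 : T.2.2 = ((t.2 : ℤ) : ZMod Q) := by
          rw [← hT.2]; exact (lf_cast _).symm
        simp only [act, zero_mul, one_mul, zero_add]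
        rw [h1, h2]
    have hcR : (((SL Q).filter (fun T => (κ : ℤ) * |dcfg (T, b, w) r r r| < Q)).card : ℝ) ≤
        Q * S.card := by exact_mod_cast hcard
    refine hcR.trans ?_
    refine mul_le_mul_of_nonneg_left ?_ hQR.le
    rw [← mul_div_assoc]
    exact hSc

theorem NC_sum_shift_le {ι : Type*} [AddGroup ι] [DecidableEq ι] (s t : Finset ι) (a : ι) (f : ι → ℝ)
    (hf : ∀ x, 0 ≤ f x) (h : ∀ x ∈ s, x - a ∈ t) : ∑ x ∈ s, f (x - a) ≤ ∑ y ∈ t, f y := by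
  have h1 : ∑ x ∈ s, f (x - a) = ∑ y ∈ s.image (fun x => x - a), f y := by
    rw [Finset.sum_image]
    intro x _ y _ hxy
    simpa using hxy
  rw [h1]
  refine Finset.sum_le_sum_of_subset_of_nonneg ?_ (fun x _ _ => hf x)
  intro y hy
  rw [Finset.mem_image] at hy
  obtain ⟨x, hx, rfl⟩ := hy
  exact h x hx

theorem NC_card_bI (p : ℕ) : (bI p).card = p := by simp [bI]

theorem NC_card_wI (p : ℕ) : (wI p).card = p ^ 2 := by
  rw [wI, Finset.card_product, NC_card_bI]; ring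

theorem NC_mem_bI_sub {p : ℕ} {x a : ℤ} (hx : x ∈ bI p) (ha : a ∈ bI p) :
    x - a ∈ Icc (-(p : ℤ)) (p : ℤ) := by
  simp only [bI, mem_Ico, mem_Icc] at *
  omega

theorem NC_mem_wI_sub {p : ℕ} {x a : ℤ × ℤ} (hx : x ∈ wI p) (ha : a ∈ wI p) :
    x - a ∈ bx p := by
  simp only [wI, bI, bx, mem_product, mem_Ico, mem_Icc, Prod.fst_sub, Prod.snd_sub] at *
  omega

noncomputable def NC_F (n : ℤ × ℤ) : ℝ := if n = 0 then 0 else (gc n : ℝ) / (nrm n : ℝ)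

theorem NC_F_nonneg (n : ℤ × ℤ) : 0 ≤ NC_F n := by
  unfold NC_F; split_ifs <;> positivity

theorem NC_sumF (p : ℕ) (hp : 1 ≤ p) :
    ∑ b ∈ bI p ×ˢ bI p ×ˢ bI p, ∑ w ∈ wI p ×ˢ wI p ×ˢ wI p,
      NC_F (nv (b.2.1 - b.1) (b.2.2 - b.1) (w.2.1 - w.1) (w.2.2 - w.1))
      ≤ (p : ℝ) ^ 3 * (1152 * (p : ℝ) ^ 4 * Hs p * Hs (2 * p ^ 2)) := by
  have key : ∀ b1 ∈ bI p, ∀ w1 ∈ wI p,
      ∑ b2 ∈ bI p, ∑ b3 ∈ bI p, ∑ w2 ∈ wI p, ∑ w3 ∈ wI p,
        NC_F (nv (b2 - b1) (b3 - b1) (w2 - w1) (w3 - w1)) ≤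
      1152 * (p : ℝ) ^ 4 * Hs p * Hs (2 * p ^ 2) := by
    intro b1 hb1 w1 hw1
    have e1 : ∑ b2 ∈ bI p, ∑ b3 ∈ bI p, ∑ w2 ∈ wI p, ∑ w3 ∈ wI p,
        NC_F (nv (b2 - b1) (b3 - b1) (w2 - w1) (w3 - w1)) ≤
        ∑ β ∈ Icc (-(p : ℤ)) (p : ℤ), ∑ b3 ∈ bI p, ∑ w2 ∈ wI p, ∑ w3 ∈ wI p,
        NC_F (nv β (b3 - b1) (w2 - w1) (w3 - w1)) :=
      NC_sum_shift_le _ _ b1 (fun β => ∑ b3 ∈ bI p, ∑ w2 ∈ wI p, ∑ w3 ∈ wI p,
        NC_F (nv β (b3 - b1) (w2 - w1) (w3 - w1)))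
        (fun _ => sum_nonneg fun _ _ => sum_nonneg fun _ _ => sum_nonneg fun _ _ => NC_F_nonneg _)
        (fun x hx => NC_mem_bI_sub hx hb1)
    refine e1.trans ?_
    have e5 := ssum p hp
    refine le_trans (Finset.sum_le_sum fun β _ => ?_) e5
    have e2 : ∑ b3 ∈ bI p, ∑ w2 ∈ wI p, ∑ w3 ∈ wI p,
        NC_F (nv β (b3 - b1) (w2 - w1) (w3 - w1)) ≤
        ∑ β' ∈ Icc (-(p : ℤ)) (p : ℤ), ∑ w2 ∈ wI p, ∑ w3 ∈ wI p,
        NC_F (nv β β' (w2 - w1) (w3 - w1)) :=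
      NC_sum_shift_le _ _ b1 (fun β' => ∑ w2 ∈ wI p, ∑ w3 ∈ wI p,
        NC_F (nv β β' (w2 - w1) (w3 - w1)))
        (fun _ => sum_nonneg fun _ _ => sum_nonneg fun _ _ => NC_F_nonneg _)
        (fun x hx => NC_mem_bI_sub hx hb1)
    refine e2.trans (Finset.sum_le_sum fun β' _ => ?_)
    have e3 : ∑ w2 ∈ wI p, ∑ w3 ∈ wI p,
        NC_F (nv β β' (w2 - w1) (w3 - w1)) ≤ ∑ d ∈ bx p, ∑ w3 ∈ wI p,
        NC_F (nv β β' d (w3 - w1)) :=
      NC_sum_shift_le _ _ w1 (fun d => ∑ w3 ∈ wI p, NC_F (nv β β' d (w3 - w1)))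
        (fun _ => sum_nonneg fun _ _ => NC_F_nonneg _)
        (fun x hx => NC_mem_wI_sub hx hw1)
    refine e3.trans (Finset.sum_le_sum fun d _ => ?_)
    have e4 : ∑ w3 ∈ wI p, NC_F (nv β β' d (w3 - w1)) ≤ ∑ d' ∈ bx p, NC_F (nv β β' d d') :=
      NC_sum_shift_le _ _ w1 (fun d' => NC_F (nv β β' d d'))
        (fun _ => NC_F_nonneg _)
        (fun x hx => NC_mem_wI_sub hx hw1)
    exact e4
  have e0 : ∑ b ∈ bI p ×ˢ bI p ×ˢ bI p, ∑ w ∈ wI p ×ˢ wI p ×ˢ wI p,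
      NC_F (nv (b.2.1 - b.1) (b.2.2 - b.1) (w.2.1 - w.1) (w.2.2 - w.1)) =
      ∑ b1 ∈ bI p, ∑ w1 ∈ wI p, ∑ b2 ∈ bI p, ∑ b3 ∈ bI p, ∑ w2 ∈ wI p, ∑ w3 ∈ wI p,
        NC_F (nv (b2 - b1) (b3 - b1) (w2 - w1) (w3 - w1)) := by
    rw [Finset.sum_product]
    refine Finset.sum_congr rfl fun b1 _ => ?_
    rw [Finset.sum_comm' (s' := fun _ => bI p ×ˢ bI p) (t' := wI p ×ˢ wI p ×ˢ wI p) (by simp [and_comm])]
    rw [Finset.sum_product]
    refine Finset.sum_congr rfl fun w1 _ => ?_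
    rw [Finset.sum_comm' (s' := fun _ => wI p ×ˢ wI p) (t' := bI p ×ˢ bI p) (by simp)]
    rw [Finset.sum_product]
    refine Finset.sum_congr rfl fun b2 _ => Finset.sum_congr rfl fun b3 _ => ?_
    rw [Finset.sum_product]
  rw [e0]
  calc _ ≤ ∑ b1 ∈ bI p, ∑ w1 ∈ wI p, 1152 * (p : ℝ) ^ 4 * Hs p * Hs (2 * p ^ 2) :=
        Finset.sum_le_sum fun b1 hb1 => Finset.sum_le_sum fun w1 hw1 => key b1 hb1 w1 hw1
    _ = _ := by
        rw [Finset.sum_const, Finset.sum_const, NC_card_bI, NC_card_wI, nsmul_eq_mul, nsmul_eq_mul]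
        push_cast; ring

theorem NC (Q p κ : ℕ) [Fact Q.Prime] [Fact p.Prime] (hκ : 1 ≤ κ) (r : F2 Q) :
    (((cfg Q p).filter (fun c =>
        ¬ (nv (c.2.1.2.1 - c.2.1.1) (c.2.1.2.2 - c.2.1.1) (c.2.2.2.1 - c.2.2.1) (c.2.2.2.2 - c.2.2.1) = 0 ∧
          crs (c.2.2.2.1 - c.2.2.1) (c.2.2.2.2 - c.2.2.1) = 0) ∧
        (κ : ℤ) * |dcfg c r r r| < Q)).card : ℝ)
      ≤ Q * ((p : ℝ) ^ 9 + 1152 * Q * (p : ℝ) ^ 7 * Hs p * Hs (2 * p ^ 2)) := by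
  classical
  have hp : 1 ≤ p := (Fact.out : p.Prime).one_le
  rw [cfg, Finset.card_filter, Finset.sum_product_right]
  simp_rw [← Finset.card_filter]
  rw [Nat.cast_sum, Finset.sum_product]
  have h1 : ∀ b : ℤ × ℤ × ℤ, ∀ w : (ℤ × ℤ) × (ℤ × ℤ) × (ℤ × ℤ),
      ((((SL Q).filter (fun T => ¬ (nv (b.2.1 - b.1) (b.2.2 - b.1) (w.2.1 - w.1) (w.2.2 - w.1) = 0 ∧
          crs (w.2.1 - w.1) (w.2.2 - w.1) = 0) ∧ (κ : ℤ) * |dcfg (T, b, w) r r r| < Q)).card : ℕ) : ℝ)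
      ≤ Q + Q ^ 2 * NC_F (nv (b.2.1 - b.1) (b.2.2 - b.1) (w.2.1 - w.1) (w.2.2 - w.1)) := by
    intro b w
    have hF := NC_F_nonneg (nv (b.2.1 - b.1) (b.2.2 - b.1) (w.2.1 - w.1) (w.2.2 - w.1))
    by_cases h : (nv (b.2.1 - b.1) (b.2.2 - b.1) (w.2.1 - w.1) (w.2.2 - w.1) = 0 ∧
          crs (w.2.1 - w.1) (w.2.2 - w.1) = 0)
    · have : ((SL Q).filter (fun T => ¬ (nv (b.2.1 - b.1) (b.2.2 - b.1) (w.2.1 - w.1) (w.2.2 - w.1) = 0 ∧
          crs (w.2.1 - w.1) (w.2.2 - w.1) = 0) ∧ (κ : ℤ) * |dcfg (T, b, w) r r r| < Q)) = ∅ := by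
        rw [Finset.filter_eq_empty_iff]
        intro T _ hT
        exact hT.1 h
      rw [this]
      simp only [Finset.card_empty, Nat.cast_zero]
      positivity
    · have h2 := NC_fiber Q κ hκ r b w h
      have h3 : (((SL Q).filter (fun T => ¬ (nv (b.2.1 - b.1) (b.2.2 - b.1) (w.2.1 - w.1) (w.2.2 - w.1) = 0 ∧
          crs (w.2.1 - w.1) (w.2.2 - w.1) = 0) ∧ (κ : ℤ) * |dcfg (T, b, w) r r r| < Q))) =
          (SL Q).filter (fun T => (κ : ℤ) * |dcfg (T, b, w) r r r| < Q) := by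
        refine Finset.filter_congr fun T _ => ?_
        simp only [h, not_false_eq_true, true_and]
      rw [h3]
      refine h2.trans ?_
      unfold NC_F
      split_ifs with h4
      · have : (0 : ℝ) ≤ Q := by positivity
        linarith
      · exact le_of_eq (by ring)
  refine (Finset.sum_le_sum fun b _ => Finset.sum_le_sum fun w _ => h1 b w).trans ?_
  simp_rw [Finset.sum_add_distrib, ← Finset.mul_sum]
  have h2 := NC_sumF p hp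
  have h3 : ∑ x ∈ bI p ×ˢ bI p ×ˢ bI p, ∑ i ∈ wI p ×ˢ wI p ×ˢ wI p, (Q : ℝ) = Q * (p : ℝ) ^ 9 := by
    rw [Finset.sum_const, Finset.sum_const]
    simp only [Finset.card_product, NC_card_bI, NC_card_wI, nsmul_eq_mul]
    push_cast; ring
  rw [h3]
  have h4 : (0 : ℝ) ≤ (Q : ℝ) ^ 2 := by positivity
  nlinarith [mul_le_mul_of_nonneg_left h2 h4]


end Crest.Agent.R32
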