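/- Row 32, pieces SUMOM, CNTSW, CNTROT, CNT0, AVG: the average number of bad triples.

   `cnt ε κ T ω r₁ r₂ r₃` = number of triples `(w₁, w₂, w₃)` of pairwise distinct points of `wI p` such that the
   determinant `D` of the points `pt T rᵢ (b_ω(wᵢ)) wᵢ` satisfies `κ |D| < Q`.

   `sum_cnt_le` (SUMOM): exchange the sums: for `T` and `w` (pairwise distinct) fixed, group the `ω` by
   `b = (b_ω(w₁), b_ω(w₂), b_ω(w₃)) ∈ bI p ×ˢ bI p ×ˢ bI p`; each `b` comes from at most `p` parameters `ω`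
   (`unif`), and if it comes from at least one `ω` and `κ|D| < Q` then `(T, b, w)` satisfies `G` by `hG`.  So
   `Σ_{T∈SL} Σ_{ω∈Om} cnt ≤ Σ_T Σ_w Σ_b p · 1[G (T,b,w)] = p · #(cfg.filter G)`.
   (E.g. `Finset.card_le_mul_card_image`-style, for the map `(T, ω, w) ↦ (T, b_ω(w), w)` from the sigma/product
   finset `{(T, ω, w) : T ∈ SL, ω ∈ Om, w ∈ wI³, bad}` to `cfg.filter G`: fibers have at most `p` elements:
   `Finset.card_le_mul_card_image_of_maps_to`.)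

   `cnt_swap` (CNTSW), `cnt_rot` (CNTROT): bijections `w ↦ (w₁, w₃, w₂)`, `w ↦ (w₂, w₃, w₁)`; the determinant
   changes sign resp. is unchanged.

   `cnt_zero` (CNT0): `s₁, s₂, s₃` pairwise distinct: by `det3_pt_cast` the determinant is congruent mod `Q` to
   `det3 (x s₁, y s₁ + b₁) (x s₂, y s₂ + b₂) (x s₃, y s₃ + b₃)`, so it is that plus `k Q`, and `hP` gives
   `Q ≤ κ |D|`: the filter is empty.

   `avg` (AVG): exchange sums: `Σ_T Σ_ω Σ_{s₁,s₂,s₃} cnt = Σ_{s₁,s₂,s₃} Σ_T Σ_ω cnt`.  For `s` with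
   * `s₁, s₂, s₃` pairwise distinct: `0` (`cnt_zero`);
   * `s₁ = s₂ ≠ s₃`: `≤ p · NBv` (`sum_cnt_le` with the predicate of `NB`, and `NB`); `s₁ = s₃ ≠ s₂`: the same by
     `cnt_swap`; `s₂ = s₃ ≠ s₁`: the same by `cnt_rot`;
   * `s₁ = s₂ = s₃`: `≤ p · NCv` (`sum_cnt_le` with the predicate of `NC` (`cap`), and `NC`).
   So each term is `≤ p (NBv 1[s₁=s₂] + NBv 1[s₁=s₃] + NBv 1[s₂=s₃] + NCv 1[s₁=s₂=s₃])`, sum
   `≤ p (3 m² NBv + m NCv)`. -/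
import Crest.Agent.R32.NC
import Crest.Agent.R32.Cap

set_option autoImplicit false

namespace Crest.Agent.R32

open Finset

/-- the number of bad triples `(w₁, w₂, w₃)` for the residues `r₁, r₂, r₃` -/
noncomputable def cnt {Q p : ℕ} (ε : ZMod p) (κ : ℕ) (T : M2 Q) (ω : ZMod p × ZMod p × ZMod p × ZMod p)
    (r1 r2 r3 : F2 Q) : ℕ :=
  ((wI p ×ˢ wI p ×ˢ wI p).filter (fun w => (w.1 ≠ w.2.1 ∧ w.1 ≠ w.2.2 ∧ w.2.1 ≠ w.2.2) ∧
    (κ : ℤ) * |dcfg (T, (bv ε ω w.1, bv ε ω w.2.1, bv ε ω w.2.2), w) r1 r2 r3| < Q)).card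

theorem bv_mem {p : ℕ} [NeZero p] (ε : ZMod p) (ω : ZMod p × ZMod p × ZMod p × ZMod p) (w : ℤ × ℤ) :
    bv ε ω w ∈ bI p := by
  simp only [bv, bI, mem_Ico]
  exact ⟨by positivity, by exact_mod_cast ZMod.val_lt _⟩

theorem sum_cnt_le {Q p : ℕ} [Fact Q.Prime] [Fact p.Prime] (ε : ZMod p) (hε : ¬ IsSquare ε) (κ : ℕ)
    (r1 r2 r3 : F2 Q) (G : Cfg Q → Prop) [DecidablePred G]
    (hG : ∀ T ∈ SL Q, ∀ ω ∈ Om p, ∀ w1 ∈ wI p, ∀ w2 ∈ wI p, ∀ w3 ∈ wI p,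
      w1 ≠ w2 → w1 ≠ w3 → w2 ≠ w3 →
      (κ : ℤ) * |dcfg (T, (bv ε ω w1, bv ε ω w2, bv ε ω w3), (w1, w2, w3)) r1 r2 r3| < Q →
      G (T, (bv ε ω w1, bv ε ω w2, bv ε ω w3), (w1, w2, w3))) :
    ∑ T ∈ SL Q, ∑ ω ∈ Om p, cnt ε κ T ω r1 r2 r3 ≤ p * ((cfg Q p).filter G).card := by
  classical
  set S := ((SL Q ×ˢ Om p) ×ˢ (wI p ×ˢ wI p ×ˢ wI p)).filter (fun z =>
    (z.2.1 ≠ z.2.2.1 ∧ z.2.1 ≠ z.2.2.2 ∧ z.2.2.1 ≠ z.2.2.2) ∧
    (κ : ℤ) * |dcfg (z.1.1, (bv ε z.1.2 z.2.1, bv ε z.1.2 z.2.2.1, bv ε z.1.2 z.2.2.2), z.2)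
      r1 r2 r3| < Q) with hS
  have e1 : ∑ T ∈ SL Q, ∑ ω ∈ Om p, cnt ε κ T ω r1 r2 r3 = S.card := by
    rw [hS, card_filter, sum_product, sum_product]
    refine sum_congr rfl fun T _ => sum_congr rfl fun ω _ => ?_
    rw [cnt, card_filter]
  rw [e1]
  refine card_le_mul_card_image_of_maps_to
    (f := fun z : (M2 Q × (ZMod p × ZMod p × ZMod p × ZMod p)) × ((ℤ × ℤ) × (ℤ × ℤ) × (ℤ × ℤ)) =>
      ((z.1.1, (bv ε z.1.2 z.2.1, bv ε z.1.2 z.2.2.1, bv ε z.1.2 z.2.2.2), z.2) : Cfg Q)) ?_ p ?_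
  · rintro ⟨⟨T, ω⟩, w1, w2, w3⟩ hz
    rw [hS, mem_filter, mem_product, mem_product, mem_product, mem_product] at hz
    obtain ⟨⟨⟨hT, hω⟩, hw1, hw2, hw3⟩, ⟨h12, h13, h23⟩, hlt⟩ := hz
    refine mem_filter.2 ⟨?_, hG T hT ω hω w1 hw1 w2 hw2 w3 hw3 h12 h13 h23 hlt⟩
    unfold cfg
    simp only [mem_product]
    exact ⟨hT, ⟨bv_mem _ _ _, bv_mem _ _ _, bv_mem _ _ _⟩, hw1, hw2, hw3⟩
  · rintro ⟨T, ⟨b1, b2, b3⟩, w1, w2, w3⟩ _
    by_cases hne : (S.filter (fun z => ((z.1.1, (bv ε z.1.2 z.2.1, bv ε z.1.2 z.2.2.1,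
        bv ε z.1.2 z.2.2.2), z.2) : Cfg Q) = (T, (b1, b2, b3), (w1, w2, w3)))).Nonempty
    · obtain ⟨⟨⟨T', ω'⟩, w'⟩, hz⟩ := hne
      rw [mem_filter, hS, mem_filter, mem_product, mem_product, mem_product, mem_product] at hz
      obtain ⟨⟨⟨_, hw1, hw2, hw3⟩, ⟨h12, h13, h23⟩, _⟩, he⟩ := hz
      simp only [Prod.mk.injEq] at he
      obtain ⟨_, _, hw⟩ := he
      subst hw
      refine le_trans ?_ (unif ε hε w1 w2 w3 hw1 hw2 hw3 h12 h13 h23 b1 b2 b3)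
      refine card_le_card_of_injOn (fun z => z.1.2) ?_ ?_
      · rintro ⟨⟨T1, ω1⟩, w1'⟩ hz1
        have hz2 := mem_filter.1 (mem_coe.1 hz1)
        obtain ⟨hz3, he⟩ := hz2
        rw [hS, mem_filter, mem_product, mem_product] at hz3
        simp only [Prod.mk.injEq] at he
        obtain ⟨_, hb, hw⟩ := he
        subst hw
        exact mem_coe.2 (mem_filter.2 ⟨hz3.1.1.2, hb⟩)
      · rintro ⟨⟨T1, ω1⟩, w1'⟩ hz1 ⟨⟨T2, ω2⟩, w2'⟩ hz2 hω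
        have h1 := (mem_filter.1 (mem_coe.1 hz1)).2
        have h2 := (mem_filter.1 (mem_coe.1 hz2)).2
        simp only [Prod.mk.injEq] at h1 h2
        simp only at hω
        rw [h1.1, h2.1, h1.2.2, h2.2.2, hω]
    · rw [not_nonempty_iff_eq_empty.1 hne, card_empty]
      exact Nat.zero_le _

theorem cnt_swap {Q p : ℕ} (ε : ZMod p) (κ : ℕ) (T : M2 Q) (ω : ZMod p × ZMod p × ZMod p × ZMod p)
    (r1 r2 r3 : F2 Q) : cnt ε κ T ω r1 r2 r3 = cnt ε κ T ω r1 r3 r2 := by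
  unfold cnt
  refine Finset.card_bij' (fun w _ => (w.1, w.2.2, w.2.1)) (fun w _ => (w.1, w.2.2, w.2.1)) ?_ ?_
    (fun _ _ => rfl) (fun _ _ => rfl)
  · rintro ⟨w1, w2, w3⟩ hw
    simp only [mem_filter, mem_product] at hw ⊢
    obtain ⟨⟨h1, h2, h3⟩, ⟨h4, h5, h6⟩, h7⟩ := hw
    refine ⟨⟨h1, h3, h2⟩, ⟨h5, h4, h6.symm⟩, ?_⟩
    convert h7 using 2
    rw [← abs_neg]
    congr 1
    simp only [dcfg, det3]
    ring
  · rintro ⟨w1, w2, w3⟩ hw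
    simp only [mem_filter, mem_product] at hw ⊢
    obtain ⟨⟨h1, h2, h3⟩, ⟨h4, h5, h6⟩, h7⟩ := hw
    refine ⟨⟨h1, h3, h2⟩, ⟨h5, h4, h6.symm⟩, ?_⟩
    convert h7 using 2
    rw [← abs_neg]
    congr 1
    simp only [dcfg, det3]
    ring

theorem cnt_rot {Q p : ℕ} (ε : ZMod p) (κ : ℕ) (T : M2 Q) (ω : ZMod p × ZMod p × ZMod p × ZMod p)
    (r1 r2 r3 : F2 Q) : cnt ε κ T ω r1 r2 r3 = cnt ε κ T ω r2 r3 r1 := by
  unfold cnt
  refine Finset.card_bij' (fun w _ => (w.2.1, w.2.2, w.1)) (fun w _ => (w.2.2, w.1, w.2.1)) ?_ ?_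
    (fun _ _ => rfl) (fun _ _ => rfl)
  · rintro ⟨w1, w2, w3⟩ hw
    simp only [mem_filter, mem_product] at hw ⊢
    obtain ⟨⟨h1, h2, h3⟩, ⟨h4, h5, h6⟩, h7⟩ := hw
    refine ⟨⟨h2, h3, h1⟩, ⟨h6, h4.symm, h5.symm⟩, ?_⟩
    convert h7 using 3
    simp only [dcfg, det3]
    ring
  · rintro ⟨w1, w2, w3⟩ hw
    simp only [mem_filter, mem_product] at hw ⊢
    obtain ⟨⟨h1, h2, h3⟩, ⟨h4, h5, h6⟩, h7⟩ := hw
    refine ⟨⟨h3, h1, h2⟩, ⟨h5.symm, h6.symm, h4⟩, ?_⟩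
    convert h7 using 3
    simp only [dcfg, det3]
    ring

/-- the residue of the point `(x s, y s)` -/
def rs (Q : ℕ) {m : ℕ} (x y : Fin m → ℤ) (s : Fin m) : F2 Q := ((x s : ZMod Q), (y s : ZMod Q))

/-- the hypothesis on the residues -/
def Good (Q p κ : ℕ) {m : ℕ} (x y : Fin m → ℤ) : Prop :=
  ∀ s t u : Fin m, s ≠ t → s ≠ u → t ≠ u → ∀ b1 ∈ bI p, ∀ b2 ∈ bI p, ∀ b3 ∈ bI p, ∀ k : ℤ,
    (Q : ℤ) ≤ (κ : ℤ) * |det3 (x s, y s + b1) (x t, y t + b2) (x u, y u + b3) + k * Q|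

theorem cnt_zero {Q p m : ℕ} [Fact Q.Prime] [Fact p.Prime] (ε : ZMod p) (κ : ℕ) (x y : Fin m → ℤ)
    (hP : Good Q p κ x y) (T : M2 Q) (hT : T ∈ SL Q) (ω : ZMod p × ZMod p × ZMod p × ZMod p)
    (s t u : Fin m) (h12 : s ≠ t) (h13 : s ≠ u) (h23 : t ≠ u) :
    cnt ε κ T ω (rs Q x y s) (rs Q x y t) (rs Q x y u) = 0 := by
  unfold cnt
  rw [Finset.card_eq_zero, Finset.filter_eq_empty_iff]
  rintro ⟨w1, w2, w3⟩ _ ⟨_, hlt⟩
  set D : ℤ := dcfg (T, (bv ε ω w1, bv ε ω w2, bv ε ω w3), (w1, w2, w3)) (rs Q x y s) (rs Q x y t)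
    (rs Q x y u) with hD
  set D0 : ℤ := det3 (x s, y s + bv ε ω w1) (x t, y t + bv ε ω w2) (x u, y u + bv ε ω w3) with hD0
  have hcast : (D : ZMod Q) = (D0 : ZMod Q) := by
    rw [hD, hD0]
    unfold dcfg
    rw [det3_pt_cast T hT]
    unfold det3 rs
    push_cast
    ring
  have hdvd : (Q : ℤ) ∣ D - D0 := by
    rw [← ZMod.intCast_eq_intCast_iff_dvd_sub]
    exact hcast.symm
  obtain ⟨k, hk⟩ := hdvd
  have hDk : D = D0 + k * Q := by linarith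
  have h := hP s t u h12 h13 h23 (bv ε ω w1) (bv_mem ε ω w1) (bv ε ω w2) (bv_mem ε ω w2)
    (bv ε ω w3) (bv_mem ε ω w3) k
  rw [← hD0, ← hDk] at h
  exact absurd hlt (not_lt.mpr h)

/-- the bound of `NB` -/
noncomputable def NBv (Q p : ℕ) : ℝ := 232 * (Q : ℝ) ^ 2 * (p : ℝ) ^ 7 * Hs (3 * Q * p)

/-- the bound of `NC` -/
noncomputable def NCv (Q p : ℕ) : ℝ :=
  Q * ((p : ℝ) ^ 9 + 1152 * Q * (p : ℝ) ^ 7 * Hs p * Hs (2 * p ^ 2))

/-- two equal residues -/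
theorem sum_cnt_B {Q p m : ℕ} [Fact Q.Prime] [Fact p.Prime] (ε : ZMod p) (hε : ¬ IsSquare ε) (κ : ℕ)
    (hκ : 2 ≤ κ) (x y : Fin m → ℤ) (hinj : Function.Injective x) (hx0 : ∀ s, 0 ≤ x s)
    (hxQ : ∀ s, (κ : ℤ) * p * x s < Q) (s t : Fin m) (hst : s ≠ t) :
    ((∑ T ∈ SL Q, ∑ ω ∈ Om p, cnt ε κ T ω (rs Q x y s) (rs Q x y s) (rs Q x y t) : ℕ) : ℝ)
      ≤ p * NBv Q p := by
  have h1 := sum_cnt_le ε hε κ (rs Q x y s) (rs Q x y s) (rs Q x y t)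
    (fun c => c.2.2.1 ≠ c.2.2.2.1 ∧
        (κ : ℤ) * |dcfg c (rs Q x y s) (rs Q x y s) (rs Q x y t)| < Q)
    (fun T _ ω _ w1 _ w2 _ w3 _ h12 _ _ h => ⟨h12, h⟩)
  have h2 := NB Q p κ hκ (x s) (x t) (hx0 s) (hx0 t) (fun h => hst (hinj h)) (hxQ s) (hxQ t)
    (y s : ZMod Q) (y t : ZMod Q)
  have h3 : ((∑ T ∈ SL Q, ∑ ω ∈ Om p, cnt ε κ T ω (rs Q x y s) (rs Q x y s) (rs Q x y t) : ℕ) : ℝ) ≤
      (p : ℝ) * ((((cfg Q p).filter (fun c => c.2.2.1 ≠ c.2.2.2.1 ∧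
        (κ : ℤ) * |dcfg c (rs Q x y s) (rs Q x y s) (rs Q x y t)| < Q)).card : ℕ) : ℝ) := by
    exact_mod_cast h1
  refine h3.trans ?_
  refine mul_le_mul_of_nonneg_left ?_ (by positivity)
  unfold NBv
  exact h2

/-- all residues equal -/
theorem sum_cnt_C {Q p m : ℕ} [Fact Q.Prime] [Fact p.Prime] (ε : ZMod p) (hε : ¬ IsSquare ε) (κ : ℕ)
    (hκ : 2 ≤ κ) (x y : Fin m → ℤ) (s : Fin m) :
    ((∑ T ∈ SL Q, ∑ ω ∈ Om p, cnt ε κ T ω (rs Q x y s) (rs Q x y s) (rs Q x y s) : ℕ) : ℝ)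
      ≤ p * NCv Q p := by
  have h1 := sum_cnt_le ε hε κ (rs Q x y s) (rs Q x y s) (rs Q x y s)
    (fun c => ¬ (nv (c.2.1.2.1 - c.2.1.1) (c.2.1.2.2 - c.2.1.1) (c.2.2.2.1 - c.2.2.1)
          (c.2.2.2.2 - c.2.2.1) = 0 ∧ crs (c.2.2.2.1 - c.2.2.1) (c.2.2.2.2 - c.2.2.1) = 0) ∧
        (κ : ℤ) * |dcfg c (rs Q x y s) (rs Q x y s) (rs Q x y s)| < Q)
    (fun T _ ω hω w1 hw1 w2 hw2 w3 hw3 h12 h13 h23 h =>
      ⟨cap ε hε ω hω w1 w2 w3 hw1 hw2 hw3 h12 h13 h23, h⟩)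
  have h2 := NC Q p κ (by omega) (rs Q x y s)
  have h3 : ((∑ T ∈ SL Q, ∑ ω ∈ Om p, cnt ε κ T ω (rs Q x y s) (rs Q x y s) (rs Q x y s) : ℕ) : ℝ) ≤
      (p : ℝ) * ((((cfg Q p).filter (fun c =>
        ¬ (nv (c.2.1.2.1 - c.2.1.1) (c.2.1.2.2 - c.2.1.1) (c.2.2.2.1 - c.2.2.1)
          (c.2.2.2.2 - c.2.2.1) = 0 ∧ crs (c.2.2.2.1 - c.2.2.1) (c.2.2.2.2 - c.2.2.1) = 0) ∧
        (κ : ℤ) * |dcfg c (rs Q x y s) (rs Q x y s) (rs Q x y s)| < Q)).card : ℕ) : ℝ) := by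
    exact_mod_cast h1
  refine h3.trans ?_
  refine mul_le_mul_of_nonneg_left ?_ (by positivity)
  unfold NCv
  exact h2

theorem avg {Q p m : ℕ} [Fact Q.Prime] [Fact p.Prime] (ε : ZMod p) (hε : ¬ IsSquare ε) (κ : ℕ)
    (hκ : 2 ≤ κ) (x y : Fin m → ℤ) (hinj : Function.Injective x) (hx0 : ∀ s, 0 ≤ x s)
    (hxQ : ∀ s, (κ : ℤ) * p * x s < Q) (hP : Good Q p κ x y) :
    ((∑ T ∈ SL Q, ∑ ω ∈ Om p, ∑ s : Fin m × Fin m × Fin m,
        cnt ε κ T ω (rs Q x y s.1) (rs Q x y s.2.1) (rs Q x y s.2.2) : ℕ) : ℝ)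
      ≤ p * (3 * (m : ℝ) ^ 2 * NBv Q p + m * NCv Q p) := by
  classical
  have hNB : 0 ≤ NBv Q p := by
    unfold NBv
    have := Hs_nonneg (3 * Q * p)
    positivity
  have hNC : 0 ≤ NCv Q p := by
    unfold NCv
    have h1 := Hs_nonneg p
    have h2 := Hs_nonneg (2 * p ^ 2)
    positivity
  have hp0 : (0 : ℝ) ≤ p := by positivity
  -- exchange the sums
  have e1 : ∑ T ∈ SL Q, ∑ ω ∈ Om p, ∑ s : Fin m × Fin m × Fin m,
        cnt ε κ T ω (rs Q x y s.1) (rs Q x y s.2.1) (rs Q x y s.2.2) =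
      ∑ s : Fin m × Fin m × Fin m, ∑ T ∈ SL Q, ∑ ω ∈ Om p,
        cnt ε κ T ω (rs Q x y s.1) (rs Q x y s.2.1) (rs Q x y s.2.2) := by
    rw [Finset.sum_congr rfl fun T _ => Finset.sum_comm]
    exact Finset.sum_comm
  rw [e1, Nat.cast_sum]
  -- the bound for one triple
  have key : ∀ s t u : Fin m, ((∑ T ∈ SL Q, ∑ ω ∈ Om p,
        cnt ε κ T ω (rs Q x y s) (rs Q x y t) (rs Q x y u) : ℕ) : ℝ) ≤
      p * ((if s = t then NBv Q p else 0) + (if s = u then NBv Q p else 0) +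
        (if t = u then NBv Q p else 0) + (if s = t ∧ t = u then NCv Q p else 0)) := by
    intro s t u
    by_cases h1 : s = t
    · subst h1
      by_cases h2 : s = u
      · subst h2
        rw [if_pos rfl, if_pos ⟨rfl, rfl⟩]
        refine (sum_cnt_C ε hε κ hκ x y s).trans ?_
        apply mul_le_mul_of_nonneg_left _ hp0
        linarith
      · rw [if_pos rfl, if_neg h2, if_neg (fun h => h2 h.2)]
        refine (sum_cnt_B ε hε κ hκ x y hinj hx0 hxQ s u h2).trans (le_of_eq ?_)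
        ring
    · by_cases h2 : s = u
      · subst h2
        rw [if_neg h1, if_pos rfl, if_neg (fun h => h1 h.symm), if_neg (fun h => h1 h.1)]
        have e2 : ∑ T ∈ SL Q, ∑ ω ∈ Om p, cnt ε κ T ω (rs Q x y s) (rs Q x y t) (rs Q x y s) =
            ∑ T ∈ SL Q, ∑ ω ∈ Om p, cnt ε κ T ω (rs Q x y s) (rs Q x y s) (rs Q x y t) :=
          Finset.sum_congr rfl fun T _ => Finset.sum_congr rfl fun ω _ => cnt_swap ε κ T ω _ _ _
        rw [e2]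
        refine (sum_cnt_B ε hε κ hκ x y hinj hx0 hxQ s t h1).trans (le_of_eq ?_)
        ring
      · by_cases h3 : t = u
        · subst h3
          rw [if_neg h1, if_pos rfl, if_neg (fun h => h1 h.1)]
          have e2 : ∑ T ∈ SL Q, ∑ ω ∈ Om p, cnt ε κ T ω (rs Q x y s) (rs Q x y t) (rs Q x y t) =
              ∑ T ∈ SL Q, ∑ ω ∈ Om p, cnt ε κ T ω (rs Q x y t) (rs Q x y t) (rs Q x y s) :=
            Finset.sum_congr rfl fun T _ => Finset.sum_congr rfl fun ω _ => cnt_rot ε κ T ω _ _ _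
          rw [e2]
          refine (sum_cnt_B ε hε κ hκ x y hinj hx0 hxQ t s (Ne.symm h1)).trans (le_of_eq ?_)
          ring
        · rw [if_neg h1, if_neg h2, if_neg h3, if_neg (fun h => h1 h.1)]
          have e2 : ∑ T ∈ SL Q, ∑ ω ∈ Om p, cnt ε κ T ω (rs Q x y s) (rs Q x y t) (rs Q x y u) = 0 :=
            Finset.sum_eq_zero fun T hT => Finset.sum_eq_zero fun ω _ =>
              cnt_zero ε κ x y hP T hT ω s t u h1 h2 h3
          rw [e2]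
          simp
  refine (Finset.sum_le_sum fun s _ => key s.1 s.2.1 s.2.2).trans (le_of_eq ?_)
  rw [← Finset.mul_sum]
  congr 1
  rw [Fintype.sum_prod_type]
  simp only [Fintype.sum_prod_type]
  have c1 : ∀ s : Fin m, ∑ t : Fin m, ∑ u : Fin m, (if s = t then NBv Q p else 0) = m * NBv Q p := by
    intro s
    have : ∀ t : Fin m, ∑ u : Fin m, (if s = t then NBv Q p else 0) =
        if s = t then (m : ℝ) * NBv Q p else 0 := by
      intro t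
      by_cases h : s = t
      · simp [h]
      · simp [h]
    rw [Finset.sum_congr rfl fun t _ => this t]
    simp
  have c2 : ∀ s : Fin m, ∑ t : Fin m, ∑ u : Fin m, (if s = u then NBv Q p else 0) = m * NBv Q p := by
    intro s
    simp
  have c3 : ∀ s : Fin m, ∑ t : Fin m, ∑ u : Fin m, (if t = u then NBv Q p else 0) = m * NBv Q p := by
    intro s
    simp
  have c4 : ∀ s : Fin m, ∑ t : Fin m, ∑ u : Fin m, (if s = t ∧ t = u then NCv Q p else 0) = NCv Q p := by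
    intro s
    have : ∀ t : Fin m, ∑ u : Fin m, (if s = t ∧ t = u then NCv Q p else 0) =
        if s = t then NCv Q p else 0 := by
      intro t
      by_cases h : s = t
      · simp [h]
      · simp [h]
    rw [Finset.sum_congr rfl fun t _ => this t]
    simp
  have c5 : ∀ s : Fin m, ∑ t : Fin m, ∑ u : Fin m, ((if s = t then NBv Q p else 0) +
      (if s = u then NBv Q p else 0) + (if t = u then NBv Q p else 0) +
      (if s = t ∧ t = u then NCv Q p else 0)) = 3 * (m * NBv Q p) + NCv Q p := by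
    intro s
    simp only [Finset.sum_add_distrib]
    rw [c1 s, c2 s, c3 s, c4 s]
    ring
  rw [Finset.sum_congr rfl fun s _ => c5 s, Finset.sum_const, Finset.card_univ, Fintype.card_fin,
    nsmul_eq_mul]
  ring

end Crest.Agent.R32
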