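/- Row 32, pieces BIL1, BIL2: the bilinear form `(Σ a_i B^(e i)) (Σ c_j C_j)`, `B = q^8`,
   `C_j = ⌊Q / (w_j B^(e j))⌋`, `w_j v_j = q^4`, `q ≤ w_j`.

   `bil1`: let `B = q^8`, `C = ⌊Q / (w B^n)⌋`, `Q = C w B^n + ρ`, `0 ≤ ρ < w B^n`.
   * `m = n`: `q^4 B^n C = v w B^n C = v Q - v ρ`, `|v ρ| ≤ v w B^n = q^4 B^n`; `A = 0`;
     `q^4 · q^4 B^n = B^(n+1) ≤ B^R ≤ Q`.
   * `n < m`: `w ∣ B^(m-n)` (as `w ∣ q^4 ∣ q^8`), `A = B^(m-n)/w`, i.e. `B^(m-n) = w A`: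
     `q^4 B^m C = q^4 A w B^n C = q^4 A (Q - ρ)`, error `q^4 A ρ ≤ q^4 A w B^n = q^4 B^m`; the same bound.
   * `m < n`: `A = 0`: `q^4 B^m C ≤ q^4 B^m Q / (w B^n) ≤ q^3 Q / B` (in integers:
     `q · B^(m+1) C ≤ w B^n C ≤ Q`, and `q^4 · q^4 B^m C = B^(m+1) C ≤ Q`).

   `bilin_approx`: expand the product; the `(i,j)` term is `a_i c_j` times the expression of `bil1` with `m = e i`,
   `n = e j` (`m = n ↔ i = j`); `|a_i c_j| ≤ q²`; sum of the errors `E` satisfies `q^4 E ≤ R² q² Q`,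
   so `q² E ≤ R² Q` and `16 q² E ≤ 16 R² Q ≤ q² Q` . -/
import Crest.Agent.R32.Defs

set_option autoImplicit false

namespace Crest.Agent.R32

open Finset

theorem bil1 (q Q R : ℕ) (hq : 2 ≤ q) (hQ : q ^ (8 * R) ≤ Q) (m n : ℕ) (hm : m < R) (hn : n < R)
    (w v : ℕ) (hwv : w * v = q ^ 4) (hw : q ≤ w) :
    ∃ A : ℤ, (q : ℤ) ^ 4 * |(q : ℤ) ^ 4 * (((q : ℤ) ^ 8) ^ m * ((Q / (w * (q ^ 8) ^ n) : ℕ) : ℤ))
      - (if m = n then (v : ℤ) * Q else 0) - (q : ℤ) ^ 4 * Q * A| ≤ Q := by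
  set B : ℕ := q ^ 8 with hB
  have hBp : 0 < B := by positivity
  have hBR : B ^ R ≤ Q := by rw [hB, ← pow_mul]; exact hQ
  set D : ℕ := w * B ^ n with hD
  have hDp : 0 < D := Nat.mul_pos (by omega) (by positivity)
  set C : ℕ := Q / D with hC
  obtain ⟨ρ, hρ, hQe⟩ : ∃ ρ, ρ < D ∧ Q = D * C + ρ :=
    ⟨Q % D, Nat.mod_lt _ hDp, (Nat.div_add_mod Q D).symm⟩
  have hwvZ : (w : ℤ) * v = (q : ℤ) ^ 4 := by exact_mod_cast hwv
  have hQZ : (Q : ℤ) = w * (B : ℤ) ^ n * C + ρ := by rw [hQe, hD]; push_cast; ring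
  have hρZ : (ρ : ℤ) ≤ w * (B : ℤ) ^ n := by
    have : ρ ≤ w * B ^ n := hρ.le
    exact_mod_cast this
  have hBZ : ((q : ℤ) ^ 8) = (B : ℤ) := by rw [hB]; push_cast; ring
  have hq44 : (q : ℤ) ^ 4 * (q : ℤ) ^ 4 = B := by rw [← hBZ]; ring
  have hpow : ∀ k, k < R → (B : ℤ) * (B : ℤ) ^ k ≤ Q := by
    intro k hk
    have : B ^ (k + 1) ≤ Q := le_trans (Nat.pow_le_pow_right hBp hk) hBR
    have h2 : B * B ^ k ≤ Q := by rwa [pow_succ'] at this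
    exact_mod_cast h2
  rw [hBZ]
  rcases lt_trichotomy m n with hmn | hmn | hmn
  · refine ⟨0, ?_⟩
    rw [if_neg (by omega)]
    have h1 : (q : ℤ) ^ 4 * ((B : ℤ) ^ m * (C : ℤ)) - 0 - (q : ℤ) ^ 4 * Q * 0 =
        (q : ℤ) ^ 4 * ((B : ℤ) ^ m * (C : ℤ)) := by ring
    rw [h1, abs_of_nonneg (by positivity)]
    have h2 : (q : ℤ) ^ 4 * ((q : ℤ) ^ 4 * ((B : ℤ) ^ m * (C : ℤ))) = ((B ^ (m + 1) * C : ℕ) : ℤ) := by
      push_cast; rw [← mul_assoc, hq44]; ring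
    rw [h2]
    have h3 : B ^ (m + 1) * C ≤ Q := by
      calc B ^ (m + 1) * C ≤ B ^ n * C := Nat.mul_le_mul_right _ (Nat.pow_le_pow_right hBp hmn)
        _ ≤ w * B ^ n * C := by
          rw [mul_assoc]; exact Nat.le_mul_of_pos_left _ (by omega)
        _ ≤ Q := by rw [hQe]; exact Nat.le_add_right _ _
    exact_mod_cast h3
  · subst hmn
    refine ⟨0, ?_⟩
    rw [if_pos rfl]
    have h1 : (q : ℤ) ^ 4 * ((B : ℤ) ^ m * (C : ℤ)) - v * Q - (q : ℤ) ^ 4 * Q * 0 = -(v * ρ) := by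
      rw [hQZ, ← hwvZ]; ring
    rw [h1, abs_neg, abs_of_nonneg (by positivity)]
    calc (q : ℤ) ^ 4 * (v * ρ) ≤ (q : ℤ) ^ 4 * (v * (w * (B : ℤ) ^ m)) := by
          gcongr
      _ = B * (B : ℤ) ^ m := by
          rw [← hq44, ← hwvZ]; ring
      _ ≤ Q := hpow m hm
  · have hdvd : w ∣ B ^ (m - n) := by
      have h1 : w ∣ q ^ 4 := ⟨v, hwv.symm⟩
      have h2 : q ^ 4 ∣ B := by rw [hB]; exact pow_dvd_pow q (by norm_num)
      exact (h1.trans h2).trans (dvd_pow_self B (by omega))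
    obtain ⟨A, hA⟩ := hdvd
    refine ⟨(A : ℤ), ?_⟩
    rw [if_neg (by omega)]
    have hAZ : (B : ℤ) ^ m = w * A * (B : ℤ) ^ n := by
      have : B ^ m = w * A * B ^ n := by
        rw [← hA, ← pow_add]; congr 1; omega
      exact_mod_cast this
    have h1 : (q : ℤ) ^ 4 * ((B : ℤ) ^ m * (C : ℤ)) - 0 - (q : ℤ) ^ 4 * Q * A =
        -((q : ℤ) ^ 4 * (A * ρ)) := by
      rw [hAZ, hQZ]; ring
    rw [h1, abs_neg, abs_of_nonneg (by positivity)]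
    calc (q : ℤ) ^ 4 * ((q : ℤ) ^ 4 * (A * ρ)) ≤ (q : ℤ) ^ 4 * ((q : ℤ) ^ 4 * (A * (w * (B : ℤ) ^ n))) := by
          gcongr
      _ = B * (B : ℤ) ^ m := by
          rw [hAZ, ← hq44]; ring
      _ ≤ Q := hpow m hm

theorem bilin_approx {I : Type} [Fintype I] [DecidableEq I] (e : I → ℕ) (he : Function.Injective e)
    (R : ℕ) (heR : ∀ i, e i < R) (hcard : Fintype.card I ≤ R) (q Q : ℕ) (hq : 2 ≤ q)
    (hqR : 32 * R ^ 2 ≤ q ^ 2) (hQ : q ^ (8 * R) ≤ Q) (w v : I → ℕ) (hwv : ∀ i, w i * v i = q ^ 4)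
    (hw : ∀ i, q ≤ w i) (a c : I → ℤ) (ha : ∀ i, 0 ≤ a i ∧ a i < q) (hc : ∀ i, 0 ≤ c i ∧ c i < q) :
    ∃ A : ℤ, 16 * |(q : ℤ) ^ 4 * ((∑ i, a i * ((q : ℤ) ^ 8) ^ (e i)) *
        (∑ j, c j * ((Q / (w j * (q ^ 8) ^ (e j)) : ℕ) : ℤ)))
      - Q * ((∑ j, (v j : ℤ) * (a j * c j)) + (q : ℤ) ^ 4 * A)| ≤ Q := by
  have hq0 : (0 : ℤ) < q := by exact_mod_cast (by omega : 0 < q)
  have hex : ∀ i j, ∃ A : ℤ, (q : ℤ) ^ 4 * |(q : ℤ) ^ 4 * (((q : ℤ) ^ 8) ^ (e i) *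
      ((Q / (w j * (q ^ 8) ^ (e j)) : ℕ) : ℤ))
      - (if e i = e j then (v j : ℤ) * Q else 0) - (q : ℤ) ^ 4 * Q * A| ≤ Q :=
    fun i j => bil1 q Q R hq hQ (e i) (e j) (heR i) (heR j) (w j) (v j) (hwv j) (hw j)
  choose A hA using hex
  refine ⟨∑ i, ∑ j, a i * c j * A i j, ?_⟩
  set C : I → ℤ := fun j => ((Q / (w j * (q ^ 8) ^ (e j)) : ℕ) : ℤ) with hC
  set T : I → I → ℤ := fun i j => (q : ℤ) ^ 4 * (((q : ℤ) ^ 8) ^ (e i) * C j)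
      - (if e i = e j then (v j : ℤ) * Q else 0) - (q : ℤ) ^ 4 * Q * A i j with hT
  have hT' : ∀ i j, (q : ℤ) ^ 4 * |T i j| ≤ Q := fun i j => hA i j
  have hsum : (q : ℤ) ^ 4 * ((∑ i, a i * ((q : ℤ) ^ 8) ^ (e i)) * (∑ j, c j * C j))
      - Q * ((∑ j, (v j : ℤ) * (a j * c j)) + (q : ℤ) ^ 4 * (∑ i, ∑ j, a i * c j * A i j))
      = ∑ i, ∑ j, a i * c j * T i j := by
    have e1 : (∑ i, a i * ((q : ℤ) ^ 8) ^ (e i)) * (∑ j, c j * C j) =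
        ∑ i, ∑ j, a i * c j * (((q : ℤ) ^ 8) ^ (e i) * C j) := by
      rw [Finset.sum_mul_sum]
      exact Finset.sum_congr rfl fun i _ => Finset.sum_congr rfl fun j _ => by ring
    have e2 : ∑ i, ∑ j, a i * c j * (if e i = e j then (v j : ℤ) * Q else 0) =
        Q * ∑ j, (v j : ℤ) * (a j * c j) := by
      rw [Finset.sum_comm, Finset.mul_sum]
      refine Finset.sum_congr rfl fun j _ => ?_
      rw [Finset.sum_eq_single j]
      · rw [if_pos rfl]; ring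
      · intro i _ hij
        rw [if_neg (fun h => hij (he h)), mul_zero]
      · intro h; exact absurd (Finset.mem_univ _) h
    have e3 : ∑ i, ∑ j, a i * c j * T i j = (q : ℤ) ^ 4 * (∑ i, ∑ j, a i * c j *
        (((q : ℤ) ^ 8) ^ (e i) * C j)) - ∑ i, ∑ j, a i * c j *
        (if e i = e j then (v j : ℤ) * Q else 0) - (q : ℤ) ^ 4 * Q * (∑ i, ∑ j, a i * c j * A i j) := by
      simp only [hT, Finset.mul_sum, ← Finset.sum_sub_distrib]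
      exact Finset.sum_congr rfl fun i _ => Finset.sum_congr rfl fun j _ => by ring
    rw [e3, e2, ← e1]
    ring
  rw [hsum]
  -- the bound
  have hb : (q : ℤ) ^ 4 * |∑ i, ∑ j, a i * c j * T i j| ≤ (R : ℤ) ^ 2 * ((q : ℤ) ^ 2 * Q) := by
    have h1 : |∑ i, ∑ j, a i * c j * T i j| ≤ ∑ i, ∑ j, |a i * c j * T i j| :=
      (Finset.abs_sum_le_sum_abs _ _).trans
        (Finset.sum_le_sum fun i _ => Finset.abs_sum_le_sum_abs _ _)
    have h2 : (q : ℤ) ^ 4 * |∑ i, ∑ j, a i * c j * T i j| ≤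
        ∑ i : I, ∑ j : I, (q : ℤ) ^ 2 * Q := by
      calc (q : ℤ) ^ 4 * |∑ i, ∑ j, a i * c j * T i j| ≤
          (q : ℤ) ^ 4 * ∑ i, ∑ j, |a i * c j * T i j| :=
            mul_le_mul_of_nonneg_left h1 (by positivity)
        _ = ∑ i, ∑ j, (a i * c j) * ((q : ℤ) ^ 4 * |T i j|) := by
            rw [Finset.mul_sum]
            refine Finset.sum_congr rfl fun i _ => ?_
            rw [Finset.mul_sum]
            refine Finset.sum_congr rfl fun j _ => ?_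
            rw [abs_mul, abs_of_nonneg (mul_nonneg (ha i).1 (hc j).1)]
            ring
        _ ≤ ∑ i : I, ∑ j : I, (q : ℤ) ^ 2 * Q := by
            refine Finset.sum_le_sum fun i _ => Finset.sum_le_sum fun j _ => ?_
            have k1 : a i * c j ≤ (q : ℤ) ^ 2 := by
              have := mul_le_mul (ha i).2.le (hc j).2.le (hc j).1 hq0.le
              calc a i * c j ≤ q * q := this
                _ = (q : ℤ) ^ 2 := by ring
            exact mul_le_mul k1 (hT' i j) (by positivity) (by positivity)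
    have h3 : ∑ i : I, ∑ j : I, (q : ℤ) ^ 2 * Q =
        (Fintype.card I : ℤ) ^ 2 * ((q : ℤ) ^ 2 * Q) := by
      simp only [Finset.sum_const, Finset.card_univ, nsmul_eq_mul]
      ring
    have h4 : (Fintype.card I : ℤ) ^ 2 ≤ (R : ℤ) ^ 2 := by
      have : (Fintype.card I : ℤ) ≤ R := by exact_mod_cast hcard
      exact pow_le_pow_left₀ (by positivity) this 2
    rw [h3] at h2
    exact h2.trans (mul_le_mul_of_nonneg_right h4 (by positivity))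
  set X := |∑ i, ∑ j, a i * c j * T i j| with hX
  have hX0 : 0 ≤ X := abs_nonneg _
  have hq2 : (0 : ℤ) < (q : ℤ) ^ 2 := by positivity
  have hb2 : (q : ℤ) ^ 2 * X ≤ (R : ℤ) ^ 2 * Q := by
    have : (q : ℤ) ^ 2 * ((q : ℤ) ^ 2 * X) ≤ (q : ℤ) ^ 2 * ((R : ℤ) ^ 2 * Q) := by
      calc (q : ℤ) ^ 2 * ((q : ℤ) ^ 2 * X) = (q : ℤ) ^ 4 * X := by ring
        _ ≤ _ := hb
        _ = _ := by ring
    exact le_of_mul_le_mul_left this hq2
  have hqR' : 32 * (R : ℤ) ^ 2 ≤ (q : ℤ) ^ 2 := by exact_mod_cast hqR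
  have hQ0 : (0 : ℤ) ≤ Q := by positivity
  have h5 : (q : ℤ) ^ 2 * (16 * X) ≤ (q : ℤ) ^ 2 * Q := by
    have h6 : 32 * (R : ℤ) ^ 2 * Q ≤ (q : ℤ) ^ 2 * Q := mul_le_mul_of_nonneg_right hqR' hQ0
    have h7 : 0 ≤ (R : ℤ) ^ 2 * Q := by positivity
    linarith
  exact le_of_mul_le_mul_left h5 hq2

end Crest.Agent.R32
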