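/- Row 32, piece DEL: the deletion method.
   PROOF.  Sum over all `f : Fin N → U` (`Fintype.piFinset (fun _ => U)`, `|U|^N` functions) of
   `bad f = #{(i,j) : i ≠ j, R2 (f i) (f j)} + #{(i,j,k) pairwise distinct, R3 (f i) (f j) (f k)}`.
   For fixed `i ≠ j` the number of `f` with `R2 (f i) (f j)` is `|R2| |U|^(N-2)`; for fixed distinct `i,j,k` the
   number with `R3` is `|R3| |U|^(N-3)`.  (Only inequalities needed.)  So
   `∑_f bad f ≤ N² |R2| |U|^(N-2) + N³ |R3| |U|^(N-3) ≤ (N/8 + N/8) |U|^N` (if `N < 2` resp. `N < 3` the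
   corresponding sum is empty).  Hence some `f` has `4 * bad f ≤ N`.  Let `I'` be the set of indices that are not
   the first index of a bad pair or a bad triple: `|I'| ≥ N - bad f`, so `4 |I'| ≥ 3 N`.  `f` is injective on `I'`
   (`R2` is reflexive on `U`), `A = f '' I'` works. -/
import Crest.Agent.R32.Defs

set_option autoImplicit false

namespace Crest.Agent.R32

open Finset

private theorem count2 {α : Type} [DecidableEq α] (U : Finset α)
    (R2 : α → α → Prop) [DecidableRel R2] (N : ℕ) (i j : Fin N) (hij : i ≠ j) :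
    ((Fintype.piFinset (fun _ : Fin N => U)).filter (fun f => R2 (f i) (f j))).card * U.card ^ 2 ≤
      ((U ×ˢ U).filter (fun z => R2 z.1 z.2)).card * U.card ^ N := by
  have h1 : U.card ^ 2 = (U ×ˢ U).card := by rw [card_product]; ring
  have h2 : U.card ^ N = (Fintype.piFinset (fun _ : Fin N => U)).card := by
    rw [Fintype.card_piFinset]; simp
  rw [h1, h2, ← card_product, ← card_product]
  refine card_le_card_of_injOn
    (fun p => ((p.1 i, p.1 j), Function.update (Function.update p.1 i p.2.1) j p.2.2)) ?_ ?_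
  · rintro ⟨f, a, b⟩ hp
    simp only [coe_product, coe_filter, Set.mem_prod, Fintype.mem_piFinset, Set.mem_ofPred_eq,
      mem_coe, mem_product] at hp ⊢
    refine ⟨⟨⟨hp.1.1 i, hp.1.1 j⟩, hp.1.2⟩, fun k => ?_⟩
    by_cases hkj : k = j
    · subst hkj; rw [Function.update_self]; exact hp.2.2
    · rw [Function.update_of_ne hkj]
      by_cases hki : k = i
      · subst hki; rw [Function.update_self]; exact hp.2.1
      · rw [Function.update_of_ne hki]; exact hp.1.1 k
  · rintro ⟨f, a, b⟩ _ ⟨g, c, d⟩ _ h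
    simp only [Prod.mk.injEq] at h
    obtain ⟨⟨h1, h2⟩, h3⟩ := h
    have ha : a = c := by
      have := congrFun h3 i
      rwa [Function.update_of_ne hij, Function.update_of_ne hij, Function.update_self,
        Function.update_self] at this
    have hb : b = d := by
      have := congrFun h3 j
      rwa [Function.update_self, Function.update_self] at this
    have hf : f = g := by
      funext k
      by_cases hkj : k = j
      · subst hkj; exact h2
      · by_cases hki : k = i
        · subst hki; exact h1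
        · have := congrFun h3 k
          rwa [Function.update_of_ne hkj, Function.update_of_ne hkj, Function.update_of_ne hki,
            Function.update_of_ne hki] at this
    rw [ha, hb, hf]

private theorem count3 {α : Type} [DecidableEq α] (U : Finset α)
    (R3 : α → α → α → Prop) [∀ a b c, Decidable (R3 a b c)] (N : ℕ) (i j l : Fin N) (hij : i ≠ j)
    (hil : i ≠ l) (hjl : j ≠ l) :
    ((Fintype.piFinset (fun _ : Fin N => U)).filter
      (fun f => R3 (f i) (f j) (f l))).card * U.card ^ 3 ≤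
      ((U ×ˢ U ×ˢ U).filter (fun z => R3 z.1 z.2.1 z.2.2)).card * U.card ^ N := by
  have h1 : U.card ^ 3 = (U ×ˢ U ×ˢ U).card := by rw [card_product, card_product]; ring
  have h2 : U.card ^ N = (Fintype.piFinset (fun _ : Fin N => U)).card := by
    rw [Fintype.card_piFinset]; simp
  rw [h1, h2, ← card_product, ← card_product]
  refine card_le_card_of_injOn
    (fun p => ((p.1 i, p.1 j, p.1 l), Function.update (Function.update (Function.update p.1 i p.2.1)
      j p.2.2.1) l p.2.2.2)) ?_ ?_
  · rintro ⟨f, a, b, c⟩ hp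
    simp only [coe_product, coe_filter, Set.mem_prod, Fintype.mem_piFinset, Set.mem_ofPred_eq,
      mem_coe, mem_product] at hp ⊢
    refine ⟨⟨⟨hp.1.1 i, hp.1.1 j, hp.1.1 l⟩, hp.1.2⟩, fun k => ?_⟩
    by_cases hkl : k = l
    · subst hkl; rw [Function.update_self]; exact hp.2.2.2
    · rw [Function.update_of_ne hkl]
      by_cases hkj : k = j
      · subst hkj; rw [Function.update_self]; exact hp.2.2.1
      · rw [Function.update_of_ne hkj]
        by_cases hki : k = i
        · subst hki; rw [Function.update_self]; exact hp.2.1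
        · rw [Function.update_of_ne hki]; exact hp.1.1 k
  · rintro ⟨f, a, b, c⟩ _ ⟨g, a', b', c'⟩ _ h
    simp only [Prod.mk.injEq] at h
    obtain ⟨⟨h1, h2, h3⟩, h4⟩ := h
    have ha : a = a' := by
      have := congrFun h4 i
      rwa [Function.update_of_ne hil, Function.update_of_ne hil, Function.update_of_ne hij,
        Function.update_of_ne hij, Function.update_self, Function.update_self] at this
    have hb : b = b' := by
      have := congrFun h4 j
      rwa [Function.update_of_ne hjl, Function.update_of_ne hjl, Function.update_self,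
        Function.update_self] at this
    have hc : c = c' := by
      have := congrFun h4 l
      rwa [Function.update_self, Function.update_self] at this
    have hf : f = g := by
      funext k
      by_cases hkl : k = l
      · subst hkl; exact h3
      · by_cases hkj : k = j
        · subst hkj; exact h2
        · by_cases hki : k = i
          · subst hki; exact h1
          · have := congrFun h4 k
            rwa [Function.update_of_ne hkl, Function.update_of_ne hkl, Function.update_of_ne hkj,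
              Function.update_of_ne hkj, Function.update_of_ne hki,
              Function.update_of_ne hki] at this
    rw [ha, hb, hc, hf]

theorem deletion {α : Type} [DecidableEq α] (U : Finset α) (hU : U.Nonempty)
    (R2 : α → α → Prop) [DecidableRel R2] (R3 : α → α → α → Prop) [∀ a b c, Decidable (R3 a b c)]
    (hrefl : ∀ a ∈ U, R2 a a) (N : ℕ)
    (h2 : 8 * N * ((U ×ˢ U).filter (fun z => R2 z.1 z.2)).card ≤ U.card ^ 2)
    (h3 : 8 * N ^ 2 * ((U ×ˢ U ×ˢ U).filter (fun z => R3 z.1 z.2.1 z.2.2)).card ≤ U.card ^ 3) :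
    ∃ A ⊆ U, N ≤ 2 * A.card ∧ (∀ a ∈ A, ∀ b ∈ A, a ≠ b → ¬ R2 a b) ∧
      (∀ a ∈ A, ∀ b ∈ A, ∀ c ∈ A, a ≠ b → a ≠ c → b ≠ c → ¬ R3 a b c) := by
  classical
  set u := U.card with hu
  have hu0 : 0 < u := card_pos.2 hU
  set X := Fintype.piFinset (fun _ : Fin N => U) with hX
  have hXc : X.card = u ^ N := by rw [hX, Fintype.card_piFinset]; simp [hu]
  set P2 : Finset (Fin N × Fin N) := univ.filter (fun p => p.1 ≠ p.2) with hP2
  set P3 : Finset (Fin N × Fin N × Fin N) :=
    univ.filter (fun p => p.1 ≠ p.2.1 ∧ p.1 ≠ p.2.2 ∧ p.2.1 ≠ p.2.2) with hP3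
  set B2 : (Fin N → α) → Finset (Fin N × Fin N) := fun f => P2.filter (fun p => R2 (f p.1) (f p.2))
    with hB2
  set B3 : (Fin N → α) → Finset (Fin N × Fin N × Fin N) :=
    fun f => P3.filter (fun p => R3 (f p.1) (f p.2.1) (f p.2.2)) with hB3
  set r2 := ((U ×ˢ U).filter (fun z => R2 z.1 z.2)).card with hr2
  set r3 := ((U ×ˢ U ×ˢ U).filter (fun z => R3 z.1 z.2.1 z.2.2)).card with hr3
  have hcP2 : P2.card ≤ N ^ 2 := by
    refine (card_le_univ _).trans ?_
    simp [sq]
  have hcP3 : P3.card ≤ N ^ 3 := by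
    refine (card_le_univ _).trans ?_
    simp
    exact le_of_eq (by ring)
  -- sums of bad pairs
  have hs2 : 8 * ∑ f ∈ X, (B2 f).card ≤ N * u ^ N := by
    have e1 : ∑ f ∈ X, (B2 f).card = ∑ p ∈ P2, (X.filter (fun f => R2 (f p.1) (f p.2))).card := by
      simp only [hB2, card_filter]
      rw [sum_comm]
    have e2 : (∑ f ∈ X, (B2 f).card) * u ^ 2 ≤ N ^ 2 * (r2 * u ^ N) := by
      rw [e1, sum_mul]
      calc ∑ p ∈ P2, (X.filter (fun f => R2 (f p.1) (f p.2))).card * u ^ 2
          ≤ ∑ p ∈ P2, r2 * u ^ N := sum_le_sum fun p hp =>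
            count2 U R2 N p.1 p.2 (mem_filter.1 hp).2
        _ = P2.card * (r2 * u ^ N) := by rw [sum_const, smul_eq_mul]
        _ ≤ N ^ 2 * (r2 * u ^ N) := Nat.mul_le_mul_right _ hcP2
    have e3 : (8 * ∑ f ∈ X, (B2 f).card) * u ^ 2 ≤ (N * u ^ N) * u ^ 2 := by
      calc (8 * ∑ f ∈ X, (B2 f).card) * u ^ 2 = 8 * ((∑ f ∈ X, (B2 f).card) * u ^ 2) := by ring
        _ ≤ 8 * (N ^ 2 * (r2 * u ^ N)) := Nat.mul_le_mul_left _ e2
        _ = (N * u ^ N) * (8 * N * r2) := by ring
        _ ≤ (N * u ^ N) * u ^ 2 := Nat.mul_le_mul_left _ h2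
    exact Nat.le_of_mul_le_mul_right e3 (by positivity)
  have hs3 : 8 * ∑ f ∈ X, (B3 f).card ≤ N * u ^ N := by
    have e1 : ∑ f ∈ X, (B3 f).card =
        ∑ p ∈ P3, (X.filter (fun f => R3 (f p.1) (f p.2.1) (f p.2.2))).card := by
      simp only [hB3, card_filter]
      rw [sum_comm]
    have e2 : (∑ f ∈ X, (B3 f).card) * u ^ 3 ≤ N ^ 3 * (r3 * u ^ N) := by
      rw [e1, sum_mul]
      calc ∑ p ∈ P3, (X.filter (fun f => R3 (f p.1) (f p.2.1) (f p.2.2))).card * u ^ 3
          ≤ ∑ p ∈ P3, r3 * u ^ N := sum_le_sum fun p hp =>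
            count3 U R3 N p.1 p.2.1 p.2.2 (mem_filter.1 hp).2.1 (mem_filter.1 hp).2.2.1
              (mem_filter.1 hp).2.2.2
        _ = P3.card * (r3 * u ^ N) := by rw [sum_const, smul_eq_mul]
        _ ≤ N ^ 3 * (r3 * u ^ N) := Nat.mul_le_mul_right _ hcP3
    have e3 : (8 * ∑ f ∈ X, (B3 f).card) * u ^ 3 ≤ (N * u ^ N) * u ^ 3 := by
      calc (8 * ∑ f ∈ X, (B3 f).card) * u ^ 3 = 8 * ((∑ f ∈ X, (B3 f).card) * u ^ 3) := by ring
        _ ≤ 8 * (N ^ 3 * (r3 * u ^ N)) := Nat.mul_le_mul_left _ e2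
        _ = (N * u ^ N) * (8 * N ^ 2 * r3) := by ring
        _ ≤ (N * u ^ N) * u ^ 3 := Nat.mul_le_mul_left _ h3
    exact Nat.le_of_mul_le_mul_right e3 (by positivity)
  obtain ⟨f, hfX, hf⟩ : ∃ f ∈ X, 4 * ((B2 f).card + (B3 f).card) ≤ N := by
    by_contra hcon
    push Not at hcon
    have h4 : ∑ f ∈ X, (N + 1) ≤ ∑ f ∈ X, 4 * ((B2 f).card + (B3 f).card) :=
      sum_le_sum fun f hf => hcon f hf
    rw [sum_const, smul_eq_mul, hXc, ← mul_sum, sum_add_distrib] at h4
    have h5 : 0 < u ^ N := by positivity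
    have h6 : u ^ N * (N + 1) = N * u ^ N + u ^ N := by ring
    omega
  have hfU : ∀ i, f i ∈ U := Fintype.mem_piFinset.1 hfX
  set I1 : Finset (Fin N) := (B2 f).image Prod.fst ∪ (B3 f).image Prod.fst with hI1
  have hI1c : I1.card ≤ (B2 f).card + (B3 f).card :=
    (card_union_le _ _).trans (Nat.add_le_add card_image_le card_image_le)
  set I : Finset (Fin N) := I1ᶜ with hI
  have hIc : I.card + I1.card = N := by
    rw [hI, card_compl, Fintype.card_fin]
    have := card_le_univ I1
    rw [Fintype.card_fin] at this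
    omega
  have hg2 : ∀ i ∈ I, ∀ j, i ≠ j → ¬ R2 (f i) (f j) := by
    intro i hi j hij hR
    rw [hI, mem_compl] at hi
    apply hi
    rw [hI1, mem_union]
    left
    exact mem_image.2 ⟨(i, j), mem_filter.2 ⟨mem_filter.2 ⟨mem_univ _, hij⟩, hR⟩, rfl⟩
  have hg3 : ∀ i ∈ I, ∀ j k, i ≠ j → i ≠ k → j ≠ k → ¬ R3 (f i) (f j) (f k) := by
    intro i hi j k hij hik hjk hR
    rw [hI, mem_compl] at hi
    apply hi
    rw [hI1, mem_union]
    right
    exact mem_image.2 ⟨(i, j, k), mem_filter.2 ⟨mem_filter.2 ⟨mem_univ _, hij, hik, hjk⟩, hR⟩, rfl⟩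
  have hinj : Set.InjOn f (I : Set (Fin N)) := by
    intro i hi j _ hij
    by_contra hne
    refine hg2 i (mem_coe.1 hi) j hne ?_
    rw [← hij]
    exact hrefl _ (hfU i)
  refine ⟨I.image f, fun a ha => ?_, ?_, ?_, ?_⟩
  · obtain ⟨i, _, rfl⟩ := mem_image.1 ha
    exact hfU i
  · rw [card_image_of_injOn hinj]
    omega
  · intro a ha b hb hab
    obtain ⟨i, hi, rfl⟩ := mem_image.1 ha
    obtain ⟨j, hj, rfl⟩ := mem_image.1 hb
    exact hg2 i hi j (fun e => hab (by rw [e]))
  · intro a ha b hb c hc hab hac hbc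
    obtain ⟨i, hi, rfl⟩ := mem_image.1 ha
    obtain ⟨j, hj, rfl⟩ := mem_image.1 hb
    obtain ⟨k, hk, rfl⟩ := mem_image.1 hc
    exact hg3 i hi j k (fun e => hab (by rw [e])) (fun e => hac (by rw [e]))
      (fun e => hbc (by rw [e]))

end Crest.Agent.R32
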