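/- Row 32, pieces DIGINJ, DIGBD: sums of digits.

   `digits_inj`: put `d = a - a'`, `|d i| < q ≤ B`.  If `d ≠ 0`, take `i` with `d i ≠ 0` and `e i` minimal; in
   `0 = Σ_j d j B^(e j)` all terms except `j = i` are divisible by `B^(e i + 1)` (`e j > e i` as `e` is injective, or
   `d j = 0`); so `B ∣ d i`, `|d i| < B`, `d i = 0`: contradiction.

   `digits_bd`: each term is at most `q · B^(R-1)`, at most `R` terms. -/
import Crest.Agent.R32.Defs

set_option autoImplicit false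

namespace Crest.Agent.R32

open Finset

theorem digits_inj {I : Type} [Fintype I] (e : I → ℕ) (he : Function.Injective e) (q B : ℕ) (hq : 0 < q)
    (hqB : q ≤ B) (a a' : I → ℤ) (ha : ∀ i, 0 ≤ a i ∧ a i < q) (ha' : ∀ i, 0 ≤ a' i ∧ a' i < q)
    (h : ∑ i, a i * (B : ℤ) ^ (e i) = ∑ i, a' i * (B : ℤ) ^ (e i)) : a = a' := by
  classical
  by_contra hne
  have hB : (0 : ℤ) < B := by exact_mod_cast lt_of_lt_of_le hq hqB
  have hS : (univ.filter (fun i => a i ≠ a' i)).Nonempty := by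
    by_contra hcon
    rw [not_nonempty_iff_eq_empty] at hcon
    apply hne
    funext i
    by_contra hi
    have : i ∈ univ.filter (fun i => a i ≠ a' i) := mem_filter.2 ⟨mem_univ _, hi⟩
    rw [hcon] at this
    exact absurd this (notMem_empty i)
  obtain ⟨i, hi, hmin⟩ := exists_min_image _ e hS
  rw [mem_filter] at hi
  have h0 : ∑ j, (a j - a' j) * (B : ℤ) ^ (e j) = 0 := by
    simp only [sub_mul]
    rw [sum_sub_distrib, h, sub_self]
  rw [← add_sum_erase univ _ (mem_univ i)] at h0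
  have hdvd : (B : ℤ) ^ (e i + 1) ∣ ∑ j ∈ univ.erase i, (a j - a' j) * (B : ℤ) ^ (e j) := by
    refine dvd_sum fun j hj => ?_
    have hji : j ≠ i := (mem_erase.1 hj).1
    by_cases hj0 : a j = a' j
    · rw [hj0, sub_self, zero_mul]
      exact dvd_zero _
    · have h1 : e i ≤ e j := hmin j (mem_filter.2 ⟨mem_univ _, hj0⟩)
      have h2 : e i ≠ e j := fun h => hji (he h.symm)
      exact Dvd.dvd.mul_left (pow_dvd_pow _ (by omega)) _
  have hd2 : (B : ℤ) ^ (e i + 1) ∣ (a i - a' i) * (B : ℤ) ^ (e i) := by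
    have : (a i - a' i) * (B : ℤ) ^ (e i) =
        -∑ j ∈ univ.erase i, (a j - a' j) * (B : ℤ) ^ (e j) := by linarith
    rw [this]
    exact hdvd.neg_right
  rw [pow_succ, mul_comm ((B : ℤ) ^ e i)] at hd2
  have hd3 : (B : ℤ) ∣ a i - a' i := Int.dvd_of_mul_dvd_mul_right (pow_ne_zero _ hB.ne') hd2
  have habs : |a i - a' i| < B := by
    have h1 := ha i
    have h2 := ha' i
    have h3 : (q : ℤ) ≤ B := by exact_mod_cast hqB
    rw [abs_lt]
    constructor <;> linarith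
  exact hi.2 (sub_eq_zero.1 (Int.eq_zero_of_abs_lt_dvd hd3 habs))

theorem digits_bd {I : Type} [Fintype I] (e : I → ℕ) (R : ℕ) (heR : ∀ i, e i < R)
    (hcard : Fintype.card I ≤ R) (q B : ℕ) (hB : 1 ≤ B) (a : I → ℤ) (ha : ∀ i, 0 ≤ a i ∧ a i < q) :
    0 ≤ ∑ i, a i * (B : ℤ) ^ (e i) ∧ ∑ i, a i * (B : ℤ) ^ (e i) ≤ R * q * (B : ℤ) ^ (R - 1) := by
  have hB0 : (1 : ℤ) ≤ B := by exact_mod_cast hB
  refine ⟨sum_nonneg fun i _ => mul_nonneg (ha i).1 (by positivity), ?_⟩
  calc ∑ i, a i * (B : ℤ) ^ (e i) ≤ ∑ _i : I, (q : ℤ) * (B : ℤ) ^ (R - 1) := by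
        refine sum_le_sum fun i _ => ?_
        have h1 := heR i
        exact mul_le_mul (ha i).2.le (pow_le_pow_right₀ hB0 (by omega)) (by positivity)
          (by positivity)
    _ = (Fintype.card I : ℤ) * ((q : ℤ) * (B : ℤ) ^ (R - 1)) := by
        rw [sum_const, card_univ, nsmul_eq_mul]
    _ ≤ (R : ℤ) * ((q : ℤ) * (B : ℤ) ^ (R - 1)) := by
        have : (Fintype.card I : ℤ) ≤ R := by exact_mod_cast hcard
        exact mul_le_mul_of_nonneg_right this (by positivity)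
    _ = R * q * (B : ℤ) ^ (R - 1) := by ring

end Crest.Agent.R32
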