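/- Row 32, pieces EXTO, CARDR3, CARDR2, MAIN2: the good set of lattice points.

   `exists_TO` (EXTO).  Put `H = Hs (3 Q p) ≥ 1`.  `NBv = 232 Q² p⁷ H`, and, since `p ≤ 3Qp`, `2p² ≤ 3Qp`,
   `NCv ≤ Q (p⁹ + 1152 Q p⁷ H²)`.  With `p² ≤ 16 m Q`: `m Q p^10 ≤ 16 m² Q² p⁸`.  So by `avg` the total sum is
   `≤ p (3 m² NBv + m NCv) ≤ (696 + 16 + 1152) m² Q² p⁸ H² = 1864 m² Q² p⁸ H²`.  `|SL| = Q (Q²-1) ≥ Q³/2`,
   `|Om| ≥ p⁴/2`; so some `(T, ω)` has `Σ cnt ≤ 4 · 1864 m² Q² p⁸ H² / (Q³ p⁴) = 7456 m² p⁴ H² / Q`.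

   `card_R3` (CARDR3): the set of bad triples in `U³`, `U = univ ×ˢ wI p`, has `Σ_s cnt` elements (rearrange the
   product, `Finset.card_filter`/`sum_product`).
   `card_R2` (CARDR2): the pairs in `U²` with the same `w`: `m² p²`.

   `main2` (MAIN2): take `ε` a nonsquare mod `p` (`FiniteField.exists_nonsquare`, `p ≠ 2`), `T, ω` from `exists_TO`, and
   `deletion` for `U = univ ×ˢ wI p`, `R2 a b := a.2 = b.2`, `R3 a b c := (a.2, b.2, c.2 distinct) ∧ κ|det3| < Q`.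
   `h2`: `8 N m² p² ≤ m² p⁴` since `8 N ≤ 250 N H ≤ m Q ≤ p²`.  `h3`:
   `8 N² Σcnt ≤ 8 N² 7456 m² p⁴ H²/Q = 59648 (N H)² m² p⁴ / Q ≤ (m Q)² m² p⁴ / Q = m⁴ Q p⁴ ≤ m³ p⁶`, using
   `59648 ≤ 250²` and `m Q ≤ p²`.  We get `A' ⊆ U`, `N ≤ 2 |A'|`, so `|A'| ≥ 3`.  `A = image` of `A'` under the point
   map `P a = pt T (rs a.1) (bv ε ω a.2) a.2`.  `P` is injective on `A'`: for `a ≠ b` in `A'` take a third
   `c ∈ A'`; `¬ R2` gives distinct `w`s, so `¬ R3` gives `κ |det3 (P a) (P b) (P c)| ≥ Q > 0`, so `P a ≠ P b`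
   (`det3 v v c = 0`).  Ranges by `pt_range` (`bv_mem`).  Triples of distinct points of `A` come from distinct
   triples of `A'`. -/
import Crest.Agent.R32.Avg
import Crest.Agent.R32.Del

set_option autoImplicit false

namespace Crest.Agent.R32

open Finset

theorem exto_bound {Q p m : ℕ} (hp1 : 1 ≤ p) (hQ1 : 1 ≤ Q) (hpQ : p ≤ Q)
    (h2 : p ^ 2 ≤ 16 * m * Q) :
    (p : ℝ) * (3 * (m : ℝ) ^ 2 * NBv Q p + m * NCv Q p) ≤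
      1864 * (m : ℝ) ^ 2 * (Q : ℝ) ^ 2 * (p : ℝ) ^ 8 * Hs (3 * Q * p) ^ 2 := by
  set H : ℝ := Hs (3 * Q * p) with hH
  have hH1 : 1 ≤ H := one_le_Hs (by
    calc 1 ≤ 3 * Q := by omega
      _ ≤ 3 * Q * p := Nat.le_mul_of_pos_right _ hp1)
  have hHp : Hs p ≤ H := Hs_mono (by
    calc p = 1 * p := (one_mul p).symm
      _ ≤ 3 * Q * p := Nat.mul_le_mul_right _ (by omega))
  have hHp2 : Hs (2 * p ^ 2) ≤ H := Hs_mono (by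
    calc 2 * p ^ 2 = 2 * p * p := by ring
      _ ≤ 3 * Q * p := Nat.mul_le_mul_right _ (by omega))
  have hHn : 0 ≤ Hs p := Hs_nonneg _
  have hHn2 : 0 ≤ Hs (2 * p ^ 2) := Hs_nonneg _
  have hHH : H ≤ H ^ 2 := by nlinarith
  have hH2 : 1 ≤ H ^ 2 := le_trans hH1 hHH
  have hmm : (m : ℝ) ≤ (m : ℝ) ^ 2 := by
    have : m ≤ m ^ 2 := by nlinarith [Nat.zero_le m, Nat.le_self_pow (two_ne_zero) m]
    exact_mod_cast this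
  have h2' : (p : ℝ) ^ 2 ≤ 16 * m * Q := by exact_mod_cast h2
  have hQ0 : (0 : ℝ) ≤ Q := Nat.cast_nonneg _
  have hp0 : (0 : ℝ) ≤ p := Nat.cast_nonneg _
  have hm0 : (0 : ℝ) ≤ m := Nat.cast_nonneg _
  have hprod : Hs p * Hs (2 * p ^ 2) ≤ H ^ 2 := by
    calc Hs p * Hs (2 * p ^ 2) ≤ H * H := mul_le_mul hHp hHp2 hHn2 (by linarith)
      _ = H ^ 2 := by ring
  unfold NBv NCv
  rw [← hH]
  have e1 : (p : ℝ) * (3 * (m : ℝ) ^ 2 * (232 * (Q : ℝ) ^ 2 * (p : ℝ) ^ 7 * H)) ≤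
      696 * (m : ℝ) ^ 2 * (Q : ℝ) ^ 2 * (p : ℝ) ^ 8 * H ^ 2 := by
    calc _ = 696 * (m : ℝ) ^ 2 * (Q : ℝ) ^ 2 * (p : ℝ) ^ 8 * H := by ring
      _ ≤ _ := mul_le_mul_of_nonneg_left hHH (by positivity)
  have e2 : (p : ℝ) * (m * (Q * (p : ℝ) ^ 9)) ≤
      16 * (m : ℝ) ^ 2 * (Q : ℝ) ^ 2 * (p : ℝ) ^ 8 * H ^ 2 := by
    calc (p : ℝ) * (m * (Q * (p : ℝ) ^ 9)) = m * Q * (p : ℝ) ^ 8 * (p : ℝ) ^ 2 := by ring
      _ ≤ m * Q * (p : ℝ) ^ 8 * (16 * m * Q) := mul_le_mul_of_nonneg_left h2' (by positivity)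
      _ = 16 * (m : ℝ) ^ 2 * (Q : ℝ) ^ 2 * (p : ℝ) ^ 8 * 1 := by ring
      _ ≤ _ := mul_le_mul_of_nonneg_left hH2 (by positivity)
  have e3 : (p : ℝ) * (m * (Q * (1152 * Q * (p : ℝ) ^ 7 * Hs p * Hs (2 * p ^ 2)))) ≤
      1152 * (m : ℝ) ^ 2 * (Q : ℝ) ^ 2 * (p : ℝ) ^ 8 * H ^ 2 := by
    calc (p : ℝ) * (m * (Q * (1152 * Q * (p : ℝ) ^ 7 * Hs p * Hs (2 * p ^ 2)))) =
        (1152 * (Q : ℝ) ^ 2 * (p : ℝ) ^ 8 * m) * (Hs p * Hs (2 * p ^ 2)) := by ring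
      _ ≤ (1152 * (Q : ℝ) ^ 2 * (p : ℝ) ^ 8 * m) * H ^ 2 :=
        mul_le_mul_of_nonneg_left hprod (by positivity)
      _ = (1152 * (Q : ℝ) ^ 2 * (p : ℝ) ^ 8 * H ^ 2) * m := by ring
      _ ≤ (1152 * (Q : ℝ) ^ 2 * (p : ℝ) ^ 8 * H ^ 2) * (m : ℝ) ^ 2 :=
        mul_le_mul_of_nonneg_left hmm (by positivity)
      _ = _ := by ring
  calc _ = (p : ℝ) * (3 * (m : ℝ) ^ 2 * (232 * (Q : ℝ) ^ 2 * (p : ℝ) ^ 7 * H)) +
      (p : ℝ) * (m * (Q * (p : ℝ) ^ 9)) +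
      (p : ℝ) * (m * (Q * (1152 * Q * (p : ℝ) ^ 7 * Hs p * Hs (2 * p ^ 2)))) := by ring
    _ ≤ _ := by linarith

theorem exists_TO {Q p m : ℕ} [Fact Q.Prime] [Fact p.Prime] (ε : ZMod p) (hε : ¬ IsSquare ε) (κ : ℕ)
    (hκ : 2 ≤ κ) (x y : Fin m → ℤ) (hinj : Function.Injective x) (hx0 : ∀ s, 0 ≤ x s)
    (hxQ : ∀ s, (κ : ℤ) * p * x s < Q) (hP : Good Q p κ x y) (hpQ : p ≤ Q) (h2 : p ^ 2 ≤ 16 * m * Q) :
    ∃ T ∈ SL Q, ∃ ω ∈ Om p,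
      (Q : ℝ) * ((∑ s : Fin m × Fin m × Fin m,
        cnt ε κ T ω (rs Q x y s.1) (rs Q x y s.2.1) (rs Q x y s.2.2) : ℕ) : ℝ)
        ≤ 7456 * (m : ℝ) ^ 2 * (p : ℝ) ^ 4 * Hs (3 * Q * p) ^ 2 := by
  by_contra hcon
  push Not at hcon
  have hp := (Fact.out : p.Prime).two_le
  have hQ := (Fact.out : Q.Prime).two_le
  have hA := avg ε hε κ hκ x y hinj hx0 hxQ hP
  have hB := hA.trans (exto_bound (by omega) (by omega) hpQ h2)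
  set H : ℝ := Hs (3 * Q * p) with hH
  have hSL : ((Q : ℝ)) ^ 3 ≤ 2 * ((SL Q).card : ℝ) := by exact_mod_cast card_SL Q
  have hOm : ((p : ℝ)) ^ 4 ≤ 2 * ((Om p).card : ℝ) := by exact_mod_cast card_Om p
  have hQp : (0 : ℝ) < Q := by exact_mod_cast (by omega : 0 < Q)
  have hpp : (0 : ℝ) < p := by exact_mod_cast (by omega : 0 < p)
  have hSLn : (SL Q).Nonempty := by
    rw [← Finset.card_pos]
    have : 0 < Q ^ 3 := by positivity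
    have := card_SL Q
    omega
  have hOmn : (Om p).Nonempty := by
    rw [← Finset.card_pos]
    have : 0 < p ^ 4 := by positivity
    have := card_Om p
    omega
  -- sum of the strict inequalities
  have h3 : ∑ T ∈ SL Q, ∑ ω ∈ Om p, (7456 * (m : ℝ) ^ 2 * (p : ℝ) ^ 4 * H ^ 2) <
      ∑ T ∈ SL Q, ∑ ω ∈ Om p, (Q : ℝ) * ((∑ s : Fin m × Fin m × Fin m,
        cnt ε κ T ω (rs Q x y s.1) (rs Q x y s.2.1) (rs Q x y s.2.2) : ℕ) : ℝ) :=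
    Finset.sum_lt_sum_of_nonempty hSLn (fun T hT =>
      Finset.sum_lt_sum_of_nonempty hOmn (fun ω hω => hcon T hT ω hω))
  have h4 : ∑ T ∈ SL Q, ∑ ω ∈ Om p, (Q : ℝ) * ((∑ s : Fin m × Fin m × Fin m,
        cnt ε κ T ω (rs Q x y s.1) (rs Q x y s.2.1) (rs Q x y s.2.2) : ℕ) : ℝ) =
      (Q : ℝ) * ((∑ T ∈ SL Q, ∑ ω ∈ Om p, ∑ s : Fin m × Fin m × Fin m,
        cnt ε κ T ω (rs Q x y s.1) (rs Q x y s.2.1) (rs Q x y s.2.2) : ℕ) : ℝ) := by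
    push_cast
    simp only [Finset.mul_sum]
  rw [h4] at h3
  simp only [Finset.sum_const, nsmul_eq_mul] at h3
  have h5 : (Q : ℝ) * ((∑ T ∈ SL Q, ∑ ω ∈ Om p, ∑ s : Fin m × Fin m × Fin m,
        cnt ε κ T ω (rs Q x y s.1) (rs Q x y s.2.1) (rs Q x y s.2.2) : ℕ) : ℝ) ≤
      (Q : ℝ) * (1864 * (m : ℝ) ^ 2 * (Q : ℝ) ^ 2 * (p : ℝ) ^ 8 * H ^ 2) :=
    mul_le_mul_of_nonneg_left hB hQp.le
  have h6 : (Q : ℝ) * (1864 * (m : ℝ) ^ 2 * (Q : ℝ) ^ 2 * (p : ℝ) ^ 8 * H ^ 2) ≤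
      ((SL Q).card : ℝ) * (((Om p).card : ℝ) * (7456 * (m : ℝ) ^ 2 * (p : ℝ) ^ 4 * H ^ 2)) := by
    have h7 : (Q : ℝ) ^ 3 * (p : ℝ) ^ 4 ≤ (2 * ((SL Q).card : ℝ)) * (2 * ((Om p).card : ℝ)) :=
      mul_le_mul hSL hOm (by positivity) (by positivity)
    have h8 : (0 : ℝ) ≤ 1864 * (m : ℝ) ^ 2 * (p : ℝ) ^ 4 * H ^ 2 := by positivity
    have h9 := mul_le_mul_of_nonneg_left h7 h8
    calc _ = 1864 * (m : ℝ) ^ 2 * (p : ℝ) ^ 4 * H ^ 2 * ((Q : ℝ) ^ 3 * (p : ℝ) ^ 4) := by ring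
      _ ≤ _ := h9
      _ = _ := by ring
  linarith

/-- the candidate point -/
def Pp {Q p m : ℕ} (ε : ZMod p) (T : M2 Q) (ω : ZMod p × ZMod p × ZMod p × ZMod p) (x y : Fin m → ℤ)
    (a : Fin m × (ℤ × ℤ)) : ℤ × ℤ := pt T (rs Q x y a.1) (bv ε ω a.2) a.2

theorem card_R3 {Q p m : ℕ} (ε : ZMod p) (κ : ℕ) (T : M2 Q) (ω : ZMod p × ZMod p × ZMod p × ZMod p)
    (x y : Fin m → ℤ) :
    ((((univ : Finset (Fin m)) ×ˢ wI p) ×ˢ ((univ : Finset (Fin m)) ×ˢ wI p) ×ˢ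
        ((univ : Finset (Fin m)) ×ˢ wI p)).filter (fun z =>
          (z.1.2 ≠ z.2.1.2 ∧ z.1.2 ≠ z.2.2.2 ∧ z.2.1.2 ≠ z.2.2.2) ∧
          (κ : ℤ) * |det3 (Pp ε T ω x y z.1) (Pp ε T ω x y z.2.1) (Pp ε T ω x y z.2.2)| < Q)).card
      = ∑ s : Fin m × Fin m × Fin m,
        cnt ε κ T ω (rs Q x y s.1) (rs Q x y s.2.1) (rs Q x y s.2.2) := by
  rw [Finset.card_eq_sum_card_fiberwise
    (f := fun z : (Fin m × (ℤ × ℤ)) × (Fin m × (ℤ × ℤ)) × (Fin m × (ℤ × ℤ)) =>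
      (z.1.1, z.2.1.1, z.2.2.1)) (t := univ) (fun _ _ => mem_univ _)]
  refine Finset.sum_congr rfl fun s _ => ?_
  unfold cnt
  refine Finset.card_bij (fun z _ => (z.1.2, z.2.1.2, z.2.2.2)) ?_ ?_ ?_
  · rintro ⟨⟨s1, w1⟩, ⟨s2, w2⟩, ⟨s3, w3⟩⟩ hz
    simp only [mem_filter, mem_product, mem_univ, true_and] at hz ⊢
    obtain ⟨⟨⟨h1, h2, h3⟩, h4, h5⟩, h6⟩ := hz
    subst h6
    exact ⟨⟨h1, h2, h3⟩, h4, h5⟩
  · rintro ⟨⟨s1, w1⟩, ⟨s2, w2⟩, ⟨s3, w3⟩⟩ hz ⟨⟨s1', w1'⟩, ⟨s2', w2'⟩, ⟨s3', w3'⟩⟩ hz' heq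
    simp only [mem_filter] at hz hz'
    have h1 := hz.2.trans hz'.2.symm
    simp only [Prod.mk.injEq] at h1 heq ⊢
    exact ⟨⟨h1.1, heq.1⟩, ⟨h1.2.1, heq.2.1⟩, ⟨h1.2.2, heq.2.2⟩⟩
  · rintro ⟨w1, w2, w3⟩ hw
    simp only [mem_filter, mem_product] at hw
    refine ⟨((s.1, w1), (s.2.1, w2), (s.2.2, w3)), ?_, rfl⟩
    simp only [mem_filter, mem_product, mem_univ, true_and]
    exact ⟨⟨⟨hw.1.1, hw.1.2.1, hw.1.2.2⟩, hw.2.1, hw.2.2⟩, trivial⟩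

theorem card_R2 (p m : ℕ) :
    ((((univ : Finset (Fin m)) ×ˢ wI p) ×ˢ ((univ : Finset (Fin m)) ×ˢ wI p)).filter
      (fun z => z.1.2 = z.2.2)).card = m ^ 2 * p ^ 2 := by
  have h1 : (wI p).card = p ^ 2 := by
    simp only [wI, bI, Finset.card_product, Int.card_Ico, sub_zero, Int.toNat_natCast]
    ring
  have h2 : ((((univ : Finset (Fin m)) ×ˢ wI p) ×ˢ ((univ : Finset (Fin m)) ×ˢ wI p)).filter
      (fun z => z.1.2 = z.2.2)).card =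
      ((univ : Finset (Fin m)) ×ˢ (univ : Finset (Fin m)) ×ˢ wI p).card := by
    refine Finset.card_bij (fun z _ => (z.1.1, z.2.1, z.1.2)) ?_ ?_ ?_
    · rintro ⟨⟨s1, w1⟩, ⟨s2, w2⟩⟩ hz
      simp only [mem_filter, mem_product, mem_univ, true_and] at hz ⊢
      exact hz.1.1
    · rintro ⟨⟨s1, w1⟩, ⟨s2, w2⟩⟩ hz ⟨⟨s1', w1'⟩, ⟨s2', w2'⟩⟩ hz' heq
      simp only [mem_filter] at hz hz'
      simp only [Prod.mk.injEq] at heq ⊢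
      exact ⟨⟨heq.1, heq.2.2⟩, heq.2.1, (hz.2.symm.trans heq.2.2).trans hz'.2⟩
    · rintro ⟨s1, s2, w⟩ hw
      simp only [mem_product, mem_univ, true_and] at hw
      refine ⟨((s1, w), (s2, w)), ?_, rfl⟩
      simp only [mem_filter, mem_product, mem_univ, true_and]
      exact ⟨⟨hw, hw⟩, trivial⟩
  rw [h2, Finset.card_product, Finset.card_product, h1, Finset.card_univ, Fintype.card_fin]
  ring

theorem main2 (Q p κ m N : ℕ) [Fact Q.Prime] [Fact p.Prime] (hκ : 2 ≤ κ) (hp2 : p ≠ 2)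
    (x y : Fin m → ℤ) (hinj : Function.Injective x) (hx0 : ∀ s, 0 ≤ x s)
    (hxQ : ∀ s, (κ : ℤ) * p * x s < Q) (hP : Good Q p κ x y) (hpQ : p ≤ Q)
    (h1 : m * Q ≤ p ^ 2) (h2 : p ^ 2 ≤ 16 * m * Q) (hN : 250 * (N : ℝ) * Hs (3 * Q * p) ≤ m * Q)
    (hN6 : 6 ≤ N) :
    ∃ A : Finset (ℤ × ℤ), N ≤ 2 * A.card ∧
      (∀ a ∈ A, 0 ≤ a.1 ∧ a.1 ≤ 3 * Q * p ∧ 0 ≤ a.2 ∧ a.2 ≤ 3 * Q * p) ∧
      ∀ a ∈ A, ∀ b ∈ A, ∀ c ∈ A, a ≠ b → a ≠ c → b ≠ c → (Q : ℤ) ≤ (κ : ℤ) * |det3 a b c| := by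
  have hQ0 : 0 < Q := (Fact.out : Q.Prime).pos
  have hp0 : 0 < p := (Fact.out : p.Prime).pos
  obtain ⟨ε, hε⟩ := FiniteField.exists_nonsquare (F := ZMod p) (by rwa [ZMod.ringChar_zmod_n])
  obtain ⟨T, hT, ω, hω, hsum⟩ := exists_TO ε hε κ hκ x y hinj hx0 hxQ hP hpQ h2
  have hH : 1 ≤ Hs (3 * Q * p) := one_le_Hs (Nat.mul_pos (Nat.mul_pos (by norm_num) hQ0) hp0)
  set H := Hs (3 * Q * p) with hHdef
  have hNH : (N : ℝ) ≤ N * H := le_mul_of_one_le_right (by positivity) hH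
  have hmQ : (250 : ℝ) * N ≤ m * Q := by nlinarith
  have hmQ' : 250 * N ≤ m * Q := by exact_mod_cast hmQ
  have hm : 0 < m := by
    rcases Nat.eq_zero_or_pos m with h | h
    · rw [h, zero_mul] at hmQ'
      omega
    · exact h
  have hbc : (bI p).card = p := by simp [bI]
  have hwc : (wI p).card = p ^ 2 := by rw [wI, card_product, hbc]; ring
  have hUc : ((univ : Finset (Fin m)) ×ˢ wI p).card = m * p ^ 2 := by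
    rw [card_product, hwc, card_univ, Fintype.card_fin]
  have hUn : ((univ : Finset (Fin m)) ×ˢ wI p).Nonempty := by
    rw [← card_pos, hUc]
    positivity
  have hD2 : 8 * N * ((((univ : Finset (Fin m)) ×ˢ wI p) ×ˢ ((univ : Finset (Fin m)) ×ˢ wI p)).filter
      (fun z => z.1.2 = z.2.2)).card ≤ ((univ : Finset (Fin m)) ×ˢ wI p).card ^ 2 := by
    rw [card_R2, hUc]
    have h8 : 8 * N ≤ p ^ 2 := by omega
    calc 8 * N * (m ^ 2 * p ^ 2) ≤ p ^ 2 * (m ^ 2 * p ^ 2) := Nat.mul_le_mul_right _ h8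
      _ = (m * p ^ 2) ^ 2 := by ring
  have hD3 : 8 * N ^ 2 * ((((univ : Finset (Fin m)) ×ˢ wI p) ×ˢ ((univ : Finset (Fin m)) ×ˢ wI p) ×ˢ
        ((univ : Finset (Fin m)) ×ˢ wI p)).filter (fun z =>
          (z.1.2 ≠ z.2.1.2 ∧ z.1.2 ≠ z.2.2.2 ∧ z.2.1.2 ≠ z.2.2.2) ∧
          (κ : ℤ) * |det3 (Pp ε T ω x y z.1) (Pp ε T ω x y z.2.1) (Pp ε T ω x y z.2.2)| < Q)).card
        ≤ ((univ : Finset (Fin m)) ×ˢ wI p).card ^ 3 := by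
    rw [card_R3, hUc]
    generalize (∑ s : Fin m × Fin m × Fin m,
        cnt ε κ T ω (rs Q x y s.1) (rs Q x y s.2.1) (rs Q x y s.2.2)) = S at hsum ⊢
    have hQR : (0 : ℝ) < Q := by exact_mod_cast hQ0
    have hsq : (250 * (N : ℝ) * H) ^ 2 ≤ ((m : ℝ) * Q) ^ 2 :=
      pow_le_pow_left₀ (by positivity) hN 2
    have h1R : (m : ℝ) * Q ≤ (p : ℝ) ^ 2 := by exact_mod_cast h1
    have key : (Q : ℝ) * (8 * (N : ℝ) ^ 2 * S) ≤ Q * ((m : ℝ) * (p : ℝ) ^ 2) ^ 3 := by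
      calc (Q : ℝ) * (8 * (N : ℝ) ^ 2 * S) = 8 * (N : ℝ) ^ 2 * (Q * S) := by ring
        _ ≤ 8 * (N : ℝ) ^ 2 * (7456 * (m : ℝ) ^ 2 * (p : ℝ) ^ 4 * H ^ 2) :=
            mul_le_mul_of_nonneg_left hsum (by positivity)
        _ = 59648 * ((N : ℝ) * H) ^ 2 * ((m : ℝ) ^ 2 * (p : ℝ) ^ 4) := by ring
        _ ≤ 62500 * ((N : ℝ) * H) ^ 2 * ((m : ℝ) ^ 2 * (p : ℝ) ^ 4) := by gcongr; norm_num
        _ = (250 * (N : ℝ) * H) ^ 2 * ((m : ℝ) ^ 2 * (p : ℝ) ^ 4) := by ring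
        _ ≤ ((m : ℝ) * Q) ^ 2 * ((m : ℝ) ^ 2 * (p : ℝ) ^ 4) := by gcongr
        _ = Q * ((m : ℝ) ^ 3 * (p : ℝ) ^ 4 * ((m : ℝ) * Q)) := by ring
        _ ≤ Q * ((m : ℝ) ^ 3 * (p : ℝ) ^ 4 * (p : ℝ) ^ 2) := by gcongr
        _ = Q * ((m : ℝ) * (p : ℝ) ^ 2) ^ 3 := by ring
    have key2 := le_of_mul_le_mul_left key hQR
    exact_mod_cast key2
  obtain ⟨A', hA'U, hA'c, hA'2, hA'3⟩ := deletion ((univ : Finset (Fin m)) ×ˢ wI p) hUn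
    (fun a b => a.2 = b.2)
    (fun a b c => (a.2 ≠ b.2 ∧ a.2 ≠ c.2 ∧ b.2 ≠ c.2) ∧
      (κ : ℤ) * |det3 (Pp ε T ω x y a) (Pp ε T ω x y b) (Pp ε T ω x y c)| < Q)
    (fun a _ => rfl) N hD2 hD3
  have hbig : ∀ a ∈ A', ∀ b ∈ A', ∀ c ∈ A', a ≠ b → a ≠ c → b ≠ c →
      (Q : ℤ) ≤ (κ : ℤ) * |det3 (Pp ε T ω x y a) (Pp ε T ω x y b) (Pp ε T ω x y c)| := by
    intro a ha b hb c hc hab hac hbc
    by_contra hlt
    rw [not_le] at hlt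
    exact hA'3 a ha b hb c hc hab hac hbc ⟨⟨hA'2 a ha b hb hab, hA'2 a ha c hc hac,
      hA'2 b hb c hc hbc⟩, hlt⟩
  have hPinj : Set.InjOn (Pp ε T ω x y) (A' : Set (Fin m × (ℤ × ℤ))) := by
    intro a ha b hb hab
    by_contra hne
    rw [mem_coe] at ha hb
    obtain ⟨c, hc, hcab⟩ : ∃ c ∈ A', c ∉ ({a, b} : Finset (Fin m × (ℤ × ℤ))) := by
      apply Finset.exists_mem_notMem_of_card_lt_card
      have := Finset.card_le_two (a := a) (b := b)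
      omega
    rw [mem_insert, mem_singleton, not_or] at hcab
    have h3 := hbig a ha b hb c hc hne (Ne.symm hcab.1) (Ne.symm hcab.2)
    rw [hab] at h3
    have h0 : det3 (Pp ε T ω x y b) (Pp ε T ω x y b) (Pp ε T ω x y c) = 0 := by
      unfold det3
      ring
    rw [h0, abs_zero, mul_zero] at h3
    omega
  refine ⟨A'.image (Pp ε T ω x y), ?_, ?_, ?_⟩
  · rw [card_image_of_injOn hPinj]
    exact hA'c
  · intro a ha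
    obtain ⟨a', ha', rfl⟩ := mem_image.1 ha
    have := hA'U ha'
    rw [mem_product] at this
    exact pt_range T (rs Q x y a'.1) (bv ε ω a'.2) a'.2 (bv_mem ε ω a'.2) this.2
  · intro a ha b hb c hc hab hac hbc
    obtain ⟨a', ha', rfl⟩ := mem_image.1 ha
    obtain ⟨b', hb', rfl⟩ := mem_image.1 hb
    obtain ⟨c', hc', rfl⟩ := mem_image.1 hc
    exact hbig a' ha' b' hb' c' hc' (fun e => hab (by rw [e])) (fun e => hac (by rw [e]))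
      (fun e => hbc (by rw [e]))

end Crest.Agent.R32
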