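/- Row 32, pieces FIN1A, FIN1B, FIN1C, FIN1: choice of the primes, scaling.

   `exists_Qp` (FIN1A): `Q` prime, `q^(16R+8) < Q ≤ 2 q^(16R+8)` (`Nat.exists_prime_lt_and_le_two_mul`).
   `t = Nat.sqrt (q^5 Q) + 1`, `p` prime with `t < p ≤ 2 t`: `p² > t² > q^5 Q` and
   `p² ≤ 4 (√+1)² ≤ 16 (√)² ≤ 16 q^5 Q`.  `(p q^(8R))² ≤ 16 q^(5+16R) Q ≤ q^(16R+8) Q ≤ Q²` (`q ≥ 16`).
   `p ≠ 2` since `p² ≥ q^5 Q > 4`.

   `Hs_small` (FIN1B): `Hs Y ≤ 1 + log Y` for `Y ≥ 1` (`harmonic_le_one_add_log` after identifying `Hs` with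
   `harmonic`), so `Hs Y ≤ 1 + log 12 + 2 E log q`, and `(2000 (a + b log q))^4 ≤ q` for large `q`
   (`isLittleO_log_rpow_atTop` with exponent `1/4`, or `Real.isLittleO_pow_log_id_atTop`).

   `scale` (FIN1C): take a subset of `A` of size `n`, map by `v ↦ (v.1/Z, v.2/Z)` (injective); the determinant is
   divided by `Z²`.

   `fin1` (FIN1): `Rt, q0` from `exists_residues`, `E = 16 Rt + 8`, `Q, p` from `exists_Qp` with `R = Rt`,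
   `m = q^5`, `κ = 4 q^4`, `N = 2 n + 6`.  `Y = 3 Q p ≤ 3 Q² ≤ 12 q^(2E)`, `h = Hs Y`.
   `250 N h = 250 (2n+6) h ≤ 2000 n h` and `(2000 n h)^4 ≤ q n^4 ≤ q^(4E+20) = (q^(E+5))^4 ≤ (m Q)^4`.
   `main2` gives `A`, `|A| ≥ n + 3`; `scale` with `Z = 3 Q p`: determinants `≥ Q/(4 q^4 · 9 Q² p²)
   ≥ 1/(36 q^4 · 16 q^5 Q²) ≥ 1/(36 · 16 · 4 · q^(9 + 2E)) = 1/(2304 q^(2E+9))`. -/
import Crest.Agent.R32.Main2
import Crest.Agent.R32.Res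

set_option autoImplicit false

namespace Crest.Agent.R32

open Finset

theorem exists_Qp (R q : ℕ) (hq : 16 ≤ q) : ∃ Q p : ℕ, Q.Prime ∧ p.Prime ∧ p ≠ 2 ∧
    q ^ (16 * R + 8) < Q ∧ Q ≤ 2 * q ^ (16 * R + 8) ∧ q ^ 5 * Q ≤ p ^ 2 ∧ p ^ 2 ≤ 16 * q ^ 5 * Q ∧
    p * q ^ (8 * R) ≤ Q ∧ p ≤ Q := by
  have hq0 : 0 < q := by omega
  have hN : 0 < q ^ (16 * R + 8) := Nat.pow_pos hq0
  obtain ⟨Q, hQ, hQ1, hQ2⟩ := Nat.exists_prime_lt_and_le_two_mul (q ^ (16 * R + 8)) hN.ne'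
  have hM : 0 < q ^ 5 * Q := Nat.mul_pos (Nat.pow_pos hq0) hQ.pos
  obtain ⟨s, hs⟩ : ∃ s, s = Nat.sqrt (q ^ 5 * Q) := ⟨_, rfl⟩
  have hs1 : s ^ 2 ≤ q ^ 5 * Q := by rw [hs]; exact Nat.sqrt_le' _
  have hs2 : q ^ 5 * Q < (s + 1) ^ 2 := by rw [hs]; exact Nat.lt_succ_sqrt' _
  have hs0 : 1 ≤ s := by rw [hs]; exact Nat.sqrt_pos.2 hM
  obtain ⟨p, hp, hp1, hp2⟩ := Nat.exists_prime_lt_and_le_two_mul (s + 1) (by omega)
  have h1 : q ^ 5 * Q ≤ p ^ 2 := by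
    have : (s + 1) ^ 2 ≤ p ^ 2 := Nat.pow_le_pow_left hp1.le 2
    omega
  have h2 : p ^ 2 ≤ 16 * (q ^ 5 * Q) := by
    have h3 : p ^ 2 ≤ (4 * s) ^ 2 := Nat.pow_le_pow_left (by omega) 2
    have h4 : (4 * s) ^ 2 = 16 * s ^ 2 := by ring
    rw [h4] at h3
    omega
  have h5 : p * q ^ (8 * R) < Q := by
    have h6 : (p * q ^ (8 * R)) ^ 2 < Q ^ 2 := by
      calc (p * q ^ (8 * R)) ^ 2 = p ^ 2 * q ^ (16 * R) := by
            rw [mul_pow, ← pow_mul]; ring_nf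
        _ ≤ 16 * (q ^ 5 * Q) * q ^ (16 * R) := Nat.mul_le_mul_right _ h2
        _ = 16 * (q ^ (16 * R + 5) * Q) := by rw [pow_add]; ring
        _ ≤ q * (q ^ (16 * R + 5) * Q) := Nat.mul_le_mul_right _ hq
        _ = q ^ (16 * R + 6) * Q := by rw [show 16 * R + 6 = (16 * R + 5) + 1 by ring, pow_succ]; ring
        _ ≤ q ^ (16 * R + 8) * Q := Nat.mul_le_mul_right _ (Nat.pow_le_pow_right hq0 (by omega))
        _ < Q * Q := Nat.mul_lt_mul_of_pos_right hQ1 hQ.pos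
        _ = Q ^ 2 := by ring
    exact lt_of_pow_lt_pow_left₀ 2 (Nat.zero_le _) h6
  refine ⟨Q, p, hQ, hp, by omega, hQ1, hQ2, h1, ?_, h5.le, ?_⟩
  · rw [mul_assoc]; exact h2
  · exact (Nat.le_mul_of_pos_right p (Nat.pow_pos hq0)).trans h5.le

private theorem Hs_le_log {Y : ℕ} : Hs Y ≤ 1 + Real.log Y := by
  have h : Hs Y = ((harmonic Y : ℚ) : ℝ) := by
    unfold Hs harmonic
    push_cast
    refine Finset.sum_congr rfl fun k _ => ?_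
    rw [one_div]
  rw [h]
  exact harmonic_le_one_add_log Y

theorem Hs_small (E : ℕ) : ∃ q0 : ℕ, ∀ q : ℕ, q0 ≤ q → ∀ Y : ℕ, Y ≤ 12 * q ^ (2 * E) →
    (2000 * Hs Y) ^ 4 ≤ (q : ℝ) := by
  obtain ⟨C, hC⟩ : ∃ C : ℝ, C = 1 + Real.log 12 + 2 * E := ⟨_, rfl⟩
  have hl12 : 0 ≤ Real.log 12 := Real.log_nonneg (by norm_num)
  have hE0 : (0 : ℝ) ≤ E := Nat.cast_nonneg E
  have hC1 : 1 ≤ C := by rw [hC]; linarith
  have hD : 0 < (2000 * C) ^ 4 := by positivity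
  have h1 := (Real.isLittleO_pow_log_id_atTop (n := 4)).bound (inv_pos.2 hD)
  have h2 : ∀ᶠ x : ℝ in Filter.atTop, 3 ≤ x := Filter.eventually_ge_atTop 3
  obtain ⟨x0, hx0⟩ := (h1.and h2).exists_forall_of_atTop
  refine ⟨⌈x0⌉₊, fun q hq Y hY => ?_⟩
  obtain ⟨h3, h4⟩ := hx0 q (Nat.ceil_le.1 hq)
  have hq0 : (0 : ℝ) < q := by linarith
  have hlog1 : 1 ≤ Real.log q := by
    rw [Real.le_log_iff_exp_le hq0]
    exact (Real.exp_one_lt_d9.le.trans (by norm_num)).trans h4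
  simp only [id, Real.norm_eq_abs] at h3
  rw [abs_of_nonneg (by positivity), abs_of_pos hq0] at h3
  have h5 : Hs Y ≤ C * Real.log q := by
    rcases Nat.eq_zero_or_pos Y with rfl | hY0
    · have : Hs 0 = 0 := by simp [Hs]
      rw [this]; positivity
    · have hYR : (Y : ℝ) ≤ 12 * (q : ℝ) ^ (2 * E) := by exact_mod_cast hY
      have h6 : Real.log Y ≤ Real.log 12 + 2 * E * Real.log q := by
        refine (Real.log_le_log (by exact_mod_cast hY0) hYR).trans ?_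
        rw [Real.log_mul (by norm_num) (by positivity), Real.log_pow]
        push_cast
        exact le_rfl
      refine Hs_le_log.trans ?_
      rw [hC]
      nlinarith
  have h7 : (2000 * Hs Y) ^ 4 ≤ (2000 * (C * Real.log q)) ^ 4 := by
    have := Hs_nonneg Y
    gcongr
  refine h7.trans ?_
  have h8 : (2000 * (C * Real.log q)) ^ 4 = (2000 * C) ^ 4 * Real.log q ^ 4 := by ring
  rw [h8]
  calc (2000 * C) ^ 4 * Real.log q ^ 4 ≤ (2000 * C) ^ 4 * (((2000 * C) ^ 4)⁻¹ * (q : ℝ)) := by gcongr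
    _ = (q : ℝ) := by rw [← mul_assoc, mul_inv_cancel₀ hD.ne', one_mul]

theorem scale (Z Q κ n : ℕ) (hZ : 0 < Z) (hκ : 0 < κ) (A : Finset (ℤ × ℤ)) (hn : n ≤ A.card)
    (hA : ∀ a ∈ A, 0 ≤ a.1 ∧ a.1 ≤ Z ∧ 0 ≤ a.2 ∧ a.2 ≤ Z)
    (hdet : ∀ a ∈ A, ∀ b ∈ A, ∀ c ∈ A, a ≠ b → a ≠ c → b ≠ c → (Q : ℤ) ≤ (κ : ℤ) * |det3 a b c|) :
    ∃ P : Finset (ℝ × ℝ), P.card = n ∧ (∀ a ∈ P, 0 ≤ a.1 ∧ a.1 ≤ 1 ∧ 0 ≤ a.2 ∧ a.2 ≤ 1) ∧
      ∀ a ∈ P, ∀ b ∈ P, ∀ c ∈ P, a ≠ b → a ≠ c → b ≠ c →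
        (Q : ℝ) / ((κ : ℝ) * (Z : ℝ) ^ 2) ≤ |det3 a b c| := by
  classical
  obtain ⟨B, hBA, hBn⟩ := Finset.exists_subset_card_eq hn
  have hZr : (0 : ℝ) < Z := by exact_mod_cast hZ
  have hκr : (0 : ℝ) < κ := by exact_mod_cast hκ
  let f : ℤ × ℤ → ℝ × ℝ := fun v => ((v.1 : ℝ) / Z, (v.2 : ℝ) / Z)
  have hf : Function.Injective f := by
    intro a b h
    simp only [f, Prod.mk.injEq] at h
    have h1 : (a.1 : ℝ) = b.1 := by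
      have := h.1
      field_simp at this
      exact this
    have h2 : (a.2 : ℝ) = b.2 := by
      have := h.2
      field_simp at this
      exact this
    exact Prod.ext (by exact_mod_cast h1) (by exact_mod_cast h2)
  have hdetf : ∀ a b c : ℤ × ℤ, det3 (f a) (f b) (f c) = ((det3 a b c : ℤ) : ℝ) / (Z : ℝ) ^ 2 := by
    intro a b c
    simp only [det3, f]
    push_cast
    field_simp
  refine ⟨B.image f, ?_, ?_, ?_⟩
  · rw [Finset.card_image_of_injective _ hf, hBn]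
  · intro a ha
    obtain ⟨v, hv, rfl⟩ := Finset.mem_image.1 ha
    obtain ⟨h1, h2, h3, h4⟩ := hA v (hBA hv)
    have h1' : (0 : ℝ) ≤ v.1 := by exact_mod_cast h1
    have h2' : (v.1 : ℝ) ≤ Z := by exact_mod_cast h2
    have h3' : (0 : ℝ) ≤ v.2 := by exact_mod_cast h3
    have h4' : (v.2 : ℝ) ≤ Z := by exact_mod_cast h4
    exact ⟨div_nonneg h1' hZr.le, (div_le_one hZr).2 h2', div_nonneg h3' hZr.le,
      (div_le_one hZr).2 h4'⟩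
  · intro a ha b hb c hc hab hac hbc
    obtain ⟨u, hu, rfl⟩ := Finset.mem_image.1 ha
    obtain ⟨v, hv, rfl⟩ := Finset.mem_image.1 hb
    obtain ⟨w, hw, rfl⟩ := Finset.mem_image.1 hc
    have huv : u ≠ v := fun h => hab (by rw [h])
    have huw : u ≠ w := fun h => hac (by rw [h])
    have hvw : v ≠ w := fun h => hbc (by rw [h])
    have h := hdet u (hBA hu) v (hBA hv) w (hBA hw) huv huw hvw
    have h' : (Q : ℝ) ≤ κ * |((det3 u v w : ℤ) : ℝ)| := by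
      rw [← Int.cast_abs]
      exact_mod_cast h
    rw [hdetf, abs_div, abs_of_pos (pow_pos hZr 2), div_le_div_iff₀ (by positivity) (by positivity)]
    calc (Q : ℝ) * (Z : ℝ) ^ 2 ≤ (κ * |((det3 u v w : ℤ) : ℝ)|) * (Z : ℝ) ^ 2 := by
          gcongr
      _ = |((det3 u v w : ℤ) : ℝ)| * (κ * (Z : ℝ) ^ 2) := by ring

theorem fin1 : ∃ E q0 : ℕ, ∀ q : ℕ, q.Prime → q0 ≤ q → ∀ n : ℕ, 1 ≤ n → n ^ 4 ≤ q ^ (4 * E + 19) →
    ∃ P : Finset (ℝ × ℝ), P.card = n ∧ (∀ a ∈ P, 0 ≤ a.1 ∧ a.1 ≤ 1 ∧ 0 ≤ a.2 ∧ a.2 ≤ 1) ∧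
      ∀ a ∈ P, ∀ b ∈ P, ∀ c ∈ P, a ≠ b → a ≠ c → b ≠ c →
        1 / (4608 * (q : ℝ) ^ (2 * E + 9)) ≤ |det3 a b c| / 2 := by
  obtain ⟨Rt, q1, _, hres⟩ := exists_residues
  obtain ⟨q2, hHs⟩ := Hs_small (16 * Rt + 8)
  refine ⟨16 * Rt + 8, max (max q1 q2) 16, fun q hq hqq n hn hn4 => ?_⟩
  have hq1 : q1 ≤ q := le_trans (le_trans (le_max_left _ _) (le_max_left _ _)) hqq
  have hq2 : q2 ≤ q := le_trans (le_trans (le_max_right _ _) (le_max_left _ _)) hqq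
  have hq16 : 16 ≤ q := le_trans (le_max_right _ _) hqq
  obtain ⟨Q, p, hQ, hp, hp2, hQ1, hQ2, h1, h2, hpR, hpQ⟩ := exists_Qp Rt q hq16
  set E := 16 * Rt + 8 with hE
  haveI : Fact Q.Prime := ⟨hQ⟩
  haveI : Fact p.Prime := ⟨hp⟩
  obtain ⟨x, y, hinj, hx0, hxQ, hgood⟩ := hres q hq hq1 Q p hp.pos hpR
  have hY : 3 * Q * p ≤ 12 * q ^ (2 * E) := by
    calc 3 * Q * p ≤ 3 * Q * Q := Nat.mul_le_mul_left _ hpQ
      _ ≤ 3 * (2 * q ^ E) * (2 * q ^ E) := Nat.mul_le_mul (Nat.mul_le_mul_left _ hQ2) hQ2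
      _ = 12 * q ^ (2 * E) := by rw [two_mul E, pow_add]; ring
  have hh := hHs q hq2 (3 * Q * p) hY
  set h := Hs (3 * Q * p) with hhdef
  have hh0 : 0 ≤ h := Hs_nonneg _
  have hqR : (0 : ℝ) < q := by exact_mod_cast hq.pos
  have hn4R : (n : ℝ) ^ 4 ≤ (q : ℝ) ^ (4 * E + 19) := by exact_mod_cast hn4
  have hmain : 2000 * (n : ℝ) * h ≤ (q : ℝ) ^ 5 * Q := by
    have e1 : (2000 * (n : ℝ) * h) ^ 4 ≤ ((q : ℝ) ^ 5 * Q) ^ 4 := by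
      calc (2000 * (n : ℝ) * h) ^ 4 = (n : ℝ) ^ 4 * (2000 * h) ^ 4 := by ring
        _ ≤ (q : ℝ) ^ (4 * E + 19) * q :=
            mul_le_mul hn4R hh (by positivity) (by positivity)
        _ = ((q : ℝ) ^ 5 * (q : ℝ) ^ E) ^ 4 := by ring
        _ ≤ ((q : ℝ) ^ 5 * Q) ^ 4 := by
            refine pow_le_pow_left₀ (by positivity) ?_ 4
            refine mul_le_mul_of_nonneg_left ?_ (by positivity)
            exact_mod_cast hQ1.le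
    exact le_of_pow_le_pow_left₀ (by norm_num) (by positivity) e1
  have hN : 250 * ((2 * n + 6 : ℕ) : ℝ) * Hs (3 * Q * p) ≤ ((q ^ 5 : ℕ) : ℝ) * Q := by
    push_cast
    have hn1 : (1 : ℝ) ≤ n := by exact_mod_cast hn
    have e2 : 250 * (2 * (n : ℝ) + 6) ≤ 2000 * n := by linarith
    calc 250 * (2 * (n : ℝ) + 6) * h ≤ 2000 * n * h := mul_le_mul_of_nonneg_right e2 hh0
      _ ≤ (q : ℝ) ^ 5 * Q := hmain
  obtain ⟨A, hA1, hA2, hA3⟩ := main2 Q p (4 * q ^ 4) (q ^ 5) (2 * n + 6)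
    (by nlinarith [Nat.one_le_pow 4 q hq.pos]) hp2 x y hinj hx0 hxQ hgood hpQ h1 h2 hN (by omega)
  obtain ⟨P, hP1, hP2, hP3⟩ := scale (3 * Q * p) Q (4 * q ^ 4) n
    (Nat.mul_pos (Nat.mul_pos (by norm_num) hQ.pos) hp.pos)
    (Nat.mul_pos (by norm_num) (Nat.pow_pos hq.pos)) A (by omega)
    (fun a ha => by
      have := hA2 a ha
      push_cast
      exact this) hA3
  refine ⟨P, hP1, hP2, fun a ha b hb c hc hab hac hbc => ?_⟩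
  have h5 := hP3 a ha b hb c hc hab hac hbc
  have hQR : (0 : ℝ) < Q := by exact_mod_cast hQ.pos
  have hpR0 : (0 : ℝ) < p := by exact_mod_cast hp.pos
  have hQ2R : (Q : ℝ) ≤ 2 * (q : ℝ) ^ E := by exact_mod_cast hQ2
  have h2R : (p : ℝ) ^ 2 ≤ 16 * (q : ℝ) ^ 5 * Q := by exact_mod_cast h2
  have h6 : 1 / (2304 * (q : ℝ) ^ (2 * E + 9)) ≤
      (Q : ℝ) / (((4 * q ^ 4 : ℕ) : ℝ) * ((3 * Q * p : ℕ) : ℝ) ^ 2) := by
    rw [div_le_div_iff₀ (by positivity) (by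
      have : 0 < (4 * q ^ 4) := Nat.mul_pos (by norm_num) (Nat.pow_pos hq.pos)
      have h8 : 0 < 3 * Q * p := Nat.mul_pos (Nat.mul_pos (by norm_num) hQ.pos) hp.pos
      positivity)]
    push_cast
    have e1 : (Q : ℝ) * p ^ 2 ≤ 64 * (q : ℝ) ^ 5 * ((q : ℝ) ^ E) ^ 2 := by
      calc (Q : ℝ) * p ^ 2 ≤ Q * (16 * (q : ℝ) ^ 5 * Q) := mul_le_mul_of_nonneg_left h2R hQR.le
        _ = 16 * (q : ℝ) ^ 5 * (Q * Q) := by ring
        _ ≤ 16 * (q : ℝ) ^ 5 * ((2 * (q : ℝ) ^ E) * (2 * (q : ℝ) ^ E)) := by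
            refine mul_le_mul_of_nonneg_left ?_ (by positivity)
            exact mul_le_mul hQ2R hQ2R hQR.le (by positivity)
        _ = 64 * (q : ℝ) ^ 5 * ((q : ℝ) ^ E) ^ 2 := by ring
    calc 1 * (4 * (q : ℝ) ^ 4 * (3 * Q * p) ^ 2) = 36 * (q : ℝ) ^ 4 * Q * (Q * p ^ 2) := by ring
      _ ≤ 36 * (q : ℝ) ^ 4 * Q * (64 * (q : ℝ) ^ 5 * ((q : ℝ) ^ E) ^ 2) :=
          mul_le_mul_of_nonneg_left e1 (by positivity)
      _ = Q * (2304 * (q : ℝ) ^ (2 * E + 9)) := by ring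
  have h7 : 1 / (4608 * (q : ℝ) ^ (2 * E + 9)) = 1 / (2304 * (q : ℝ) ^ (2 * E + 9)) / 2 := by
    rw [div_div]
    congr 1
    ring
  rw [h7]
  linarith

end Crest.Agent.R32
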