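/- Row 32, piece FIN2: the final statement from `fin1`.
   PROOF.  `F = 4E + 19`, `η = 2/F`, `c = 1/(4608 · 4^(2E+9))`.  For `n ≥ n₀ = q0^F + 2` let `q1` be the least natural
   number with `n^4 ≤ q1^F` (`Nat.find`); `q1 ≥ 2`, `(q1-1)^F < n^4`, and `q1 ≥ q0` (`q1^F ≥ n^4 ≥ n ≥ q0^F`).
   Take a prime `q`, `q1 < q ≤ 2 q1 ≤ 4 (q1 - 1)` (`Nat.exists_prime_lt_and_le_two_mul`).  `n^4 ≤ q^F`, so `fin1`
   applies.  `q^F ≤ 4^F (q1-1)^F ≤ 4^F n^4`, so `q ≤ 4 n^(4/F)`, `q^(2E+9) ≤ 4^(2E+9) n^(4(2E+9)/F)` and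
   `4(2E+9)/F = 2 - 2/F = 2 - η`.  So `1/(4608 q^(2E+9)) ≥ c n^(-2+η)`. -/
import Crest.Agent.R32.Fin1

set_option autoImplicit false

namespace Crest.Agent.R32

theorem fin2 :
    ∃ η : ℝ, 0 < η ∧ ∃ c : ℝ, 0 < c ∧ ∃ n₀ : ℕ, ∀ n : ℕ, n₀ ≤ n →
      ∃ P : Finset (ℝ × ℝ), P.card = n ∧
        (∀ p ∈ P, 0 ≤ p.1 ∧ p.1 ≤ 1 ∧ 0 ≤ p.2 ∧ p.2 ≤ 1) ∧
        ∀ p ∈ P, ∀ q ∈ P, ∀ r ∈ P, p ≠ q → p ≠ r → q ≠ r →
          c * (n : ℝ) ^ (-2 + η) ≤ |(q.1 - p.1) * (r.2 - p.2) - (q.2 - p.2) * (r.1 - p.1)| / 2 := by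
  classical
  obtain ⟨E, q0, h1⟩ := fin1
  set F : ℕ := 4 * E + 19 with hF
  have hFpos : 0 < F := by omega
  have hFR : (0 : ℝ) < (F : ℝ) := by exact_mod_cast hFpos
  refine ⟨2 / (F : ℝ), by positivity, 1 / (4608 * (4 : ℝ) ^ (2 * E + 9)), by positivity,
    q0 ^ F + 2, fun n hn => ?_⟩
  have hn2 : 2 ≤ n := by omega
  have hex : ∃ q : ℕ, n ^ 4 ≤ q ^ F := ⟨n ^ 4, Nat.le_self_pow hFpos.ne' _⟩
  set q1 : ℕ := Nat.find hex with hq1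
  have hq1a : n ^ 4 ≤ q1 ^ F := Nat.find_spec hex
  have hn4 : n < n ^ 4 := by
    calc n = n ^ 1 := (pow_one n).symm
      _ < n ^ 4 := Nat.pow_lt_pow_right (by omega) (by norm_num)
  have hq1b : q0 ≤ q1 := by
    by_contra hcon
    push Not at hcon
    have : q1 ^ F ≤ q0 ^ F := Nat.pow_le_pow_left hcon.le F
    omega
  have hq1c : 2 ≤ q1 := by
    by_contra hcon
    have h0 : q1 ≤ 1 := by omega
    have : q1 ^ F ≤ 1 ^ F := Nat.pow_le_pow_left h0 F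
    rw [one_pow] at this
    omega
  obtain ⟨a, ha⟩ : ∃ a, q1 = a + 1 := ⟨q1 - 1, by omega⟩
  have ha1 : 1 ≤ a := by omega
  have haF : a ^ F ≤ n ^ 4 := by
    have h0 : ¬ (n ^ 4 ≤ a ^ F) := Nat.find_min hex (by rw [← hq1]; omega)
    omega
  obtain ⟨q, hqp, hql, hqu⟩ := Nat.exists_prime_lt_and_le_two_mul q1 (by omega)
  have hq4 : q ≤ 4 * a := by omega
  have hnq : n ^ 4 ≤ q ^ F := hq1a.trans (Nat.pow_le_pow_left hql.le F)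
  obtain ⟨P, hP1, hP2, hP3⟩ := h1 q hqp (hq1b.trans hql.le) n (by omega) hnq
  refine ⟨P, hP1, hP2, fun u hu v hv w hw huv huw hvw => ?_⟩
  refine le_trans ?_ (hP3 u hu v hv w hw huv huw hvw)
  -- the numeric inequality
  have hnR : (0 : ℝ) < (n : ℝ) := by exact_mod_cast (by omega : 0 < n)
  have haR : (0 : ℝ) < (a : ℝ) := by exact_mod_cast (by omega : 0 < a)
  have hqR : (0 : ℝ) < (q : ℝ) := by exact_mod_cast hqp.pos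
  have hexp : (4 : ℝ) * ((2 * E + 9 : ℕ) : ℝ) / F = 2 - 2 / F := by
    rw [hF]
    push_cast
    field_simp
    ring
  have key : (a : ℝ) ^ (2 * E + 9) ≤ (n : ℝ) ^ (2 - 2 / (F : ℝ)) := by
    have e1 : (a : ℝ) ^ (2 * E + 9) = ((a : ℝ) ^ F) ^ (((2 * E + 9 : ℕ) : ℝ) / F) := by
      rw [← Real.rpow_natCast (a : ℝ) F, ← Real.rpow_mul haR.le, mul_div_cancel₀ _ hFR.ne',
        Real.rpow_natCast]
    have e2 : (n : ℝ) ^ (2 - 2 / (F : ℝ)) = ((n : ℝ) ^ 4) ^ (((2 * E + 9 : ℕ) : ℝ) / F) := by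
      rw [← Real.rpow_natCast (n : ℝ) 4, ← Real.rpow_mul hnR.le, ← hexp]
      congr 1
      push_cast
      ring
    rw [e1, e2]
    refine Real.rpow_le_rpow (by positivity) ?_ (by positivity)
    exact_mod_cast haF
  have hq : (q : ℝ) ^ (2 * E + 9) ≤ 4 ^ (2 * E + 9) * (n : ℝ) ^ (2 - 2 / (F : ℝ)) := by
    calc (q : ℝ) ^ (2 * E + 9) ≤ (4 * (a : ℝ)) ^ (2 * E + 9) := by
          refine pow_le_pow_left₀ hqR.le ?_ _
          exact_mod_cast hq4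
      _ = 4 ^ (2 * E + 9) * (a : ℝ) ^ (2 * E + 9) := mul_pow _ _ _
      _ ≤ _ := mul_le_mul_of_nonneg_left key (by positivity)
  have hneg : (n : ℝ) ^ (-2 + 2 / (F : ℝ)) = ((n : ℝ) ^ (2 - 2 / (F : ℝ)))⁻¹ := by
    rw [← Real.rpow_neg hnR.le]
    congr 1
    ring
  have hpos : 0 < (n : ℝ) ^ (2 - 2 / (F : ℝ)) := Real.rpow_pos_of_pos hnR _
  rw [hneg, ← one_div, one_div_mul_one_div]
  apply one_div_le_one_div_of_le (by positivity)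
  calc 4608 * (q : ℝ) ^ (2 * E + 9) ≤ 4608 * (4 ^ (2 * E + 9) * (n : ℝ) ^ (2 - 2 / (F : ℝ))) := by
        gcongr
    _ = _ := by ring

end Crest.Agent.R32
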