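/- Row 32, pieces KERN1, KERN2: the kernel `g(s,t) = N(t - s)`, `N` the norm from `F_{q^5}` to `F_q`.

   `norm_expand` (KERN1): `b` a basis of `K` over `F` indexed by `Fin 5`, `M z = Algebra.leftMulMatrix b z`
   (additive in `z`), `Algebra.norm F z = (M z).det` (`Algebra.norm_eq_matrix_det`).  So
   `N(t-s) = Σ_σ sign σ Π_i (M t (σ i) i - M s (σ i) i) = Σ_σ Σ_{S ⊆ Fin 5} sign σ Π_{i∈S} M t (σ i) i ·
   Π_{i∉S} (-M s (σ i) i)` (`Matrix.det_apply`, `Finset.prod_add`).  Index set
   `Equiv.Perm (Fin 5) × Finset (Fin 5)`.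

   `exists_kernel` (KERN2): `R = Fintype.card (Equiv.Perm (Fin 5) × Finset (Fin 5))`,
   `K = GaloisField q 5`, `F = ZMod q` (`GaloisField.card`, `GaloisField.finrank`, basis
   `Module.finBasisOfFinrankEq`), transport by `K ≃ Fin (q^5)`.  Antisymmetry: `N(-z) = (-1)^5 N z`
   (`Algebra.norm_algebraMap` for `-1`, multiplicativity).  Nonvanishing: `Algebra.norm_ne_zero_iff`. -/
import Crest.Agent.R32.Defs

set_option autoImplicit false

namespace Crest.Agent.R32

open Finset

theorem norm_expand {F K : Type} [Field F] [Field K] [Algebra F K] (b : Module.Basis (Fin 5) F K) :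
    ∃ X Y : (Equiv.Perm (Fin 5) × Finset (Fin 5)) → K → F,
      ∀ s t : K, Algebra.norm F (t - s) = ∑ j, X j s * Y j t := by
  refine ⟨fun j s => ∏ i ∈ univ \ j.2, (-(Algebra.leftMulMatrix b s) (j.1 i) i),
    fun j t => ((Equiv.Perm.sign j.1 : ℤ) : F) * ∏ i ∈ j.2, (Algebra.leftMulMatrix b t) (j.1 i) i,
    fun s t => ?_⟩
  rw [Algebra.norm_eq_matrix_det b, Matrix.det_apply', Fintype.sum_prod_type]
  refine sum_congr rfl fun σ _ => ?_
  have h1 : ∀ i, (Algebra.leftMulMatrix b (t - s)) (σ i) i =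
      (Algebra.leftMulMatrix b t) (σ i) i + -(Algebra.leftMulMatrix b s) (σ i) i := by
    intro i; rw [map_sub, Matrix.sub_apply, sub_eq_add_neg]
  simp only [h1]
  rw [prod_add, mul_sum, powerset_univ]
  refine sum_congr rfl fun S _ => ?_
  ring

theorem exists_kernel : ∃ R : ℕ, ∀ q : ℕ, q.Prime →
    ∃ X Y : Fin R → Fin (q ^ 5) → ZMod q,
      (∀ s t, (∑ j, X j t * Y j s) = - ∑ j, X j s * Y j t) ∧
      (∀ s t, s ≠ t → (∑ j, X j s * Y j t) ≠ 0) := by
  refine ⟨Fintype.card (Equiv.Perm (Fin 5) × Finset (Fin 5)), fun q hq => ?_⟩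
  haveI : Fact q.Prime := ⟨hq⟩
  have hfr : Module.finrank (ZMod q) (GaloisField q 5) = 5 := GaloisField.finrank q (by norm_num)
  haveI : FiniteDimensional (ZMod q) (GaloisField q 5) :=
    FiniteDimensional.of_finrank_pos (by rw [hfr]; norm_num)
  haveI : Finite (GaloisField q 5) := Module.finite_of_finite (ZMod q)
  obtain ⟨X, Y, hXY⟩ := norm_expand (Module.finBasisOfFinrankEq (ZMod q) (GaloisField q 5) hfr)
  let e1 : (Equiv.Perm (Fin 5) × Finset (Fin 5)) ≃
      Fin (Fintype.card (Equiv.Perm (Fin 5) × Finset (Fin 5))) := Fintype.equivFin _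
  let e2 : GaloisField q 5 ≃ Fin (q ^ 5) :=
    Finite.equivFinOfCardEq (GaloisField.card q 5 (by norm_num))
  have hsum : ∀ s t : Fin (q ^ 5),
      (∑ j, X (e1.symm j) (e2.symm s) * Y (e1.symm j) (e2.symm t)) =
        Algebra.norm (ZMod q) (e2.symm t - e2.symm s) := by
    intro s t
    rw [hXY]
    exact Equiv.sum_comp e1.symm (fun j => X j (e2.symm s) * Y j (e2.symm t))
  refine ⟨fun j s => X (e1.symm j) (e2.symm s), fun j t => Y (e1.symm j) (e2.symm t), ?_, ?_⟩
  · intro s t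
    simp only
    rw [hsum, hsum]
    have h1 : e2.symm s - e2.symm t =
        algebraMap (ZMod q) (GaloisField q 5) (-1) * (e2.symm t - e2.symm s) := by
      rw [map_neg, map_one]; ring
    rw [h1, map_mul, Algebra.norm_algebraMap, hfr]
    ring
  · intro s t hst
    simp only
    rw [hsum]
    rw [Algebra.norm_ne_zero_iff, sub_ne_zero]
    exact fun h => hst (e2.symm.injective h).symm

end Crest.Agent.R32
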