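/- Row 32, pieces PHASE1, PHASE2.

   `phase_ne` (PHASE1): if `q³ S1 + S3 + q⁴ m = 0` then `q³ ∣ S3`, `|S3| < q³`, so `S3 = 0`; then
   `S1 + q m = 0`, so `q ∣ S1`.  Hence `a + b + c = 0` and `a³ + b³ + c³ = 0` in `ZMod q` (`2 ≠ 0`), but
   `a³ + b³ + c³ = (a+b+c)(…) + 3abc`, so `3abc = 0`: contradiction (`q > 3`).

   `det_phase` (PHASE2): `q4 (det3 + k Q) = Q M + (errors)`, `M = Lst - Lts + …+ q4 k ≠ 0`, because
   `det3 = (xs yt - xt ys) + (xt yu - xu yt) + (xu ys - xs yu) + (xs b2 - xt b1) + (xt b3 - xu b2) + (xu b1 - xs b3)`.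
   The errors are at most `6 Q/16 + 6 Q/48 = Q/2` and `|Q M| ≥ Q`. -/
import Crest.Agent.R32.Defs

set_option autoImplicit false

namespace Crest.Agent.R32

theorem phase_ne (q : ℕ) (hqp : q.Prime) (hq : 3 < q) (a b c : ZMod q) (ha : a ≠ 0) (hb : b ≠ 0)
    (hc : c ≠ 0) (S1 S3 m : ℤ) (h1 : (S1 : ZMod q) = 2 * (a + b + c))
    (h3 : (S3 : ZMod q) = 2 * (a ^ 3 + b ^ 3 + c ^ 3)) (hS3 : |S3| < (q : ℤ) ^ 3) :
    (q : ℤ) ^ 3 * S1 + S3 + (q : ℤ) ^ 4 * m ≠ 0 := by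
  have : Fact q.Prime := ⟨hqp⟩
  intro h
  have e1 : S3 = -((q : ℤ) ^ 3 * (S1 + q * m)) := by linear_combination h
  have e2 : S1 + q * m = 0 := by
    by_contra hne
    have h4 : 1 ≤ |S1 + q * m| := Int.one_le_abs hne
    have h5 : |S3| = (q : ℤ) ^ 3 * |S1 + q * m| := by
      rw [e1, abs_neg, abs_mul, abs_of_nonneg (by positivity : (0 : ℤ) ≤ (q : ℤ) ^ 3)]
    have h6 : (q : ℤ) ^ 3 * 1 ≤ (q : ℤ) ^ 3 * |S1 + q * m| :=
      mul_le_mul_of_nonneg_left h4 (by positivity)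
    rw [h5] at hS3
    linarith
  have e3 : S3 = 0 := by rw [e1, e2, mul_zero, neg_zero]
  have e4 : (S1 : ZMod q) = 0 := by
    have h7 : S1 = -((q : ℤ) * m) := by linarith
    rw [h7]
    push_cast
    rw [ZMod.natCast_self, zero_mul, neg_zero]
  have hnum : ∀ k : ℕ, 0 < k → k < q → (k : ZMod q) ≠ 0 := by
    intro k hk hkq h0
    rw [ZMod.natCast_eq_zero_iff] at h0
    exact absurd (Nat.le_of_dvd hk h0) (by omega)
  have h2 : (2 : ZMod q) ≠ 0 := by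
    have := hnum 2 (by norm_num) (by omega)
    exact_mod_cast this
  have h3' : (3 : ZMod q) ≠ 0 := by
    have := hnum 3 (by norm_num) (by omega)
    exact_mod_cast this
  rw [e4] at h1
  rw [e3] at h3
  have f1 : a + b + c = 0 := by
    rcases mul_eq_zero.1 h1.symm with h | h
    · exact absurd h h2
    · exact h
  have f3 : a ^ 3 + b ^ 3 + c ^ 3 = 0 := by
    have : 2 * (a ^ 3 + b ^ 3 + c ^ 3) = 0 := by rw [← h3]; simp
    rcases mul_eq_zero.1 this with h | h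
    · exact absurd h h2
    · exact h
  have f4 : 3 * (a * b * c) = 0 := by
    linear_combination f3 - (a ^ 2 + b ^ 2 + c ^ 2 - a * b - b * c - c * a) * f1
  rcases mul_eq_zero.1 f4 with h | h
  · exact h3' h
  · exact mul_ne_zero (mul_ne_zero ha hb) hc h

theorem det_phase (Q q4 : ℤ) (hQ : 0 < Q) (hq4 : 0 < q4) (xs xt xu ys yt yu b1 b2 b3 k : ℤ)
    (Lst Lts Ltu Lut Lus Lsu : ℤ)
    (h1 : 16 * |q4 * (xs * yt) - Q * Lst| ≤ Q) (h2 : 16 * |q4 * (xt * ys) - Q * Lts| ≤ Q)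
    (h3 : 16 * |q4 * (xt * yu) - Q * Ltu| ≤ Q) (h4 : 16 * |q4 * (xu * yt) - Q * Lut| ≤ Q)
    (h5 : 16 * |q4 * (xu * ys) - Q * Lus| ≤ Q) (h6 : 16 * |q4 * (xs * yu) - Q * Lsu| ≤ Q)
    (s1 : 48 * |q4 * (xs * b2)| ≤ Q) (s2 : 48 * |q4 * (xt * b1)| ≤ Q)
    (s3 : 48 * |q4 * (xt * b3)| ≤ Q) (s4 : 48 * |q4 * (xu * b2)| ≤ Q)
    (s5 : 48 * |q4 * (xu * b1)| ≤ Q) (s6 : 48 * |q4 * (xs * b3)| ≤ Q)
    (hM : Lst - Lts + (Ltu - Lut) + (Lus - Lsu) + q4 * k ≠ 0) :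
    Q ≤ 4 * q4 * |det3 (xs, ys + b1) (xt, yt + b2) (xu, yu + b3) + k * Q| := by
  have e : q4 * (det3 (xs, ys + b1) (xt, yt + b2) (xu, yu + b3) + k * Q) =
      Q * (Lst - Lts + (Ltu - Lut) + (Lus - Lsu) + q4 * k) +
        ((q4 * (xs * yt) - Q * Lst) - (q4 * (xt * ys) - Q * Lts) + (q4 * (xt * yu) - Q * Ltu)
          - (q4 * (xu * yt) - Q * Lut) + (q4 * (xu * ys) - Q * Lus) - (q4 * (xs * yu) - Q * Lsu)
          + q4 * (xs * b2) - q4 * (xt * b1) + q4 * (xt * b3) - q4 * (xu * b2) + q4 * (xu * b1)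
          - q4 * (xs * b3)) := by
    simp only [det3]
    ring
  have e2 : 4 * q4 * |det3 (xs, ys + b1) (xt, yt + b2) (xu, yu + b3) + k * Q| =
      4 * |q4 * (det3 (xs, ys + b1) (xt, yt + b2) (xu, yu + b3) + k * Q)| := by
    rw [abs_mul, abs_of_pos hq4]
    ring
  rw [e2, e]
  generalize q4 * (xs * yt) - Q * Lst = a1 at *
  generalize q4 * (xt * ys) - Q * Lts = a2 at *
  generalize q4 * (xt * yu) - Q * Ltu = a3 at *
  generalize q4 * (xu * yt) - Q * Lut = a4 at *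
  generalize q4 * (xu * ys) - Q * Lus = a5 at *
  generalize q4 * (xs * yu) - Q * Lsu = a6 at *
  generalize q4 * (xs * b2) = c1 at *
  generalize q4 * (xt * b1) = c2 at *
  generalize q4 * (xt * b3) = c3 at *
  generalize q4 * (xu * b2) = c4 at *
  generalize q4 * (xu * b1) = c5 at *
  generalize q4 * (xs * b3) = c6 at *
  generalize Lst - Lts + (Ltu - Lut) + (Lus - Lsu) + q4 * k = M at *
  clear e e2
  have g1 := abs_le.1 (le_refl |a1|)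
  have g2 := abs_le.1 (le_refl |a2|)
  have g3 := abs_le.1 (le_refl |a3|)
  have g4 := abs_le.1 (le_refl |a4|)
  have g5 := abs_le.1 (le_refl |a5|)
  have g6 := abs_le.1 (le_refl |a6|)
  have f1 := abs_le.1 (le_refl |c1|)
  have f2 := abs_le.1 (le_refl |c2|)
  have f3 := abs_le.1 (le_refl |c3|)
  have f4 := abs_le.1 (le_refl |c4|)
  have f5 := abs_le.1 (le_refl |c5|)
  have f6 := abs_le.1 (le_refl |c6|)
  rcases lt_or_gt_of_ne hM with h | h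
  · have hQM : Q * M ≤ -Q := by nlinarith
    have := neg_abs_le (Q * M + (a1 - a2 + a3 - a4 + a5 - a6 + c1 - c2 + c3 - c4 + c5 - c6))
    linarith [g1.1, g1.2, g2.1, g2.2, g3.1, g3.2, g4.1, g4.2, g5.1, g5.2, g6.1, g6.2, f1.1, f1.2,
      f2.1, f2.2, f3.1, f3.2, f4.1, f4.2, f5.1, f5.2, f6.1, f6.2]
  · have hQM : Q ≤ Q * M := by nlinarith
    have := le_abs_self (Q * M + (a1 - a2 + a3 - a4 + a5 - a6 + c1 - c2 + c3 - c4 + c5 - c6))
    linarith [g1.1, g1.2, g2.1, g2.2, g3.1, g3.2, g4.1, g4.2, g5.1, g5.2, g6.1, g6.2, f1.1, f1.2,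
      f2.1, f2.2, f3.1, f3.2, f4.1, f4.2, f5.1, f5.2, f6.1, f6.2]

end Crest.Agent.R32
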