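/- Row 32, pieces RES1, RES2, RES3, RES4: the residues `(x s, y s)`.

   Index set `Ix R = Fin R ⊕ (Fin R × Fin R × Fin R)` (kernel `g = Σ_j X_j(s) Y_j(t)` and its cube), digits
   `aI X i s ∈ {0,…,q-1}`, exponents `eI` (a bijection with `{0,…,|Ix R|-1}`), weights `wgt = q` resp. `q⁴`,
   `vgt = q³` resp. `1`.
   `xI s = Σ_i a_i(s) B^(e i)`, `yI t = Σ_j c_j(t) ⌊Q/(w_j B^(e j))⌋`, `B = q⁸`.

   RES1 (`S1_cast`, `S3_cast`, `S3_bd`, `sum_vgt`): casts: `((z.val : ℤ) : ZMod q) = z`; cube of a sum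
   = triple sum (`Finset.sum_mul_sum`, `Fintype.sum_prod_type`).

   RES2 (`xI_inj`): `xI s = xI t` gives equal digits (`digits_inj`, `B = q^8`), so `X j s = X j t` for all `j`, so
   `Σ X j s * Y j t = Σ X j t * Y j t`, which is `0` by antisymmetry (`2 ≠ 0`); so `s = t`.

   RES3 (`xI_bd`): `Rt = |Ix R|`.  `digits_bd`: `x ≤ Rt q (q^8)^(Rt-1)`, so `q^7 x ≤ Rt q^(8 Rt)` (if `Rt = 0` then
   `x = 0`), `q^7 p x ≤ Rt Q`, and `q³ ≥ q > 48 Rt` (with `q ≥ 48 Rt + 4`).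

   RES4 (`exists_residues`): `R` from `exists_kernel`, `Rt = |Ix R|`, `q0 = 48 Rt + 4`
   (`Rt ≥ R^3`, `q > 3 R^3`, `q² ≥ 32 Rt²`).  `Good`: `det_phase` with `q4 = q^4`,
   `L_st = Σ_j v_j a_j(s) c_j(t) + q⁴ A_st` (`bilin_approx`), `b = 0 ≤ b < p` with `xI_bd` for the shifts, and
   `M = q³ S1tot + S3tot + q⁴ (…)` is nonzero by `phase_ne` for `a = g s t`, `b = g t u`, `c = g u s`
   (`|S3tot| ≤ 3 R³ q² < q³`). -/
import Crest.Agent.R32.Avg
import Crest.Agent.R32.Kernel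
import Crest.Agent.R32.Digits
import Crest.Agent.R32.Bilin
import Crest.Agent.R32.Phase

set_option autoImplicit false

namespace Crest.Agent.R32

open Finset

/-- index set -/
abbrev Ix (R : ℕ) := Fin R ⊕ (Fin R × Fin R × Fin R)

/-- the digits -/
def aI {R q n : ℕ} (X : Fin R → Fin n → ZMod q) : Ix R → Fin n → ℤ
  | .inl j, s => ((X j s).val : ℤ)
  | .inr j, s => ((X j.1 s * X j.2.1 s * X j.2.2 s).val : ℤ)

/-- the weights `w` -/
def wgt (q : ℕ) {R : ℕ} : Ix R → ℕ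
  | .inl _ => q
  | .inr _ => q ^ 4

/-- the complementary weights `v` -/
def vgt (q : ℕ) {R : ℕ} : Ix R → ℕ
  | .inl _ => q ^ 3
  | .inr _ => 1

/-- the exponents -/
noncomputable def eI {R : ℕ} (i : Ix R) : ℕ := (Fintype.equivFin (Ix R) i : ℕ)

theorem eI_inj {R : ℕ} : Function.Injective (eI : Ix R → ℕ) := by
  intro i j h
  exact (Fintype.equivFin (Ix R)).injective (Fin.ext h)

theorem eI_lt {R : ℕ} (i : Ix R) : eI i < Fintype.card (Ix R) := (Fintype.equivFin (Ix R) i).2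

theorem wgt_mul_vgt (q : ℕ) {R : ℕ} (i : Ix R) : wgt q i * vgt q i = q ^ 4 := by
  rcases i with i | i <;> simp [wgt, vgt] <;> ring

theorem le_wgt (q : ℕ) (hq : 1 ≤ q) {R : ℕ} (i : Ix R) : q ≤ wgt q i := by
  rcases i with i | i
  · exact le_rfl
  · simp only [wgt]
    calc q = q ^ 1 := (pow_one q).symm
      _ ≤ q ^ 4 := Nat.pow_le_pow_right hq (by norm_num)

theorem aI_range {R q n : ℕ} [NeZero q] (X : Fin R → Fin n → ZMod q) (s : Fin n) (i : Ix R) :
    0 ≤ aI X i s ∧ aI X i s < q := by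
  rcases i with i | i <;> simp only [aI] <;>
    exact ⟨by positivity, by exact_mod_cast ZMod.val_lt _⟩

/-- first coordinates -/
noncomputable def xI {R q n : ℕ} (X : Fin R → Fin n → ZMod q) (s : Fin n) : ℤ :=
  ∑ i, aI X i s * ((q : ℤ) ^ 8) ^ (eI i)

/-- second coordinates -/
noncomputable def yI (Q : ℕ) {R q n : ℕ} (Y : Fin R → Fin n → ZMod q) (t : Fin n) : ℤ :=
  ∑ j, aI Y j t * ((Q / (wgt q j * (q ^ 8) ^ (eI j)) : ℕ) : ℤ)

/-- lift of the kernel -/
def S1 {R q n : ℕ} (X Y : Fin R → Fin n → ZMod q) (s t : Fin n) : ℤ :=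
  ∑ j : Fin R, aI X (.inl j) s * aI Y (.inl j) t

/-- lift of the cube of the kernel -/
def S3 {R q n : ℕ} (X Y : Fin R → Fin n → ZMod q) (s t : Fin n) : ℤ :=
  ∑ j : Fin R × Fin R × Fin R, aI X (.inr j) s * aI Y (.inr j) t

theorem S1_cast {R q n : ℕ} [NeZero q] (X Y : Fin R → Fin n → ZMod q) (s t : Fin n) :
    ((S1 X Y s t : ℤ) : ZMod q) = ∑ j, X j s * Y j t := by
  unfold S1
  push_cast
  apply Finset.sum_congr rfl
  intro j _
  simp [aI]

theorem S3_cast {R q n : ℕ} [NeZero q] (X Y : Fin R → Fin n → ZMod q) (s t : Fin n) :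
    ((S3 X Y s t : ℤ) : ZMod q) = (∑ j, X j s * Y j t) ^ 3 := by
  unfold S3
  rw [Int.cast_sum]
  have hval : ∀ x : ZMod q, (((x.val : ℕ) : ℤ) : ZMod q) = x := by
    intro x
    rw [Int.cast_natCast, ZMod.natCast_val, ZMod.cast_id]
  have h1 : (∑ j, X j s * Y j t) ^ 3 =
      ∑ a, ∑ b, ∑ c, (X a s * Y a t) * ((X b s * Y b t) * (X c s * Y c t)) := by
    rw [pow_succ', pow_two, Finset.sum_mul_sum, Finset.sum_mul]
    apply Finset.sum_congr rfl
    intro a _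
    rw [Finset.mul_sum]
    apply Finset.sum_congr rfl
    intro b _
    rw [Finset.mul_sum]
  rw [h1, Fintype.sum_prod_type]
  apply Finset.sum_congr rfl
  intro a _
  rw [Fintype.sum_prod_type]
  apply Finset.sum_congr rfl
  intro b _
  apply Finset.sum_congr rfl
  intro c _
  rw [Int.cast_mul]
  simp only [aI, hval]
  ring

theorem S3_bd {R q n : ℕ} [NeZero q] (X Y : Fin R → Fin n → ZMod q) (s t : Fin n) :
    0 ≤ S3 X Y s t ∧ S3 X Y s t ≤ (R : ℤ) ^ 3 * (q : ℤ) ^ 2 := by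
  have h0 : ∀ (Z : Fin R → Fin n → ZMod q) (j : Fin R × Fin R × Fin R) (s : Fin n),
      0 ≤ aI Z (.inr j) s ∧ aI Z (.inr j) s ≤ q := fun Z j s =>
    ⟨(aI_range Z s (.inr j)).1, (aI_range Z s (.inr j)).2.le⟩
  unfold S3
  constructor
  · exact Finset.sum_nonneg fun j _ => mul_nonneg (h0 X j s).1 (h0 Y j t).1
  · calc ∑ j : Fin R × Fin R × Fin R, aI X (.inr j) s * aI Y (.inr j) t
        ≤ ∑ _j : Fin R × Fin R × Fin R, (q : ℤ) * q :=
          Finset.sum_le_sum fun j _ => mul_le_mul (h0 X j s).2 (h0 Y j t).2 (h0 Y j t).1 (by positivity)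
      _ = (R : ℤ) ^ 3 * (q : ℤ) ^ 2 := by
          rw [Finset.sum_const, Finset.card_univ, nsmul_eq_mul]
          simp only [Fintype.card_prod, Fintype.card_fin]
          push_cast
          ring

theorem sum_vgt {R q n : ℕ} (X Y : Fin R → Fin n → ZMod q) (s t : Fin n) :
    ∑ j : Ix R, (vgt q j : ℤ) * (aI X j s * aI Y j t) = (q : ℤ) ^ 3 * S1 X Y s t + S3 X Y s t := by
  rw [Fintype.sum_sum_type]
  simp only [vgt]
  unfold S1 S3
  rw [Finset.mul_sum]
  push_cast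
  simp only [one_mul]

theorem xI_inj {R q n : ℕ} (hq : q.Prime) (hq3 : 3 < q) (X Y : Fin R → Fin n → ZMod q)
    (hanti : ∀ s t, (∑ j, X j t * Y j s) = - ∑ j, X j s * Y j t)
    (hne : ∀ s t, s ≠ t → (∑ j, X j s * Y j t) ≠ 0) : Function.Injective (xI X) := by
  haveI : NeZero q := ⟨hq.ne_zero⟩
  haveI : Fact q.Prime := ⟨hq⟩
  intro s t hst
  have hd : (fun i => aI X i s) = fun i => aI X i t := by
    refine digits_inj eI eI_inj q (q ^ 8) hq.pos (Nat.le_self_pow (by norm_num) q) _ _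
      (aI_range X s) (aI_range X t) ?_
    have h := hst
    unfold xI at h
    push_cast
    exact h
  have hX : ∀ j, X j s = X j t := by
    intro j
    have h1 : aI X (.inl j) s = aI X (.inl j) t := congrFun hd (.inl j)
    simp only [aI] at h1
    exact ZMod.val_injective q (by exact_mod_cast h1)
  by_contra hne'
  apply hne s t hne'
  have h2 : (∑ j, X j s * Y j t) = ∑ j, X j t * Y j t :=
    Finset.sum_congr rfl fun j _ => by rw [hX j]
  have h3 := hanti t t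
  rw [h2]
  have h4 : (2 : ZMod q) * (∑ j, X j t * Y j t) = 0 := by
    rw [two_mul]
    nth_rewrite 1 [h3]
    exact neg_add_cancel _
  rcases mul_eq_zero.1 h4 with h5 | h5
  · exfalso
    have h6 : ((2 : ℕ) : ZMod q) = 0 := by exact_mod_cast h5
    rw [ZMod.natCast_eq_zero_iff] at h6
    have := Nat.le_of_dvd (by norm_num) h6
    omega
  · exact h5

theorem xI_bd {R q n : ℕ} [NeZero q] (hq : 48 * Fintype.card (Ix R) + 4 ≤ q) (X : Fin R → Fin n → ZMod q)
    (Q p : ℕ) (hp : 0 < p) (hQ : p * q ^ (8 * Fintype.card (Ix R)) ≤ Q) (s : Fin n) :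
    0 ≤ xI X s ∧ 48 * ((q : ℤ) ^ 4 * p * xI X s) < Q := by
  set Rt := Fintype.card (Ix R) with hRt
  have hq0 : 0 < q := by omega
  have h := digits_bd (eI : Ix R → ℕ) Rt (fun i => eI_lt i) le_rfl q (q ^ 8)
    (Nat.one_le_pow _ _ hq0) (fun i => aI X i s) (fun i => aI_range X s i)
  have hx : ∑ i, aI X i s * (((q ^ 8 : ℕ) : ℤ)) ^ (eI i) = xI X s := by
    unfold xI; push_cast; rfl
  rw [hx] at h
  refine ⟨h.1, ?_⟩
  have hQpos : (0 : ℤ) < Q := by
    have : 0 < p * q ^ (8 * Rt) := by positivity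
    exact_mod_cast lt_of_lt_of_le this hQ
  have hqZ : (0 : ℤ) < q := by exact_mod_cast hq0
  have hqR : (48 : ℤ) * Rt < q := by
    have : 48 * Rt < q := by omega
    exact_mod_cast this
  have hQZ : (p : ℤ) * (q : ℤ) ^ (8 * Rt) ≤ Q := by exact_mod_cast hQ
  have hkey : (q : ℤ) ^ 7 * xI X s ≤ Rt * (q : ℤ) ^ (8 * Rt) := by
    rcases Nat.eq_zero_or_pos Rt with h0 | h0
    · have h2 := h.2
      rw [h0] at h2 ⊢
      simp only [Nat.cast_zero, zero_mul] at h2 ⊢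
      have : xI X s = 0 := le_antisymm h2 h.1
      rw [this]; simp
    · calc (q : ℤ) ^ 7 * xI X s ≤ (q : ℤ) ^ 7 * (Rt * q * ((q ^ 8 : ℕ) : ℤ) ^ (Rt - 1)) := by
            gcongr
            exact h.2
        _ = Rt * ((q : ℤ) ^ 8 * ((q : ℤ) ^ 8) ^ (Rt - 1)) := by push_cast; ring
        _ = Rt * (q : ℤ) ^ (8 * Rt) := by
            rw [← pow_succ', Nat.sub_add_cancel h0, ← pow_mul]
  have hfin : (q : ℤ) ^ 3 * (48 * ((q : ℤ) ^ 4 * p * xI X s)) < (q : ℤ) ^ 3 * Q := by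
    calc (q : ℤ) ^ 3 * (48 * ((q : ℤ) ^ 4 * p * xI X s)) = 48 * p * ((q : ℤ) ^ 7 * xI X s) := by ring
      _ ≤ 48 * p * (Rt * (q : ℤ) ^ (8 * Rt)) := by gcongr
      _ = 48 * Rt * (p * (q : ℤ) ^ (8 * Rt)) := by ring
      _ ≤ 48 * Rt * Q := by gcongr
      _ < q * Q := by gcongr
      _ ≤ (q : ℤ) ^ 3 * Q := by
          have h1 : (1 : ℤ) ≤ q := hqZ
          have h2 : (q : ℤ) ≤ (q : ℤ) ^ 3 := by
            calc (q : ℤ) = (q : ℤ) ^ 1 := (pow_one _).symm
              _ ≤ (q : ℤ) ^ 3 := pow_le_pow_right₀ h1 (by norm_num)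
          exact mul_le_mul_of_nonneg_right h2 hQpos.le
  exact lt_of_mul_lt_mul_left hfin (by positivity)

theorem exists_residues : ∃ Rt q0 : ℕ, 3 < q0 ∧ ∀ q : ℕ, q.Prime → q0 ≤ q →
    ∀ Q p : ℕ, 0 < p → p * q ^ (8 * Rt) ≤ Q →
      ∃ x y : Fin (q ^ 5) → ℤ, Function.Injective x ∧ (∀ s, 0 ≤ x s) ∧
        (∀ s, ((4 * q ^ 4 : ℕ) : ℤ) * p * x s < Q) ∧ Good Q p (4 * q ^ 4) x y := by
  obtain ⟨R, hR⟩ := exists_kernel
  refine ⟨Fintype.card (Ix R), 48 * Fintype.card (Ix R) + 4, by omega, ?_⟩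
  intro q hq hq0 Q p hp hpQ
  haveI : NeZero q := ⟨hq.pos.ne'⟩
  obtain ⟨X, Y, hanti, hne⟩ := hR q hq
  have hcardIx : Fintype.card (Ix R) = R + R * (R * R) := by
    simp [Ix, Fintype.card_sum, Fintype.card_prod]
  set Rt := Fintype.card (Ix R) with hRt
  have hq3 : 3 < q := by omega
  have hqpos : 0 < q := hq.pos
  have hqQ : q ^ (8 * Rt) ≤ Q := le_trans (Nat.le_mul_of_pos_left _ hp) hpQ
  have hQpos : 0 < Q := lt_of_lt_of_le (pow_pos hqpos _) hqQ
  have hbd := xI_bd (R := R) (n := q ^ 5) hq0 X Q p hp hpQ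
  have hqR : 32 * Rt ^ 2 ≤ q ^ 2 := by
    have h1 : 48 * Rt ≤ q := by omega
    nlinarith [h1, Nat.zero_le Rt]
  have hex : ∀ s t : Fin (q ^ 5), ∃ A : ℤ, 16 * |(q : ℤ) ^ 4 * (xI X s * yI Q Y t)
      - Q * ((∑ j : Ix R, (vgt q j : ℤ) * (aI X j s * aI Y j t)) + (q : ℤ) ^ 4 * A)| ≤ Q := by
    intro s t
    exact bilin_approx (I := Ix R) eI eI_inj Rt eI_lt le_rfl q Q (by omega) hqR hqQ (wgt q) (vgt q)
      (wgt_mul_vgt q) (le_wgt q (by omega)) (fun i => aI X i s) (fun i => aI Y i t)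
      (fun i => aI_range X s i) (fun i => aI_range Y t i)
  choose A hA using hex
  simp only [sum_vgt] at hA
  refine ⟨xI X, yI Q Y, xI_inj hq hq3 X Y hanti hne, fun s => (hbd s).1, ?_, ?_⟩
  · intro s
    obtain ⟨h1, h2⟩ := hbd s
    push_cast
    have h3 : 0 ≤ (q : ℤ) ^ 4 * p * xI X s := by positivity
    linarith
  · intro s t u hst hsu htu b1 hb1 b2 hb2 b3 hb3 k
    have hshift : ∀ (z : Fin (q ^ 5)) (b : ℤ), b ∈ bI p → 48 * |(q : ℤ) ^ 4 * (xI X z * b)| ≤ Q := by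
      intro z b hb
      obtain ⟨h1, h2⟩ := hbd z
      rw [bI, mem_Ico] at hb
      have h3 : 0 ≤ (q : ℤ) ^ 4 * (xI X z * b) := by
        have := hb.1
        positivity
      rw [abs_of_nonneg h3]
      have h4 : (q : ℤ) ^ 4 * (xI X z * b) ≤ (q : ℤ) ^ 4 * (xI X z * p) := by
        have := hb.2.le
        gcongr
      have h5 : (q : ℤ) ^ 4 * (xI X z * p) = (q : ℤ) ^ 4 * p * xI X z := by ring
      linarith
    have hq4 : (0 : ℤ) < (q : ℤ) ^ 4 := by positivity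
    have hQZ : (0 : ℤ) < (Q : ℤ) := by exact_mod_cast hQpos
    have hM : ((q : ℤ) ^ 3 * S1 X Y s t + S3 X Y s t + (q : ℤ) ^ 4 * A s t)
        - ((q : ℤ) ^ 3 * S1 X Y t s + S3 X Y t s + (q : ℤ) ^ 4 * A t s)
        + (((q : ℤ) ^ 3 * S1 X Y t u + S3 X Y t u + (q : ℤ) ^ 4 * A t u)
        - ((q : ℤ) ^ 3 * S1 X Y u t + S3 X Y u t + (q : ℤ) ^ 4 * A u t))
        + (((q : ℤ) ^ 3 * S1 X Y u s + S3 X Y u s + (q : ℤ) ^ 4 * A u s)
        - ((q : ℤ) ^ 3 * S1 X Y s u + S3 X Y s u + (q : ℤ) ^ 4 * A s u)) + (q : ℤ) ^ 4 * k ≠ 0 := by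
      have key := phase_ne q hq hq3 (∑ j, X j s * Y j t) (∑ j, X j t * Y j u) (∑ j, X j u * Y j s)
        (hne s t hst) (hne t u htu) (hne u s (Ne.symm hsu))
        (S1 X Y s t - S1 X Y t s + (S1 X Y t u - S1 X Y u t) + (S1 X Y u s - S1 X Y s u))
        (S3 X Y s t - S3 X Y t s + (S3 X Y t u - S3 X Y u t) + (S3 X Y u s - S3 X Y s u))
        (A s t - A t s + (A t u - A u t) + (A u s - A s u) + k)
        (by
          push_cast
          rw [S1_cast, S1_cast, S1_cast, S1_cast, S1_cast, S1_cast, hanti s t, hanti t u, hanti u s]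
          ring)
        (by
          push_cast
          rw [S3_cast, S3_cast, S3_cast, S3_cast, S3_cast, S3_cast, hanti s t, hanti t u, hanti u s]
          ring)
        (by
          have e1 := S3_bd X Y s t
          have e2 := S3_bd X Y t s
          have e3 := S3_bd X Y t u
          have e4 := S3_bd X Y u t
          have e5 := S3_bd X Y u s
          have e6 := S3_bd X Y s u
          have hq' : (3 : ℤ) * (R : ℤ) ^ 3 < q := by
            have : 3 * R ^ 3 < q := by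
              have e : R ^ 3 = R * (R * R) := by ring
              rw [e]
              omega
            exact_mod_cast this
          have e7 : 3 * ((R : ℤ) ^ 3 * (q : ℤ) ^ 2) < (q : ℤ) ^ 3 := by
            have : (3 * (R : ℤ) ^ 3) * (q : ℤ) ^ 2 < q * (q : ℤ) ^ 2 := by
              apply mul_lt_mul_of_pos_right hq'
              positivity
            nlinarith
          rw [abs_lt]
          constructor <;> linarith [e1.1, e1.2, e2.1, e2.2, e3.1, e3.2, e4.1, e4.2, e5.1, e5.2,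
            e6.1, e6.2])
      intro h0
      apply key
      linear_combination h0
    have := det_phase (Q : ℤ) ((q : ℤ) ^ 4) hQZ hq4 (xI X s) (xI X t) (xI X u) (yI Q Y s) (yI Q Y t)
      (yI Q Y u) b1 b2 b3 k _ _ _ _ _ _ (hA s t) (hA t s) (hA t u) (hA u t) (hA u s) (hA s u)
      (hshift s b2 hb2) (hshift t b1 hb1) (hshift t b3 hb3) (hshift u b2 hb2) (hshift u b1 hb1)
      (hshift s b3 hb3) hM
    push_cast
    exact this

end Crest.Agent.R32
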